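import Vale.Agent.P330B.YSys
import Vale.Agent.P330.CCode

/-! Numbers as codes of positions. -/

namespace Vale.Agent.P330.B

open Finset
open scoped BigOperators

/-- The number of rows. -/
def nR (t : ℕ) : ℕ := Fintype.card (Row t)

/-- A numbering of the rows. -/
noncomputable def rowE (t : ℕ) : Row t ≃ Fin (nR t) := Fintype.equivFin _

/-- The vector with a given code. -/
noncomputable def dA (p t jj N n : ℕ) : CC t jj N → ZMod p :=
  fun z => (n / p ^ (rowE t z.1 * (RR t jj N + 2) + z.2) % p : ℕ)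

/-- The number of vectors. -/
def nV (p t jj N : ℕ) : ℕ := p ^ (nR t * (RR t jj N + 2))

/-- The number of replica indices. -/
def nW (p c t jj N : ℕ) : ℕ := N * c * nV p t jj N

/-- The number of positions. -/
def nP (M p c t jj N : ℕ) : ℕ := M ^ N * (nV p t jj N * nW p c t jj N)

/-- The replica index with a given code. -/
noncomputable def dW (p c t jj N : ℕ) [NeZero c] (n : ℕ) : WW p c t jj N :=
  (dI N c (n % (N * c)), dA p t jj N (n / (N * c)), ())

/-- The position with a given code. -/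
noncomputable def dP (M p c t jj N : ℕ) [NeZero c] (n : ℕ) : PP M p c t jj N :=
  (dX M N (n % M ^ N), dA p t jj N (n / M ^ N % nV p t jj N),
    dW p c t jj N (n / M ^ N / nV p t jj N))

variable {M p c t jj N : ℕ} [Fact M.Prime] [Fact p.Prime]

/-- The code of a vector. -/
noncomputable def cA (a : CC t jj N → ZMod p) : ℕ :=
  ∑ r, ∑ s ∈ range (RR t jj N + 2), (ext a r s).val * p ^ (rowE t r * (RR t jj N + 2) + s)

/-- The code of a replica index. -/
noncomputable def cW (w : WW p c t jj N) : ℕ := cI w.1 + N * c * cA w.2.1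

/-- The code of a position. -/
noncomputable def cP (z : PP M p c t jj N) : ℕ :=
  cX z.1 + M ^ N * (cA z.2.1 + nV p t jj N * cW z.2.2)

lemma cA_eq (a : CC t jj N → ZMod p) (y : ℕ → ℕ)
    (h : ∀ r (s : Fin (RR t jj N + 2)), (a (r, s)).val = y (rowE t r * (RR t jj N + 2) + s)) :
    cA a = ∑ l ∈ range (nR t * (RR t jj N + 2)), y l * p ^ l := by
  rw [CCode_blk, ← Fin.sum_univ_eq_sum_range
    (fun i => ∑ s ∈ range (RR t jj N + 2),
      y (i * (RR t jj N + 2) + s) * p ^ (i * (RR t jj N + 2) + s)) (nR t),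
    ← (rowE t).sum_comp, cA]
  refine sum_congr rfl fun r _ => sum_congr rfl fun s hs => ?_
  rw [ext, dif_pos (mem_range.1 hs), h]

lemma cA_digits (a : CC t jj N → ZMod p) : ∃ y : ℕ → ℕ, (∀ l, y l < p) ∧
    ∀ r (s : Fin (RR t jj N + 2)), (a (r, s)).val = y (rowE t r * (RR t jj N + 2) + s) := by
  haveI : NeZero (nR t) := ⟨(rowE t (.inr true)).pos.ne'⟩
  refine ⟨fun l => (a ((rowE t).symm (Fin.ofNat _ (l / (RR t jj N + 2))), Fin.ofNat _ l)).val,
    fun l => ZMod.val_lt _, fun r s => ?_⟩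
  have h1 : Fin.ofNat (nR t) ((rowE t r * (RR t jj N + 2) + s) / (RR t jj N + 2)) = rowE t r := by
    ext
    rw [Fin.val_ofNat, add_comm, mul_comm, CCode_div s.2, Nat.mod_eq_of_lt (rowE t r).2]
  have h2 : Fin.ofNat (RR t jj N + 2) (rowE t r * (RR t jj N + 2) + s) = s := by
    ext
    rw [Fin.val_ofNat, add_comm, mul_comm, CCode_mod s.2]
  simp only [h1, h2, Equiv.symm_apply_apply]

lemma cA_lt (a : CC t jj N → ZMod p) : cA a < nV p t jj N := by
  obtain ⟨y, h1, h2⟩ := cA_digits a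
  rw [cA_eq a y h2]
  exact CCode_lt h1 _

lemma dA_cA (a : CC t jj N → ZMod p) : dA p t jj N (cA a) = a := by
  obtain ⟨y, h1, h2⟩ := cA_digits a
  funext ⟨r, s⟩
  have h : (rowE t r : ℕ) * (RR t jj N + 2) + s < nR t * (RR t jj N + 2) := by
    have h3 := CCode_mix s.2 (rowE t r).2
    rwa [add_comm, mul_comm, mul_comm _ (nR t)] at h3
  rw [dA, cA_eq a y h2, CCode_dig h1 h, ← h2, ZMod.natCast_zmod_val]

lemma cA_dA {n : ℕ} (h : n < nV p t jj N) : cA (dA p t jj N n) = n := by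
  rw [cA_eq _ (fun l => n / p ^ l % p), CCode_exp]
  · exact Nat.mod_eq_of_lt h
  · intro r s
    rw [dA, ZMod.val_natCast, Nat.mod_mod]

variable [NeZero N] [NeZero c]

lemma cW_lt (w : WW p c t jj N) : cW w < nW p c t jj N := CCode_mix (cI_lt _) (cA_lt _)

lemma dW_cW (w : WW p c t jj N) : dW p c t jj N (cW w) = w := by
  rw [dW, cW, CCode_mod (cI_lt _), CCode_div (cI_lt _), dI_cI, dA_cA]

lemma cW_dW {n : ℕ} (h : n < nW p c t jj N) : cW (dW p c t jj N n) = n := by
  have h1 := Nat.div_lt_of_lt_mul h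
  have p1 : 0 < N * c := Nat.pos_of_mul_pos_right ((Nat.zero_le _).trans_lt h)
  simp only [dW, cW]
  rw [cI_dI (Nat.mod_lt _ p1), cA_dA h1, Nat.mod_add_div]

lemma cP_lt (z : PP M p c t jj N) : cP z < nP M p c t jj N :=
  CCode_mix (cX_lt _) (CCode_mix (cA_lt _) (cW_lt _))

lemma dP_cP (z : PP M p c t jj N) : dP M p c t jj N (cP z) = z := by
  rw [dP, cP, CCode_mod (cX_lt _), CCode_div (cX_lt _), CCode_mod (cA_lt _), CCode_div (cA_lt _),
    dX_cX, dA_cA, dW_cW]

lemma cP_dP {n : ℕ} (h : n < nP M p c t jj N) : cP (dP M p c t jj N n) = n := by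
  have h1 := Nat.div_lt_of_lt_mul h
  have h2 := Nat.div_lt_of_lt_mul h1
  have p1 : 0 < M ^ N := Nat.pos_of_mul_pos_right ((Nat.zero_le _).trans_lt h)
  have p2 : 0 < nV p t jj N := Nat.pos_of_mul_pos_right ((Nat.zero_le _).trans_lt h1)
  simp only [dP, cP]
  rw [cX_dX (Nat.mod_lt _ p1), cA_dA (Nat.mod_lt _ p2), cW_dW h2, Nat.mod_add_div,
    Nat.mod_add_div]

/-- The numbering of the replica indices. -/
noncomputable def eW (p c t jj N : ℕ) [Fact p.Prime] [NeZero N] [NeZero c] :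
    WW p c t jj N ≃ Fin (nW p c t jj N) :=
  ⟨fun w => ⟨cW w, cW_lt w⟩, fun n => dW p c t jj N n, dW_cW, fun n => Fin.ext (cW_dW n.2)⟩

/-- The numbering of the positions. -/
noncomputable def eP (M p c t jj N : ℕ) [Fact M.Prime] [Fact p.Prime] [NeZero N] [NeZero c] :
    PP M p c t jj N ≃ Fin (nP M p c t jj N) :=
  ⟨fun z => ⟨cP z, cP_lt z⟩, fun n => dP M p c t jj N n, dP_cP, fun n => Fin.ext (cP_dP n.2)⟩

end Vale.Agent.P330.B
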