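import Vale.Agent.P330B.CTab

/-! The decoder is computed in polynomial time. -/

namespace Vale.Agent.P330.B

open Vale.Agent.Lib.TM Finset
open scoped BigOperators

variable {α : Type} [Enc α] {M p c t jj : ℕ} [Fact M.Prime] [Fact p.Prime] [NeZero c]
  {N : α → ℕ} [∀ a, NeZero (N a)] {J : Type} [Fintype J] {cx : ∀ a, Cx M p c t jj (N a) J}
  (χ : AddChar (ZMod M) (ZMod p))

/-- A computable family of words. -/
def WdCT (N : α → ℕ) (u : ∀ a, PP M p c t jj (N a) → ZMod p) : Prop :=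
  FinCT fun z : α × ℕ => u z.1 (dP M p c t jj (N z.1) z.2)

lemma WdCT.app (hN : LogN N) {u : ∀ a, PP M p c t jj (N a) → ZMod p} (hu : WdCT N u)
    {z : ∀ a, PP M p c t jj (N a)} (hz : PCT N z) : FinCT fun a => u a (z a) := by
  exact (FinCT.comp' (g := fun a => (a, cP (z a))) hu (CT.id.mk (hz.code hN))).of_eq fun a => by
    simp only [dP_cP]

omit [∀ a, NeZero (N a)] in
lemma CDec_comp {β : Type} [Enc β] {u : ∀ a, PP M p c t jj (N a) → ZMod p} (hu : WdCT N u)
    {f : β → α} (hf : CT 0 f) : WdCT (fun b => N (f b)) fun b => u (f b) :=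
  FinCT.comp' (g := fun z : β × ℕ => (f z.1, z.2)) hu (by fun_prop)

/-- The list of the values of a word. -/
noncomputable def CDecE (M c t jj N : ℕ) [NeZero c] (u : PP M p c t jj N → ZMod p) : List ℕ :=
  (List.range (nP M p c t jj N)).map fun n => (u (dP M p c t jj N n)).val

/-- The word with a given list of values. -/
noncomputable def CDecD (M c t jj N : ℕ) (l : List ℕ) (z : PP M p c t jj N) : ZMod p :=
  (l.getD (cP z) 0 : ℕ)

lemma CDec_de {N : ℕ} [NeZero N] (u : PP M p c t jj N → ZMod p) :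
    CDecD M c t jj N (CDecE M c t jj N u) = u := funext fun z => by
  simp [CDecD, CDecE, List.getD_eq_getElem?_getD, cP_lt z, dP_cP]

lemma CDec_enc (hN : LogN N) {u : ∀ a, PP M p c t jj (N a) → ZMod p} (hu : WdCT N u) :
    CT 0 fun a => CDecE M c t jj (N a) (u a) :=
  CT.map (f := fun a n => (u a (dP M p c t jj (N a) n)).val) (FinCT.toCT hu ZMod.val)
    ((ct_nP hN M p c t jj).1.range (ct_nP hN M p c t jj).2)

lemma CDec_dec (hN : LogN N) {l : α → List ℕ} (hl : CT 0 l) :
    WdCT (M := M) (p := p) (c := c) (t := t) (jj := jj) N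
      fun a => CDecD M c t jj (N a) (l a) :=
  FinCT.zmod p ((hl.comp CT.id.fst).getD
    ((p_dP (hN.comp CT.id.fst) CT.id.snd).code (hN.comp CT.id.fst)) (CT.const 0))

lemma CDec_step (hM : (M : ZMod p) ≠ 0) (h : CxCT N cx)
    (R : Rule (QQ M t jj J) (GG p t) (ZMod p)) {u : ∀ a, PP M p c t jj (N a) → ZMod p}
    (hu : WdCT N u) : WdCT N fun a => corStep R ((cx a).sys χ) (u a) := by
  classical
  have h' := h.comp (f := fun z : α × ℕ => z.1) CT.id.fst
  have hz := p_dP (M := M) (p := p) (c := c) (t := t) (jj := jj) h'.hN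
    (n := fun z : α × ℕ => z.2) CT.id.snd
  exact (h'.tab hM hz).op2 (FinCT.pi fun q =>
    (CDec_comp hu CT.id.fst).app h'.hN (h'.adF χ q hz)) R.cor

theorem CxCT.iter (hM : (M : ZMod p) ≠ 0) (h : CxCT N cx)
    (R : Rule (QQ M t jj J) (GG p t) (ZMod p)) {u : ∀ a, PP M p c t jj (N a) → ZMod p}
    (hu : WdCT N u) {n : α → ℕ} (hn : CT 0 n) (hB : Bd 0 n) :
    WdCT N fun a => (corStep R ((cx a).sys χ))^[n a] (u a) := by
  have e : ∀ a k, (fun l => CDecE M c t jj (N a)
      (corStep R ((cx a).sys χ) (CDecD M c t jj (N a) l)))^[k] (CDecE M c t jj (N a) (u a)) =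
      CDecE M c t jj (N a) ((corStep R ((cx a).sys χ))^[k] (u a)) := by
    intro a k
    induction k with
    | zero => rfl
    | succ k ih => rw [Function.iterate_succ_apply', Function.iterate_succ_apply', ih, CDec_de]
  have h' := h.comp (f := fun z : α × List ℕ => z.1) CT.id.fst
  have key := ct_iterL
    (f := fun a l => CDecE M c t jj (N a) (corStep R ((cx a).sys χ) (CDecD M c t jj (N a) l))) p
    (CDec_enc h'.hN (CDec_step χ hM h' R (CDec_dec h'.hN CT.id.snd))) (CDec_enc h.hN hu) hn hB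
    (ct_nP h.hN M p c t jj).2 fun a l => ⟨by simp [CDecE], fun x hx => by
      obtain ⟨n, -, rfl⟩ := List.mem_map.1 hx
      exact ZMod.val_lt _⟩
  exact FinCT.of_eq (CDec_dec (M := M) (c := c) (t := t) (jj := jj) h.hN key) fun z => by
    simp only [e, CDec_de]

theorem CxCT.extW (h : CxCT N cx) {u : ∀ a, PP M p c t jj (N a) → ZMod p} (hu : WdCT N u)
    (σ : Slot) : CT 0 fun a => (cx a).extW (u a) σ := by
  have h' := h.comp (f := fun z : α × ℕ => z.1) CT.id.fst
  have hy : PtCT (fun z : α × ℕ => N z.1) fun z => (cx z.1).yv ((cx z.1).cp z.2) :=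
    h'.yv (r := fun z j => (cx z.1).cp z.2 j) fun j =>
      h.cp.comp (g := fun z : α × ℕ => (z.1, z.2, j)) (CT.id.fst.mk (CT.id.snd.mk (CT.const j)))
  have hz : PCT (M := M) (p := p) (c := c) (t := t) (jj := jj) (fun z : α × ℕ => N z.1) fun z =>
      ((cx z.1).yv ((cx z.1).cp z.2), Pi.single (.inl ((σ, lastS t), 0), 0) 1, 0) :=
    ⟨hy, VecCT.single h'.hN _, WCT.zero⟩
  have ha := (CDec_comp hu (f := fun z : α × ℕ => z.1) CT.id.fst).app h'.hN hz
  have hk : CT 0 fun a => (cx a).A.k := h.A.fst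
  exact CT.map (f := fun a i => decide (u a ((cx a).yv ((cx a).cp i),
    Pi.single (.inl ((σ, lastS t), 0), 0) 1, 0) = 1))
    (ha.toCT fun v => decide (v = 1)) (hk.range h.bk)

end Vale.Agent.P330.B
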