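import Vale.Agent.P330B.CCode
import Vale.Agent.P330.CParA
import Vale.Agent.P330.Net

/-! The constants, the dimension and the size. -/

namespace Vale.Agent.P330.B

open Vale.Agent.Lib.TM Finset

/-- The number of cells in the pigeonhole argument. -/
def BB (t : ℕ) : ℕ := 40000 * DD t 1

/-- The loss for each coordinate of a block. -/
def UU (t c : ℕ) : ℕ := BB t ^ ((t + 2) * c)

/-- The requirements on the constants. -/
structure Par (M p c t jj d : ℕ) [Fact M.Prime] [Fact p.Prime] (χ : AddChar (ZMod M) (ZMod p)) :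
    Prop where
  prim : χ.IsPrimitive
  hM : 20000 * (DD t d + 2) ≤ M
  hp : 1000 + 64 * t ≤ p
  hMp : (M : ZMod p) ≠ 0
  hc : 3 ≤ lam0 * c
  hMc : 2 ^ (c + 2) ≤ M
  hB : M ≤ BB t * (d + 1)
  hMB : (2 * UU t c) ^ (t + 2) ≤ M
  hj0 : 0 < jj
  hj : p ^ (2 * nR t) ≤ 2 ^ jj

lemma CDim_BB (t : ℕ) : 0 < BB t := by
  unfold BB DD Dm
  positivity

lemma CDim_DD (t d : ℕ) : DD t d = DD t 1 * d := by
  unfold DD Dm
  ring

theorem exists_par (t : ℕ) : ∃ (M p c jj d : ℕ) (_ : Fact M.Prime) (_ : Fact p.Prime)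
    (_ : NeZero c) (χ : AddChar (ZMod M) (ZMod p)), Par M p c t jj d χ := by
  have hl : 0 < lam0 := by unfold lam0; positivity
  obtain ⟨c, hc⟩ := exists_nat_ge (3 / lam0)
  rw [div_le_iff₀' hl] at hc
  have hc0 : c ≠ 0 := by
    rintro rfl
    norm_num at hc
  obtain ⟨M, hM, hMp⟩ := Nat.exists_infinite_primes (80000 + 2 ^ (c + 2) + (2 * UU t c) ^ (t + 2))
  obtain ⟨p, hp, h1, h2⟩ := Nat.exists_prime_gt_modEq_one (1000 + 64 * t + M) hMp.ne_zero
  haveI : Fact M.Prime := ⟨hMp⟩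
  haveI : Fact p.Prime := ⟨hp⟩
  have h3 : M ∣ Fintype.card (ZMod p)ˣ := by
    rw [ZMod.card_units]
    exact (Nat.modEq_iff_dvd' hp.one_lt.le).1 h2.symm
  obtain ⟨z, hz⟩ := exists_prime_orderOf_dvd_card M h3
  have h4 : IsPrimitiveRoot (z : ZMod p) M :=
    IsPrimitiveRoot.coe_units_iff.2 (hz ▸ IsPrimitiveRoot.orderOf z)
  refine ⟨M, p, c, 2 * nR t * p.size + 1, M / BB t, inferInstance, inferInstance, ⟨hc0⟩, _,
    AddChar.zmodChar_primitive_of_primitive_root M h4, ?_, ?_, ?_, hc, ?_, ?_, ?_,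
    Nat.succ_pos _, ?_⟩
  · have h5 : BB t * (M / BB t) ≤ M := Nat.mul_div_le _ _
    rw [CDim_DD]
    generalize M / BB t = d at *
    rw [BB, mul_assoc] at h5
    generalize 2 ^ (c + 2) = u, (2 * UU t c) ^ (t + 2) = v at hM
    omega
  · exact (Nat.le_add_right _ _).trans h1.le
  · intro h5
    exact absurd (Nat.le_of_dvd hMp.pos ((ZMod.natCast_eq_zero_iff M p).1 h5))
      (not_le.2 ((Nat.le_add_left _ _).trans_lt h1))
  · exact ((Nat.le_add_left _ _).trans (Nat.le_add_right _ _)).trans hM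
  · exact (Nat.lt_mul_div_succ M (CDim_BB t)).le
  · exact (Nat.le_add_left _ _).trans hM
  · refine (Nat.pow_le_pow_left (Nat.lt_size_self p).le _).trans ?_
    rw [← pow_mul, mul_comm]
    exact Nat.pow_le_pow_right two_pos (Nat.le_succ _)

lemma CDim_head {P : ℕ → Bool} {n : ℕ} (h : P n = true) :
    ((List.range (n + 1)).filter P).headD 0 ≤ n ∧
      P (((List.range (n + 1)).filter P).headD 0) = true ∧
      ∀ r < ((List.range (n + 1)).filter P).headD 0, P r = false := by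
  have h1 : n ∈ (List.range (n + 1)).filter P :=
    List.mem_filter.2 ⟨List.mem_range.2 n.lt_succ_self, h⟩
  have h2 : ((List.range (n + 1)).filter P).Pairwise (· < ·) := List.pairwise_lt_range.filter _
  have h3 : ∀ r, r ∈ (List.range (n + 1)).filter P ↔ r < n + 1 ∧ P r = true := fun r => by
    rw [List.mem_filter, List.mem_range]
  obtain ⟨y, l, e⟩ := List.exists_cons_of_ne_nil (List.ne_nil_of_mem h1)
  rw [e] at h2 h3 ⊢
  rw [List.headD_cons]
  have h4 := (h3 y).1 List.mem_cons_self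
  refine ⟨by omega, h4.2, fun r hr => ?_⟩
  by_contra h5
  rcases List.mem_cons.1 ((h3 r).2 ⟨by omega, by simpa using h5⟩) with h6 | h6
  · omega
  · have := (List.pairwise_cons.1 h2).1 r h6
    omega

variable {α : Type} [Enc α]

/-- The least witness. -/
theorem ct_first {P : α → ℕ → Bool} (hP : CT 0 fun z : α × ℕ => P z.1 z.2) {n : α → ℕ}
    (hn : CT 0 n) (hB : Bd 0 n) (h : ∀ a, P a (n a) = true) :
    ∃ f : α → ℕ, CT 0 f ∧ ∀ a, f a ≤ n a ∧ P a (f a) = true ∧ ∀ r < f a, P a r = false :=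
  ⟨fun a => ((List.range (n a + 1)).filter (P a)).headD 0,
    (CT.filter hP ((hn.add (CT.const 1)).range (hB.add (Bd.const 1)))).headD (CT.const 0),
    fun a => CDim_head (h a)⟩

theorem exists_root (t : ℕ) {K : α → ℕ} (hK : CT 0 K) (hB : Bd 0 K) :
    ∃ k : α → ℕ, CT 0 k ∧ Bd 0 k ∧ ∀ a, 2 * (K a + 1) ≤ k a ^ (t + 1) ∧
      (4 * k a + 1) ^ (t + 1) ≤ 9 ^ (t + 1) * (2 * (K a + 1)) := by
  have hn : CT 0 fun a => 2 * (K a + 1) := (CT.const 2).mul (hK.add (CT.const 1))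
  have hb : Bd 0 fun a => 2 * (K a + 1) := (Bd.const 2).mul (hB.add (Bd.const 1))
  obtain ⟨k, h1, h2⟩ := ct_first (P := fun a k => Nat.ble (2 * (K a + 1)) (k ^ (t + 1)))
    ((hn.comp CT.id.fst).ble (CT.id.snd.pow (CT.const (t + 1)) (Bd.const (t + 1)))) hn hb
    fun a => Nat.ble_eq_true_of_le (Nat.le_self_pow t.succ_ne_zero _)
  refine ⟨k, h1, hb.of_le fun a => (h2 a).1, fun a => ?_⟩
  obtain ⟨-, a2, a3⟩ := h2 a
  have b2 : 2 * (K a + 1) ≤ k a ^ (t + 1) := Nat.le_of_ble_eq_true a2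
  have b3 : 2 ≤ k a := by
    by_contra hk
    have := Nat.pow_le_pow_left (show k a ≤ 1 by omega) (t + 1)
    rw [one_pow] at this
    omega
  have b4 : (k a - 1) ^ (t + 1) ≤ 2 * (K a + 1) := by
    have := a3 (k a - 1) (by omega)
    rw [← Bool.not_eq_true, Nat.ble_eq] at this
    omega
  refine ⟨b2, (Nat.pow_le_pow_left (show 4 * k a + 1 ≤ 9 * (k a - 1) by omega) _).trans ?_⟩
  rw [mul_pow]
  exact Nat.mul_le_mul_left _ b4

theorem exists_len {M U jj : ℕ} (hU : 0 < U) (hM : 2 * U ≤ M) (hj : 0 < jj) {x : α → ℕ}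
    (hx : CT 0 x) (hB : Bd 0 x) (h2 : ∀ a, 2 ≤ x a) :
    ∃ R : α → ℕ, LogN R ∧ ∀ a, 1 ≤ R a ∧ x a * U ^ (jj * R a) ≤ M ^ (jj * R a) ∧
      M ^ (jj * (R a - 1)) < x a * U ^ (jj * (R a - 1)) := by
  have he : CT 0 fun z : α × ℕ => jj * min z.2 (x z.1).size :=
    (CT.const jj).mul (CT.id.snd.min (hx.comp CT.id.fst).natSize)
  have hb : Bd 0 fun z : α × ℕ => jj * min z.2 (x z.1).size :=
    (Bd.const jj).mul ((hx.comp CT.id.fst).bd_size.of_le fun z => min_le_right _ _)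
  obtain ⟨R, h1, h3⟩ := ct_first (P := fun a r =>
      Nat.ble (x a * U ^ (jj * min r (x a).size)) (M ^ (jj * min r (x a).size)))
    (((hx.comp CT.id.fst).mul ((CT.const U).pow he hb)).ble ((CT.const M).pow he hb))
    hx.natSize hx.bd_size fun a => Nat.ble_eq_true_of_le (by
      rw [min_self]
      refine le_trans ?_ (Nat.pow_le_pow_left hM _)
      rw [mul_pow]
      exact Nat.mul_le_mul_right _ ((Nat.lt_size_self _).le.trans
        (Nat.pow_le_pow_right two_pos (Nat.le_mul_of_pos_left _ hj))))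
  refine ⟨R, ⟨h1, ((Bd.const 2).mul hB).of_le fun a => ?_⟩, fun a => ?_⟩
  · have a1 := cpara_size (x a - 1)
    rw [show x a - 1 + 1 = x a by have := h2 a; omega] at a1
    exact (Nat.pow_le_pow_right two_pos (h3 a).1).trans a1
  · obtain ⟨a1, a2, a3⟩ := h3 a
    rw [min_eq_left a1, Nat.ble_eq] at a2
    have b1 : 1 ≤ R a := by
      by_contra hr
      rw [show R a = 0 by omega, mul_zero, pow_zero, pow_zero] at a2
      have := h2 a
      omega
    have b2 := a3 (R a - 1) (by omega)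
    rw [min_eq_left (by omega), ← Bool.not_eq_true, Nat.ble_eq] at b2
    exact ⟨b1, a2, not_le.1 b2⟩

lemma LogN_mul {R : α → ℕ} (h : LogN R) (C : ℕ) : LogN fun a => C * R a :=
  ⟨(CT.const C).mul h.1, (cpara_pow h.2 C).of_le fun a => (pow_mul' 2 C (R a)).le⟩

lemma CDim_pow {M U t n x : ℕ} (hU : 0 < U) (hM : (2 * U) ^ (t + 2) ≤ M) (h : M ^ n < x * U ^ n) :
    2 ^ n < x ∧ M ^ (n * (t + 2)) ≤ x ^ (t + 4) := by
  have h1 : 2 * U ≤ M := (Nat.le_self_pow (by omega) _).trans hM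
  have h2 : U ^ (t + 2) ≤ M := (Nat.pow_le_pow_left (by omega) _).trans hM
  have h3 : 2 ^ n < x := by
    have := (Nat.pow_le_pow_left h1 n).trans_lt h
    rw [mul_pow] at this
    exact Nat.lt_of_mul_lt_mul_right this
  have hx : 0 < x := (Nat.zero_le _).trans_lt h3
  have h4 : M ^ (n * (t + 1)) ≤ x ^ (t + 2) := by
    have a1 := Nat.pow_le_pow_left h.le (t + 2)
    rw [mul_pow, ← pow_mul U, mul_comm n, pow_mul U] at a1
    have a2 := a1.trans (Nat.mul_le_mul_left _ (Nat.pow_le_pow_left h2 n))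
    rw [← pow_mul, show n * (t + 2) = n * (t + 1) + n by ring, pow_add] at a2
    exact Nat.le_of_mul_le_mul_right a2 (Nat.pow_pos (by omega))
  refine ⟨h3, (Nat.pow_le_pow_iff_left t.succ_ne_zero).1 ?_⟩
  have a3 := Nat.pow_le_pow_left h4 (t + 2)
  rw [← pow_mul, ← pow_mul] at a3 ⊢
  rw [show n * (t + 2) * t.succ = n * (t + 1) * (t + 2) by rw [Nat.succ_eq_add_one]; ring]
  refine a3.trans (Nat.pow_le_pow_right hx ?_)
  rw [Nat.succ_eq_add_one]
  nlinarith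

lemma CDim_size {n C x k : ℕ} (hx : 0 < x) (h : n ≤ C * x ^ k) :
    n * (n.size + 1) ≤ C * (C + k + 1) * x ^ (k + 1) := by
  have h1 : n.size ≤ C + x * k := by
    refine Nat.size_le.2 (h.trans_lt ?_)
    rw [pow_add, pow_mul]
    exact Nat.mul_lt_mul_of_lt_of_le Nat.lt_two_pow_self
      (Nat.pow_le_pow_left Nat.lt_two_pow_self.le _) (by positivity)
  have h2 : n.size + 1 ≤ (C + k + 1) * x := by nlinarith
  calc n * (n.size + 1) ≤ C * x ^ k * ((C + k + 1) * x) := Nat.mul_le_mul h h2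
    _ = _ := by ring

theorem nP_bound {M p c t jj d : ℕ} [Fact M.Prime] [Fact p.Prime]
    {χ : AddChar (ZMod M) (ZMod p)} (h : Par M p c t jj d χ) : ∃ C : ℕ, ∀ x R : ℕ, 1 ≤ R →
      M ^ (jj * (R - 1)) < x * UU t c ^ (jj * (R - 1)) →
      nP M p c t jj ((t + 2) * jj * R) * ((nP M p c t jj ((t + 2) * jj * R)).size + 1) ≤
        C * x ^ (t + 7) := by
  refine ⟨_, fun x R hR hx => CDim_size (C := M ^ ((t + 2) * jj) * p ^ (6 * nR t) *
    ((t + 2) * jj * c)) (k := t + 6) ?_ ?_⟩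
  · exact Nat.pos_of_mul_pos_right ((Nat.zero_le _).trans_lt hx)
  obtain ⟨h1, h2⟩ := CDim_pow (Nat.pow_pos (CDim_BB t)) h.hMB hx
  obtain ⟨r, rfl⟩ : ∃ r, R = r + 1 := ⟨R - 1, by omega⟩
  rw [Nat.add_sub_cancel] at h1 h2
  have e1 : RR t jj ((t + 2) * jj * (r + 1)) = r + 1 :=
    Nat.mul_div_cancel_left _ (Nat.mul_pos (by omega) h.hj0)
  have a1 : r + 1 ≤ x :=
    ((Nat.le_mul_of_pos_left r h.hj0).trans Nat.lt_two_pow_self.le).trans_lt h1
  have a2 : M ^ ((t + 2) * jj * (r + 1)) ≤ M ^ ((t + 2) * jj) * x ^ (t + 4) := by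
    rw [show (t + 2) * jj * (r + 1) = (t + 2) * jj + jj * r * (t + 2) by ring, pow_add]
    exact Nat.mul_le_mul_left _ h2
  have a3 : p ^ (nR t * (r + 1 + 2)) * p ^ (nR t * (r + 1 + 2)) ≤ p ^ (6 * nR t) * x := by
    rw [← pow_add, show nR t * (r + 1 + 2) + nR t * (r + 1 + 2) = 6 * nR t + 2 * nR t * r by ring,
      pow_add, pow_mul p (2 * nR t)]
    refine Nat.mul_le_mul_left _ ((Nat.pow_le_pow_left h.hj r).trans ?_)
    rw [← pow_mul]
    exact h1.le
  unfold nP nW nV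
  rw [e1]
  calc M ^ ((t + 2) * jj * (r + 1)) * (p ^ (nR t * (r + 1 + 2)) *
        ((t + 2) * jj * (r + 1) * c * p ^ (nR t * (r + 1 + 2))))
      = M ^ ((t + 2) * jj * (r + 1)) * (p ^ (nR t * (r + 1 + 2)) * p ^ (nR t * (r + 1 + 2))) *
        ((t + 2) * jj * c * (r + 1)) := by ring
    _ ≤ M ^ ((t + 2) * jj) * x ^ (t + 4) * (p ^ (6 * nR t) * x) * ((t + 2) * jj * c * x) :=
        Nat.mul_le_mul (Nat.mul_le_mul a2 a3) (Nat.mul_le_mul_left _ a1)
    _ = _ := by ring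

theorem build_sz {Q Γ : Type} [Fintype Γ] {m : ℕ} (self : Q) {G : Γ → List (SGate Q)}
    (hG : ∀ γ, GadOk m (G γ)) : ∃ C : ℕ, ∀ (n : ℕ) (ad : Q → ℕ → ℕ) (tb : ℕ → Γ), 0 < n →
      (∀ q, ∀ i < n, ad q i < n) → sz (build m n self ad tb G) ≤ C * (n * (n.size + 1)) := by
  obtain ⟨K, hK⟩ : ∃ K : ℕ, ∀ γ, ∀ g ∈ G γ, sz g.op + sz g.num + sz g.den ≤ K :=
    ⟨∑ γ, ((G γ).map fun g => sz g.op + sz g.num + sz g.den).sum, fun γ g hg =>
      (List.single_le_sum (fun _ _ => Nat.zero_le _) _ (List.mem_map_of_mem hg)).trans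
        (single_le_sum (f := fun γ => ((G γ).map fun g => sz g.op + sz g.num + sz g.den).sum)
          (fun _ _ => Nat.zero_le _) (mem_univ γ))⟩
  refine ⟨(K + 3 * sz m + 30) * (m + 1), fun n ad tb hn had => ?_⟩
  have h1 : sz (n * m) ≤ 6 * n.size + 1 + sz m := by
    rw [← sz_nat]
    exact sz_mul_le n m
  have h2 : ∀ g ∈ (build m n self ad tb G).2, sz g ≤ K + 3 * (6 * n.size + 1 + sz m) + 5 := by
    intro g hg
    obtain ⟨i, hi, h3⟩ := List.mem_flatMap.1 hg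
    obtain ⟨a, ha, rfl⟩ := List.mem_map.1 h3
    obtain ⟨-, k2, k3, k4, -, -⟩ := (hG _).2.2 a ha
    have k := fun q => had q i (List.mem_range.1 hi)
    have b1 := sz_mono (net_lt (k self) k2).le
    have b2 := sz_mono (net_lt (k a.qa) k3).le
    have b3 := sz_mono (net_lt (k a.qb) k4).le
    have b4 := hK _ a ha
    simp only [SGate.inst, nodeNm, sz_pair]
    omega
  have h3 := (sz_list_le h2).trans (Nat.add_le_add_right (Nat.mul_le_mul_right _ (net_len hG).2) 1)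
  have h4 : K + 3 * (6 * n.size + 1 + sz m) + 5 + 1 ≤ (K + 3 * sz m + 30) * (n.size + 1) := by
    nlinarith [Nat.zero_le (K * n.size), Nat.zero_le (sz m * n.size)]
  have h5 := Nat.mul_le_mul_left (n * m) h4
  have h6 := Nat.le_mul_of_pos_left ((K + 3 * sz m + 30) * (n.size + 1)) hn
  rw [sz_prod]
  change sz (n * m) + _ + 1 ≤ _
  calc sz (n * m) + sz (build m n self ad tb G).2 + 1
      ≤ n * m * ((K + 3 * sz m + 30) * (n.size + 1)) + n * ((K + 3 * sz m + 30) * (n.size + 1)) := by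
        omega
    _ = _ := by ring

theorem real_bound {γ : ℝ} (hγ : 0 < γ) : ∃ t : ℕ, ∀ C : ℕ, ∃ C' : ℝ, ∀ s n : ℕ, 0 < n →
    s ^ (t + 1) ≤ C * n ^ (t + 7) → (s : ℝ) ≤ C' * (n : ℝ) ^ (1 + γ) := by
  obtain ⟨t, ht⟩ := exists_nat_ge (6 / γ)
  rw [div_le_iff₀ hγ] at ht
  refine ⟨t, fun C => ⟨C + 1, fun s n hn h => ?_⟩⟩
  have hn' : (1 : ℝ) ≤ n := Nat.one_le_cast.2 hn
  have h1 : (s : ℝ) ^ (t + 1) ≤ C * (n : ℝ) ^ (t + 7) := by exact_mod_cast h
  have h2 : (n : ℝ) ^ (t + 7) ≤ ((n : ℝ) ^ (1 + γ)) ^ (t + 1) := by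
    rw [← Real.rpow_natCast, ← Real.rpow_natCast, ← Real.rpow_mul (by linarith)]
    refine Real.rpow_le_rpow_of_exponent_le hn' ?_
    push_cast
    nlinarith
  have h3 : (C : ℝ) ≤ ((C : ℝ) + 1) ^ (t + 1) :=
    (le_add_of_nonneg_right zero_le_one).trans
      (le_self_pow₀ (le_add_of_nonneg_left (Nat.cast_nonneg C)) t.succ_ne_zero)
  refine le_of_pow_le_pow_left₀ t.succ_ne_zero (by positivity) (h1.trans ?_)
  rw [mul_pow]
  exact mul_le_mul h3 h2 (by positivity) (by positivity)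

end Vale.Agent.P330.B
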