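import Vale.Agent.P330.CFam

/-! Gaussian elimination in polynomial time. -/

namespace Vale.Agent.P330.B

open Vale.Agent.Lib.TM Finset
open scoped BigOperators

section Pure

variable {p : ℕ} [Fact p.Prime]

/-- The pairing of a row with a column. -/
def CGaussD (F : ℕ → ℕ → ZMod p) (K : ℕ) (r : ℕ → ZMod p) (x : ℕ) : ZMod p :=
  ∑ l ∈ range K, r l * F l x

/-- The reduced new row. -/
def CGaussR (F : ℕ → ℕ → ZMod p) (K m : ℕ) (C : ℕ → ℕ → ZMod p) (y : ℕ → ℕ) (l : ℕ) : ZMod p :=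
  (if l = m then 1 else 0) - ∑ i ∈ range K, F m (y i) * C i l

/-- The new pivot column. -/
def CGaussX (F : ℕ → ℕ → ZMod p) (K n : ℕ) (r : ℕ → ZMod p) : ℕ :=
  ((List.range n).filter fun x => !decide (CGaussD F K r x = 0)).headD 0

/-- The updated matrix. -/
def CGaussC (F : ℕ → ℕ → ZMod p) (K m : ℕ) (C : ℕ → ℕ → ZMod p) (r : ℕ → ZMod p) (x : ℕ)
    (i l : ℕ) : ZMod p :=
  if i = m then r l * (CGaussD F K r x)⁻¹
  else C i l - CGaussD F K (C i) x * (r l * (CGaussD F K r x)⁻¹)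

/-- The invariant of the elimination. -/
def CGaussI (F : ℕ → ℕ → ZMod p) (K m : ℕ) (C : ℕ → ℕ → ZMod p) (y : ℕ → ℕ) : Prop :=
  (∀ i < K, ∀ l < K, m ≤ i ∨ m ≤ l → C i l = 0) ∧
    ∀ i < m, ∀ j < m, CGaussD F K (C i) (y j) = if i = j then 1 else 0

lemma cgauss_X_le (F : ℕ → ℕ → ZMod p) (K n : ℕ) (r : ℕ → ZMod p) : CGaussX F K n r ≤ n := by
  unfold CGaussX
  cases h : (List.range n).filter fun x => !decide (CGaussD F K r x = 0) with
  | nil => simp
  | cons x t =>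
    have hx : x ∈ (List.range n).filter fun x => !decide (CGaussD F K r x = 0) := by
      rw [h]; simp
    exact (List.mem_range.mp (List.mem_filter.mp hx).1).le

lemma cgauss_X_ne {F : ℕ → ℕ → ZMod p} {K n : ℕ} {r : ℕ → ZMod p}
    (h : ∃ x < n, CGaussD F K r x ≠ 0) : CGaussD F K r (CGaussX F K n r) ≠ 0 := by
  unfold CGaussX
  obtain ⟨x, hx, h0⟩ := h
  have hm : x ∈ (List.range n).filter fun x => !decide (CGaussD F K r x = 0) :=
    List.mem_filter.mpr ⟨List.mem_range.mpr hx, by simpa using h0⟩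
  cases h : (List.range n).filter fun x => !decide (CGaussD F K r x = 0) with
  | nil => rw [h] at hm; simp at hm
  | cons x t =>
    have hx : x ∈ (List.range n).filter fun x => !decide (CGaussD F K r x = 0) := by
      rw [h]; simp
    simpa using (List.mem_filter.mp hx).2

lemma cgauss_D_congr {F : ℕ → ℕ → ZMod p} {K : ℕ} {r r' : ℕ → ZMod p}
    (h : ∀ l < K, r l = r' l) (x : ℕ) : CGaussD F K r x = CGaussD F K r' x :=
  sum_congr rfl fun l hl => by rw [h l (mem_range.mp hl)]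

lemma cgauss_step {F : ℕ → ℕ → ZMod p} {K n m : ℕ} {C C' : ℕ → ℕ → ZMod p} {y y' : ℕ → ℕ}
    (hI : ∀ r : ℕ → ZMod p, (∀ x < n, ∑ i ∈ range K, r i * F i x = 0) → ∀ i < K, r i = 0)
    (hm : m < K) (h : CGaussI F K m C y)
    (hC : ∀ i < K, ∀ l < K, C' i l = CGaussC F K m C (CGaussR F K m C y)
      (CGaussX F K n (CGaussR F K m C y)) i l)
    (hy : ∀ j < K, y' j = if j = m then CGaussX F K n (CGaussR F K m C y) else y j) :
    CGaussI F K (m + 1) C' y' := by
  obtain ⟨h0, h1⟩ := h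
  set r := CGaussR F K m C y with hr
  set x := CGaussX F K n r with hx
  have hz : ∀ i < K, m ≤ i → ∀ u, CGaussD F K (C i) u = 0 := fun i hi him u =>
    sum_eq_zero fun l hl => by rw [h0 i hi l (mem_range.mp hl) (Or.inl him), zero_mul]
  have hrl : ∀ l < K, m ≤ l → r l = if l = m then 1 else 0 := fun l hl hml => by
    rw [hr, CGaussR, sum_eq_zero fun i hi => by
      rw [h0 i (mem_range.mp hi) l hl (Or.inr hml), mul_zero], sub_zero]
  have hne : CGaussD F K r x ≠ 0 := by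
    refine cgauss_X_ne ?_
    by_contra hc
    push Not at hc
    have := hI r hc m hm
    rw [hrl m hm le_rfl, if_pos rfl] at this
    exact one_ne_zero this
  have hry : ∀ j < m, CGaussD F K r (y j) = 0 := fun j hj => by
    have e1 : CGaussD F K r (y j) =
        F m (y j) - ∑ i ∈ range K, F m (y i) * CGaussD F K (C i) (y j) := by
      simp only [CGaussD, hr, CGaussR, sub_mul, sum_sub_distrib, ite_mul, one_mul, zero_mul,
        sum_ite_eq', mem_range, hm, if_true, sum_mul, mul_sum, mul_assoc]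
      rw [sum_comm]
    have e2 : ∀ i ∈ range K, F m (y i) * CGaussD F K (C i) (y j) =
        if i = j then F m (y i) else 0 := fun i hi => by
      by_cases him : i < m
      · rw [h1 i him j hj]; split_ifs <;> simp
      · rw [hz i (mem_range.mp hi) (by omega), if_neg (by omega), mul_zero]
    rw [e1, sum_congr rfl e2, sum_ite_eq', if_pos (mem_range.mpr (by omega)), sub_self]
  have hDm : ∀ u, CGaussD F K (C' m) u = CGaussD F K r u * (CGaussD F K r x)⁻¹ := fun u => by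
    rw [cgauss_D_congr (r' := fun l => r l * (CGaussD F K r x)⁻¹)
      (fun l hl => by rw [hC m hm l hl, CGaussC, if_pos rfl])]
    rw [CGaussD, CGaussD.eq_1 F K r u, sum_mul]
    exact sum_congr rfl fun l _ => by ring
  have hDi : ∀ i < K, i ≠ m → ∀ u, CGaussD F K (C' i) u = CGaussD F K (C i) u -
      CGaussD F K (C i) x * (CGaussD F K r u * (CGaussD F K r x)⁻¹) := fun i hi him u => by
    rw [cgauss_D_congr
      (r' := fun l => C i l - CGaussD F K (C i) x * (r l * (CGaussD F K r x)⁻¹))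
      (fun l hl => by rw [hC i hi l hl, CGaussC, if_neg him])]
    rw [CGaussD, CGaussD.eq_1 F K r u, CGaussD.eq_1 F K (C i) u, sum_mul, mul_sum,
      ← sum_sub_distrib]
    exact sum_congr rfl fun l _ => by ring
  refine ⟨fun i hi l hl hil => ?_, fun i hi j hj => ?_⟩
  · rw [hC i hi l hl, CGaussC]
    rcases hil with hil | hil
    · rw [if_neg (by omega), h0 i hi l hl (Or.inl (by omega)), hz i hi (by omega)]
      simp
    · rw [hrl l hl (by omega), if_neg (show l ≠ m by omega), h0 i hi l hl (Or.inr (by omega))]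
      simp
  · rw [hy j (by omega)]
    by_cases him : i = m
    · subst him
      rw [hDm]
      by_cases hj' : j = i
      · rw [if_pos hj', if_pos hj'.symm, mul_inv_cancel₀ hne]
      · rw [if_neg hj', if_neg (Ne.symm hj'), hry j (by omega), zero_mul]
    · rw [hDi i (by omega) him]
      by_cases hj' : j = m
      · rw [if_pos hj', mul_inv_cancel₀ hne, if_neg (by omega), mul_one, sub_self]
      · rw [if_neg hj', hry j (by omega), h1 i (by omega) j (by omega)]
        simp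

/-- Reading a matrix from a list of rows. -/
def CGaussM (p : ℕ) (s : List (List ℕ)) (i l : ℕ) : ZMod p := ((s.getD i []).getD l 0 : ℕ)

/-- One step on lists. -/
def CGaussS (F : ℕ → ℕ → ZMod p) (K n : ℕ) (s : List (List ℕ) × List ℕ) (m : ℕ) :
    List (List ℕ) × List ℕ :=
  ((List.range K).map fun i => (List.range K).map fun l =>
      (CGaussC F K m (CGaussM p s.1) (CGaussR F K m (CGaussM p s.1) fun j => s.2.getD j 0)
        (CGaussX F K n (CGaussR F K m (CGaussM p s.1) fun j => s.2.getD j 0)) i l).val,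
    (List.range K).map fun j =>
      if j = m then CGaussX F K n (CGaussR F K m (CGaussM p s.1) fun j => s.2.getD j 0)
      else s.2.getD j 0)

lemma cgauss_getD {γ : Type} {K j : ℕ} (f : ℕ → γ) (d : γ) (h : j < K) :
    ((List.range K).map f).getD j d = f j := by
  simp [List.getD_eq_getElem?_getD, h]

lemma cgauss_fold {F : ℕ → ℕ → ZMod p} {K n : ℕ}
    (hI : ∀ r : ℕ → ZMod p, (∀ x < n, ∑ i ∈ range K, r i * F i x = 0) → ∀ i < K, r i = 0)
    (m : ℕ) (hm : m ≤ K) :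
    CGaussI F K m (CGaussM p ((List.range m).foldl (CGaussS F K n) ([], [])).1)
      fun j => ((List.range m).foldl (CGaussS F K n) ([], [])).2.getD j 0 := by
  induction m with
  | zero => exact ⟨fun i _ l _ _ => by simp [CGaussM], fun i hi => absurd hi (by omega)⟩
  | succ m ih =>
    rw [List.range_succ, List.foldl_append, List.foldl_cons, List.foldl_nil]
    refine cgauss_step hI (by omega) (ih (by omega)) (fun i hi l hl => ?_) fun j hj => ?_
    · rw [CGaussM, CGaussS, cgauss_getD _ _ hi, cgauss_getD _ _ hl, ZMod.natCast_zmod_val]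
    · rw [CGaussS, cgauss_getD _ _ hj]

end Pure

section Comp

variable {β : Type} [Enc β] {p : ℕ} [Fact p.Prime] {F C : β → ℕ → ℕ → ZMod p}
  {r : β → ℕ → ZMod p} {y : β → ℕ → ℕ} {K n m x : β → ℕ}

lemma cgauss_ctD (hF : FinCT fun z : β × ℕ × ℕ => F z.1 z.2.1 z.2.2) (hK : CT 0 K)
    (hB : Bd 0 K) (hr : FinCT fun z : β × ℕ => r z.1 z.2) (hx : CT 0 x) :
    FinCT fun b => CGaussD (F b) (K b) (r b) (x b) :=
  FinCT.sum_range (f := fun b l => r b l * F b l (x b))
    (hr.op2 (hF.comp' (g := fun z : β × ℕ => (z.1, z.2, x z.1)) (by fun_prop)) (· * ·)) hK hB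

lemma cgauss_fstF (hF : FinCT fun z : β × ℕ × ℕ => F z.1 z.2.1 z.2.2) {γ : Type} [Enc γ]
    {g : γ → β} (hg : CT 0 g) : FinCT fun z : γ × ℕ × ℕ => F (g z.1) z.2.1 z.2.2 :=
  hF.comp' (g := fun z : γ × ℕ × ℕ => (g z.1, z.2.1, z.2.2)) (by fun_prop)

lemma cgauss_fstr (hr : FinCT fun z : β × ℕ => r z.1 z.2) {γ : Type} [Enc γ]
    {g : γ → β} (hg : CT 0 g) : FinCT fun z : γ × ℕ => r (g z.1) z.2 :=
  hr.comp' (g := fun z : γ × ℕ => (g z.1, z.2)) (by fun_prop)

lemma cgauss_ctR (hF : FinCT fun z : β × ℕ × ℕ => F z.1 z.2.1 z.2.2) (hK : CT 0 K)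
    (hB : Bd 0 K) (hm : CT 0 m) (hC : FinCT fun z : β × ℕ × ℕ => C z.1 z.2.1 z.2.2)
    (hy : CT 0 fun z : β × ℕ => y z.1 z.2) :
    FinCT fun z : β × ℕ => CGaussR (F z.1) (K z.1) (m z.1) (C z.1) (y z.1) z.2 := by
  have h1 : CT 0 fun z : β × ℕ => z.1 := by fun_prop
  have h2 : CT 0 fun w : (β × ℕ) × ℕ => y w.1.1 w.2 :=
    hy.comp (g := fun w : (β × ℕ) × ℕ => (w.1.1, w.2)) (by fun_prop)
  exact (FinCT.ite (P := fun z : β × ℕ => z.2 = m z.1) (MachCT_eq (by fun_prop) (hm.comp h1))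
    (FinCT.const (1 : ZMod p)) (FinCT.const 0)).op2
    (FinCT.sum_range (f := fun (z : β × ℕ) i => F z.1 (m z.1) (y z.1 i) * C z.1 i z.2)
      ((hF.comp' (g := fun w : (β × ℕ) × ℕ => (w.1.1, m w.1.1, y w.1.1 w.2))
        (CT.mk (by fun_prop) (CT.mk (by fun_prop) h2))).op2
        (hC.comp' (g := fun w : (β × ℕ) × ℕ => (w.1.1, w.2, w.1.2)) (by fun_prop)) (· * ·))
      (hK.comp h1) (hB.comp h1.size)) (· - ·)

lemma cgauss_ctX (hF : FinCT fun z : β × ℕ × ℕ => F z.1 z.2.1 z.2.2) (hK : CT 0 K)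
    (hB : Bd 0 K) (hn : CT 0 n) (hnB : Bd 0 n) (hr : FinCT fun z : β × ℕ => r z.1 z.2) :
    CT 0 fun b => CGaussX (F b) (K b) (n b) (r b) := by
  have h1 : CT 0 fun z : β × ℕ => z.1 := by fun_prop
  have h2 : FinCT fun z : β × ℕ => CGaussD (F z.1) (K z.1) (r z.1) z.2 :=
    cgauss_ctD (F := fun z : β × ℕ => F z.1) (r := fun z : β × ℕ => r z.1)
      (x := fun z : β × ℕ => z.2) (cgauss_fstF hF h1) (hK.comp h1)
      (hB.comp h1.size) (cgauss_fstr hr h1) (by fun_prop)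
  exact CT.headD (CT.filter (f := fun b u => !decide (CGaussD (F b) (K b) (r b) u = 0))
    (h2.toCT fun v => !decide (v = 0)) (hn.range hnB)) (CT.const 0)

lemma cgauss_ctC (hF : FinCT fun z : β × ℕ × ℕ => F z.1 z.2.1 z.2.2) (hK : CT 0 K)
    (hB : Bd 0 K) (hm : CT 0 m) (hC : FinCT fun z : β × ℕ × ℕ => C z.1 z.2.1 z.2.2)
    (hr : FinCT fun z : β × ℕ => r z.1 z.2) (hx : CT 0 x) :
    FinCT fun z : β × ℕ × ℕ =>
      CGaussC (F z.1) (K z.1) (m z.1) (C z.1) (r z.1) (x z.1) z.2.1 z.2.2 := by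
  have h1 : CT 0 fun z : β × ℕ × ℕ => z.1 := by fun_prop
  have h2 : FinCT fun z : β × ℕ × ℕ => r z.1 z.2.2 * (CGaussD (F z.1) (K z.1) (r z.1) (x z.1))⁻¹ :=
    (hr.comp' (g := fun z : β × ℕ × ℕ => (z.1, z.2.2)) (by fun_prop)).op2
      ((cgauss_ctD hF hK hB hr hx).comp' h1) fun u v => u * v⁻¹
  have h3 : FinCT fun z : β × ℕ × ℕ => CGaussD (F z.1) (K z.1) (C z.1 z.2.1) (x z.1) :=
    cgauss_ctD (r := fun z : β × ℕ × ℕ => C z.1 z.2.1) (cgauss_fstF hF h1) (hK.comp h1)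
      (hB.comp h1.size)
      (hC.comp' (g := fun w : (β × ℕ × ℕ) × ℕ => (w.1.1, w.1.2.1, w.2)) (by fun_prop))
      (hx.comp h1)
  exact FinCT.ite (P := fun z : β × ℕ × ℕ => z.2.1 = m z.1) (MachCT_eq (by fun_prop) (hm.comp h1))
    h2 (hC.op2 (h3.op2 h2 (· * ·)) (· - ·))

lemma cgauss_ctM {s : β → List (List ℕ)} (hs : CT 0 s) :
    FinCT fun z : β × ℕ × ℕ => CGaussM p (s z.1) z.2.1 z.2.2 :=
  FinCT.zmod p (by fun_prop)

lemma cgauss_ctS (hF : FinCT fun z : β × ℕ × ℕ => F z.1 z.2.1 z.2.2) (hK : CT 0 K)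
    (hB : Bd 0 K) (hn : CT 0 n) (hnB : Bd 0 n) {s : β → List (List ℕ) × List ℕ} (hs : CT 0 s)
    (hm : CT 0 m) : CT 0 fun b => CGaussS (F b) (K b) (n b) (s b) (m b) := by
  have h1 : CT 0 fun z : β × ℕ => z.1 := by fun_prop
  have hC := cgauss_ctM (p := p) (s := fun b => (s b).1) (by fun_prop)
  have hy : CT 0 fun z : β × ℕ => (s z.1).2.getD z.2 0 := by fun_prop
  have hr := cgauss_ctR (C := fun b => CGaussM p (s b).1) (y := fun b j => (s b).2.getD j 0)
    hF hK hB hm hC hy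
  have hx := cgauss_ctX (r := fun b => CGaussR (F b) (K b) (m b) (CGaussM p (s b).1)
    fun j => (s b).2.getD j 0) hF hK hB hn hnB hr
  have hC' := cgauss_ctC (C := fun b => CGaussM p (s b).1)
    (r := fun b => CGaussR (F b) (K b) (m b) (CGaussM p (s b).1) fun j => (s b).2.getD j 0)
    hF hK hB hm hC hr hx
  refine CT.mk (CT.map (CT.map ?_ ((hK.comp h1).range (hB.comp h1.size))) (hK.range hB))
    (CT.map ?_ (hK.range hB))
  · exact (hC'.comp' (g := fun w : (β × ℕ) × ℕ => (w.1.1, w.1.2, w.2)) (by fun_prop)).toCT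
      ZMod.val
  · exact MachCT_ite (P := fun z : β × ℕ => z.2 = m z.1) (MachCT_eq (by fun_prop) (hm.comp h1))
      (hx.comp h1) hy

lemma cgauss_ctFold (hF : FinCT fun z : β × ℕ × ℕ => F z.1 z.2.1 z.2.2) (hK : CT 0 K)
    (hB : Bd 0 K) (hn : CT 0 n) (hnB : Bd 0 n) :
    CT 0 fun b => (List.range (K b)).foldl (CGaussS (F b) (K b) (n b)) ([], []) := by
  have h1 : CT 0 fun z : β × (List (List ℕ) × List ℕ) × ℕ => z.1 := by fun_prop
  refine CT.foldl_inv (g := fun b => CGaussS (F b) (K b) (n b))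
    (B := fun b => (K b * ((K b * (sz p + 1) + 1) + 1) + 1) + (K b * (sz (n b) + 1) + 1) + 1)
    (cgauss_ctS (cgauss_fstF hF h1) (hK.comp h1) (hB.comp h1.size) (hn.comp h1)
      (hnB.comp h1.size) (by fun_prop) (by fun_prop)) (CT.const _) (hK.range hB)
    ((((hB.mul (((hB.mul (Bd.const _)).add (Bd.const _)).add (Bd.const _))).add
      (Bd.const _)).add ((hB.mul (hn.size.add (Bd.const _))).add (Bd.const _))).add (Bd.const _))
    (fun b s _ => sz s.1 ≤ K b * ((K b * (sz p + 1) + 1) + 1) + 1 ∧ s.2.length ≤ K b ∧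
      ∀ u ∈ s.2, u ≤ n b) (fun b => ⟨by simp, by simp, by simp⟩)
    (fun b s j _ h => ⟨?_, by simp [CGaussS], fun u hu => ?_⟩) fun b s _ h => ?_
  · refine (sz_list_le (B := K b * (sz p + 1) + 1) fun t ht => ?_).trans (by simp [CGaussS])
    obtain ⟨i, -, rfl⟩ := List.mem_map.mp ht
    refine (sz_list_le (B := sz p) fun u hu => ?_).trans (by simp)
    obtain ⟨l, -, rfl⟩ := List.mem_map.mp hu
    exact sz_mono (ZMod.val_lt _).le
  · obtain ⟨i, -, rfl⟩ := List.mem_map.mp hu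
    split_ifs
    · exact cgauss_X_le _ _ _ _
    · rw [List.getD_eq_getElem?_getD]
      cases hi : s.2[i]? with
      | none => simp
      | some v => exact h.2.2 v (List.mem_of_getElem? hi)
  · rw [sz_prod]
    have := (sz_list_le fun u hu => sz_mono (h.2.2 u hu)).trans
      (Nat.add_le_add_right (Nat.mul_le_mul_right _ h.2.1) 1)
    have := h.1
    omega

end Comp

theorem exists_gauss {α : Type} [Enc α] {p : ℕ} [Fact p.Prime] {F : α → ℕ → ℕ → ZMod p}
    {k n : α → ℕ} (hF : FinCT fun z : α × ℕ × ℕ => F z.1 z.2.1 z.2.2) (hk : CT 0 k)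
    (hkB : Bd 0 k) (hn : CT 0 n) (hnB : Bd 0 n) :
    ∃ (C : α → ℕ → ℕ → ZMod p) (y : α → ℕ → ℕ),
      FinCT (fun z : α × ℕ × ℕ => C z.1 z.2.1 z.2.2) ∧ CT 0 (fun z : α × ℕ => y z.1 z.2) ∧ ∀ a,
        (∀ r : ℕ → ZMod p, (∀ x < n a, ∑ i ∈ range (k a), r i * F a i x = 0) →
          ∀ i < k a, r i = 0) →
        ∀ i < k a, ∀ j < k a,
          ∑ i' ∈ range (k a), C a i i' * F a i' (y a j) = if i = j then 1 else 0 := by
  obtain ⟨S, h, hS⟩ : ∃ S : α → List (List ℕ) × List ℕ, CT 0 S ∧ ∀ a,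
      S a = (List.range (k a)).foldl (CGaussS (F a) (k a) (n a)) ([], []) :=
    ⟨_, cgauss_ctFold hF hk hkB hn hnB, fun _ => rfl⟩
  refine ⟨fun a => CGaussM p (S a).1, fun a j => (S a).2.getD j 0,
    cgauss_ctM (s := fun a => (S a).1) h.fst, by fun_prop, fun a hI => ?_⟩
  have h2 := (cgauss_fold hI (k a) le_rfl).2
  rw [← hS] at h2
  exact h2

end Vale.Agent.P330.B
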