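import Vale.Agent.P330B.YEnc
import Vale.Agent.P330B.CGauss
import Vale.Agent.P330.CParB
import Vale.Agent.P330.YFour
import Vale.Agent.P330.KQC

/-! Interpolation data are computed in polynomial time. -/

namespace Vale.Agent.P330.B

open Vale.Agent.Lib.TM Finset
open scoped BigOperators

variable {α : Type} [Enc α] {M p c : ℕ} [Fact M.Prime] [Fact p.Prime] [NeZero c]
  {N : α → ℕ} [∀ a, NeZero (N a)] {χ : AddChar (ZMod M) (ZMod p)}
  {g : ∀ a, Fin c → XX M (N a)} {L : α → ℕ}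

open Classical in
/-- The number of small frequencies in the first block. -/
noncomputable def nSm {N : ℕ} [NeZero N] (g : Fin c → XX M N) (L d : ℕ) : ℕ :=
  (univ.filter fun y : XX M N => (∀ l, L ≤ l.val → y l = 0) ∧ SmV g d y).card

theorem exists_phi (hχ : χ.IsPrimitive) (hM : (M : ZMod p) ≠ 0) (hN : LogN N)
    (hg : ∀ i, PtCT N fun a => g a i) (hL : CT 0 L) {k : α → ℕ} (hk : CT 0 k) (hkB : Bd 0 k)
    (d : ℕ) : ∃ (phi : ∀ a, ℕ → XX M (N a) → ZMod p) (yy : ∀ a, ℕ → XX M (N a)),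
      FnCT (fun z : α × ℕ => N z.1) (fun z => phi z.1 z.2) ∧
      PtCT (fun z : α × ℕ => N z.1) (fun z => yy z.1 z.2) ∧ ∀ a,
        (∀ i, phi a i ∈ Sp0 χ (g a) (L a) d) ∧ (∀ i l, L a ≤ l.val → yy a i l = 0) ∧
        (k a + 1 ≤ nSm (g a) (L a) d →
          ∀ i < k a, ∀ j < k a, phi a i (yy a j) = if i = j then 1 else 0) := by
  classical
  obtain ⟨β, hβ, hβ'⟩ := search_small hN d hg (lo := fun _ => 0) (CT.const 0) hL
  have hs : ∀ a i l, L a ≤ l.val → β a i l = 0 := fun a i l hl =>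
    (hβ' a).2.1 i l fun h => absurd h.2 (not_lt.2 hl)
  have hF : FinCT fun z : α × ℕ × ℕ => χ (ip (β z.1 z.2.1) (dX M (N z.1) z.2.2)) :=
    (PtCT.ip (N := fun z : α × ℕ × ℕ => N z.1) (hN.comp CT.id.fst)
      (hβ.comp (f := fun z : α × ℕ × ℕ => (z.1, z.2.1)) (by fun_prop))
      (pt_dX (hN.comp CT.id.fst) CT.id.snd.snd)).comp χ
  have hn := hN.pow M 1 hN.1 fun a => by omega
  obtain ⟨C, y, hC, hy, H⟩ := exists_gauss (F := fun a i x => χ (ip (β a i) (dX M (N a) x))) hF hk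
    hkB hn.1 hn.2
  refine ⟨fun a i x => ∑ i' ∈ range (k a), C a i i' * χ (ip (β a i') x),
    fun a j => cut (L a) (dX M (N a) (y a j)), ?_, ?_, fun a => ⟨fun i => ?_, fun i l hl => ?_,
      fun hK i hi j hj => ?_⟩⟩
  · exact FinCT.sum_range (f := fun (w : (α × ℕ) × ℕ) i' => C w.1.1 w.1.2 i' *
      χ (ip (β w.1.1 i') (dX M (N w.1.1) w.2)))
      (FinCT.op2 (hC.comp' (g := fun u : ((α × ℕ) × ℕ) × ℕ => (u.1.1.1, u.1.1.2, u.2))
        (by fun_prop)) (hF.comp' (g := fun u : ((α × ℕ) × ℕ) × ℕ => (u.1.1.1, u.2, u.1.2))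
        (by fun_prop)) (· * ·)) (hk.comp CT.id.fst.fst) (hkB.comp (CT.size (e := 0) CT.id.fst.fst))
  · refine PtCT.mask (N := fun z : α × ℕ => N z.1) (hN.comp CT.id.fst)
      (P := fun z l => l.val < L z.1) ?_ (pt_dX (hN.comp CT.id.fst) hy)
    refine ((ct_val_cast (N := fun w : (α × ℕ) × ℕ => N w.1.1) (hN.comp CT.id.fst.fst)
      CT.id.snd).blt (hL.comp CT.id.fst.fst)).of_eq fun w => ?_
    rw [Bool.eq_iff_iff, Nat.blt_eq, decide_eq_true_eq]
  · have e : (fun x => ∑ i' ∈ range (k a), C a i i' * χ (ip (β a i') x)) =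
        ∑ i' ∈ range (k a), C a i i' • fun x => χ (ip (β a i') x) := by
      ext x
      simp only [Finset.sum_apply, Pi.smul_apply, smul_eq_mul]
    simp only [e]
    exact Submodule.sum_mem _ fun i' _ => Submodule.smul_mem _ _
      (Submodule.subset_span ⟨β a i', hs a i', (hβ' a).1 i', rfl⟩)
  · exact if_neg (not_lt.2 hl)
  · have hinj := ((hβ' a).2.2 (k a) (hK.trans (card_le_card fun y hy => mem_filter.2
      ⟨mem_univ _, fun l hl => (mem_filter.1 hy).2.1 l
        (not_lt.1 fun h => hl ⟨Nat.zero_le _, h⟩), (mem_filter.1 hy).2.2⟩))).2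
    have e : ∀ i' x, ip (β a i') (cut (L a) x) = ip (β a i') x := fun i' x =>
      sum_congr rfl fun l _ => by
        by_cases hl : l.val < L a
        · rw [cut, if_pos hl]
        · rw [hs a i' l (not_lt.1 hl), zero_mul, zero_mul]
    simp only [e]
    refine H a (fun r hr j hj => ?_) i hi j hj
    have h0 : (fun x => ∑ i ∈ range (k a), r i * χ (ip (β a i) x)) = fun _ => 0 := by
      ext x
      have := hr _ (cX_lt x)
      rwa [dX_cX] at this
    have h1 := coef_sum (χ := χ) (range (k a)) r (fun i x => χ (ip (β a i) x)) (β a j)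
    rw [h0, sum_eq_single j (fun i hi hij => by
      rw [coef_chi hχ hM, if_neg fun h => hij (hinj i (mem_range.1 hi) j hj h), mul_zero])
      (fun h => absurd (mem_range.2 hj) h), coef_chi hχ hM, if_pos rfl, mul_one] at h1
    rw [← h1]
    simp [coef]

theorem exists_ps (hχ : χ.IsPrimitive) (hM : (M : ZMod p) ≠ 0) (hN : LogN N)
    (hg : ∀ i, PtCT N fun a => g a i) (hL : CT 0 L) {yy : ∀ a, ℕ → XX M (N a)}
    (hy : PtCT (fun z : α × ℕ => N z.1) fun z => yy z.1 z.2) (D : ℕ) :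
    ∃ ps : ∀ a, ℕ → XX M (N a) → ZMod p,
      FnCT (fun z : α × ℕ => N z.1) (fun z => ps z.1 z.2) ∧ ∀ a,
        (∀ i, ps a i ∈ Sp0 χ (g a) (L a) D) ∧
        ∀ i (β : XX M (N a)), (∀ l, L a ≤ l.val → β l = 0) → SmV (g a) D β →
          ((M : ZMod p) ^ N a)⁻¹ * ∑ v, ps a i v * χ (ip β v) = χ (ip β (yy a i)) := by
  classical
  obtain ⟨Q, hQ⟩ : ∃ Q : ∀ a, XX M (N a) → Prop, Q = fun a y =>
      (∀ l, L a ≤ l.val → y l = 0) ∧ SmV (g a) D y := ⟨_, rfl⟩
  have h1 : CT 0 fun z : (α × ℕ) × ℕ =>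
      decide (Small D (ip (dX M (N z.1.1) z.1.2) (dirs (g z.1.1) (dI (N z.1.1) c z.2)))) :=
    (cparb_ip (N := fun z : (α × ℕ) × ℕ => N z.1.1) (hN.comp CT.id.fst.fst)
      (fun i => (hg i).comp CT.id.fst.fst) CT.id.fst.snd CT.id.snd).toCT
        fun x => decide (Small D x)
  have h2 : CT 0 fun z : (α × ℕ) × ℕ => decide (dX M (N z.1.1) z.1.2 z.2 = 0) :=
    FinCT.toCT (pt_dX (N := fun z : α × ℕ => N z.1) (hN.comp CT.id.fst) CT.id.snd)
      fun x => decide (x = 0)
  have h3 : CT 0 fun z : α × ℕ => decide (Q z.1 (dX M (N z.1) z.2)) := by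
    refine ((cparb_all ((CT.id.snd.blt (hL.comp CT.id.fst.fst)).or h2)
      ((hN.1.range hN.bd).comp CT.id.fst)).and
        (cparb_all h1 ((cparb_rg' (c := c) hN).comp CT.id.fst))).of_eq fun z => ?_
    rw [Bool.eq_iff_iff, hQ]
    simp only [Bool.and_eq_true, List.all_eq_true, List.mem_range, Bool.or_eq_true,
      decide_eq_true_eq, Nat.blt_eq]
    refine and_congr ⟨fun h l hl => ?_, fun h l hl => ?_⟩ ⟨fun h i => ?_, fun h i _ => h _⟩
    · have := (h l.val (ZMod.val_lt l)).resolve_left (not_lt.2 hl)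
      rwa [ZMod.natCast_zmod_val] at this
    · exact or_iff_not_imp_left.2 fun e => h l (by rw [ZMod.val_cast_of_lt hl]; exact not_lt.1 e)
    · have := h _ (cI_lt i)
      rwa [dI_cI] at this
  refine ⟨fun a i x => ∑ b, if Q a b then χ (ip b (yy a i - x)) else 0, ?_,
    fun a => ⟨fun i => ?_, fun i β b1 b2 => ?_⟩⟩
  · refine FnCT.sum (N := fun w : (α × ℕ) × ℕ => N w.1.1) (hN.comp CT.id.fst.fst)
      (φ := fun w b => if Q w.1.1 b then χ (ip b (yy w.1.1 w.1.2 - dX M (N w.1.1) w.2)) else 0) ?_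
    have hN' : LogN fun u : ((α × ℕ) × ℕ) × ℕ => N u.1.1.1 := hN.comp CT.id.fst.fst.fst
    exact FinCT.ite (h3.comp (g := fun u : ((α × ℕ) × ℕ) × ℕ => (u.1.1.1, u.2)) (by fun_prop))
      (((pt_dX hN' CT.id.snd).ip hN' ((hy.comp CT.id.fst.fst).sub
        (pt_dX hN' CT.id.fst.snd))).comp χ) (FinCT.const 0)
  · have e : (fun x => ∑ b, if Q a b then χ (ip b (yy a i - x)) else 0) =
        ∑ b, if Q a b then χ (ip b (yy a i)) • fun x => χ (ip (-b) x) else 0 := by
      ext x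
      rw [Finset.sum_apply]
      refine sum_congr rfl fun b _ => ?_
      split_ifs
      · rw [Pi.smul_apply, smul_eq_mul, ← AddChar.map_add_eq_mul]
        simp [ip, sub_eq_add_neg, mul_add, sum_add_distrib]
      · rfl
    simp only [e]
    refine Submodule.sum_mem _ fun b _ => ?_
    split_ifs with hb
    · rw [hQ] at hb
      refine Submodule.smul_mem _ _ (Submodule.subset_span ⟨-b, fun l hl => ?_, fun s => ?_, rfl⟩)
      · rw [Pi.neg_apply, hb.1 l hl, neg_zero]
      · obtain ⟨m, h1, h2⟩ := hb.2 s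
        exact ⟨-m, by rwa [abs_neg], by rw [Int.cast_neg, ← h2]; simp [ip]⟩
    · exact zero_mem _
  · have e : ∀ b v : XX M (N a), (if Q a b then χ (ip b (yy a i - v)) else 0) * χ (ip β v) =
        (if Q a b then χ (ip b (yy a i)) else 0) * χ (ip (β - b) v) := fun b v => by
      split_ifs
      · rw [← AddChar.map_add_eq_mul, ← AddChar.map_add_eq_mul]
        congr 1
        simp only [ip, Pi.sub_apply, mul_sub, sub_mul, sum_sub_distrib]
        ring
      · rw [zero_mul, zero_mul]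
    simp only [sum_mul, e]
    rw [sum_comm]
    simp only [← mul_sum, sum_chi hχ]
    rw [sum_eq_single β (fun b _ hb => by rw [if_neg (sub_ne_zero.2 hb.symm), mul_zero])
      (fun h => absurd (mem_univ _) h), if_pos (hQ ▸ ⟨b1, b2⟩), sub_self, if_pos rfl, mul_comm,
      mul_assoc, mul_inv_cancel₀ (pow_ne_zero _ hM), mul_one]

theorem nSm_ge {N B d L : ℕ} [NeZero N] (hB : M ≤ B * (d + 1)) (g : Fin c → XX M N) (hL : L ≤ N) :
    M ^ L ≤ B ^ (N * c) * nSm g L d := by
  classical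
  have h3 := exists_small hB (dirs g) (univ.filter fun l : ZMod N => l.val < L)
  have h4 : (range L).card ≤ (univ.filter fun l : ZMod N => l.val < L).card := by
    refine card_le_card_of_injOn (fun i : ℕ => (i : ZMod N)) (fun i hi => ?_)
      fun i hi j hj hij => ?_
    · have h6 := mem_range.1 hi
      refine mem_filter.2 ⟨mem_univ _, ?_⟩
      rwa [ZMod.val_natCast_of_lt (h6.trans_le hL)]
    · have h6 := congrArg ZMod.val hij
      rwa [ZMod.val_natCast_of_lt ((mem_range.1 hi).trans_le hL),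
        ZMod.val_natCast_of_lt ((mem_range.1 hj).trans_le hL)] at h6
  rw [card_range] at h4
  rw [Fintype.card_prod, ZMod.card, Fintype.card_fin] at h3
  refine (Nat.pow_le_pow_right (Fact.out : M.Prime).pos h4).trans
    (h3.trans (Nat.mul_le_mul_left _ (card_le_card fun y hy => ?_)))
  have h7 := (mem_filter.1 hy).2
  exact mem_filter.2 ⟨mem_univ _,
    fun l hl => h7.1 l fun h8 => absurd (mem_filter.1 h8).2 (not_lt.2 hl), h7.2⟩

end Vale.Agent.P330.B
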