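import Vale.Agent.P330B.Route
import Vale.Agent.P330.CFam

/-! Routes are computed in polynomial time. -/

namespace Vale.Agent.P330.B

open Vale.Agent.Lib.TM Finset

variable {α : Type} [Enc α]

/-- One step of the greedy colouring. -/
def CRoute_step (cf : ℕ → ℕ → ℕ → ℕ → Bool) (Q : ℕ) (s : List ℕ) : List ℕ :=
  s ++ [((List.range Q).filter fun c =>
    (List.range s.length).all fun e' => !cf s.length c e' (s.getD e' 0)).headD 0]

lemma CRoute_headD {p : ℕ → Bool} {Q : ℕ} (h : ∃ c < Q, p c = true) :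
    ((List.range Q).filter p).headD 0 < Q ∧ p (((List.range Q).filter p).headD 0) = true := by
  obtain ⟨c, hc, hp⟩ := h
  have hm : c ∈ (List.range Q).filter p := List.mem_filter.2 ⟨List.mem_range.2 hc, hp⟩
  rcases hl : (List.range Q).filter p with _ | ⟨x, l⟩
  · rw [hl] at hm
    exact absurd hm List.not_mem_nil
  · have hx : x ∈ (List.range Q).filter p := by rw [hl]; exact List.mem_cons_self
    have hx' := List.mem_filter.1 hx
    exact ⟨List.mem_range.1 hx'.1, hx'.2⟩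

lemma CRoute_headD_le (p : ℕ → Bool) (Q : ℕ) : ((List.range Q).filter p).headD 0 ≤ Q := by
  rcases hl : (List.range Q).filter p with _ | ⟨x, l⟩
  · exact Nat.zero_le _
  · have hx : x ∈ (List.range Q).filter p := by rw [hl]; exact List.mem_cons_self
    exact (List.mem_range.1 (List.mem_filter.1 hx).1).le

lemma CRoute_fold (cf : ℕ → ℕ → ℕ → ℕ → Bool) (E Q : ℕ)
    (h : ∀ e < E, ∀ col' : ℕ → ℕ, ∃ c < Q, ∀ e' < e, cf e c e' (col' e') = false) :
    ∀ n ≤ E, ((List.range n).foldl (fun s _ => CRoute_step cf Q s) []).length = n ∧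
      ∀ e < n, ((List.range n).foldl (fun s _ => CRoute_step cf Q s) []).getD e 0 < Q ∧
        ∀ e' < e, cf e (((List.range n).foldl (fun s _ => CRoute_step cf Q s) []).getD e 0) e'
          (((List.range n).foldl (fun s _ => CRoute_step cf Q s) []).getD e' 0) = false := by
  intro n
  induction n with
  | zero => exact fun _ => ⟨rfl, fun e he => absurd he (Nat.not_lt_zero _)⟩
  | succ n ih =>
    intro hn
    obtain ⟨h1, h2⟩ := ih (by omega)
    rw [List.range_succ, List.foldl_append, List.foldl_cons, List.foldl_nil]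
    generalize (List.range n).foldl (fun s _ => CRoute_step cf Q s) [] = s at h1 h2
    subst h1
    have hlt : ∀ e < s.length, (CRoute_step cf Q s).getD e 0 = s.getD e 0 := fun e he =>
      List.getD_append _ _ _ _ he
    obtain ⟨c, hc, hcf⟩ := h s.length (by omega) fun e' => s.getD e' 0
    have hh := CRoute_headD (Q := Q) (p := fun c =>
      (List.range s.length).all fun e' => !cf s.length c e' (s.getD e' 0))
      ⟨c, hc, List.all_eq_true.2 fun e' he' => by rw [hcf e' (List.mem_range.1 he')]; rfl⟩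
    have heq : (CRoute_step cf Q s).getD s.length 0 = ((List.range Q).filter fun c =>
        (List.range s.length).all fun e' => !cf s.length c e' (s.getD e' 0)).headD 0 := by
      unfold CRoute_step
      rw [List.getD_append_right _ _ _ _ le_rfl, Nat.sub_self]
      rfl
    refine ⟨by simp [CRoute_step], fun e he => ?_⟩
    rcases Nat.lt_succ_iff_lt_or_eq.1 he with he | rfl
    · rw [hlt e he]
      exact ⟨(h2 e he).1, fun e' he' => by rw [hlt e' (by omega)]; exact (h2 e he).2 e' he'⟩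
    · rw [heq]
      refine ⟨hh.1, fun e' he' => ?_⟩
      rw [hlt e' he']
      have := List.all_eq_true.1 hh.2 e' (List.mem_range.2 he')
      simpa using this

/-- Greedy colouring. -/
theorem exists_greedy {cf : α → ℕ → ℕ → ℕ → ℕ → Bool} {E Q : α → ℕ}
    (hcf : CT 0 fun z : α × (ℕ × ℕ) × ℕ × ℕ => cf z.1 z.2.1.1 z.2.1.2 z.2.2.1 z.2.2.2)
    (hE : CT 0 E) (hEB : Bd 0 E) (hQ : CT 0 Q) (hQB : Bd 0 Q) :
    ∃ col : α → ℕ → ℕ, CT 0 (fun z : α × ℕ => col z.1 z.2) ∧ ∀ a,
      (∀ e < E a, ∀ col' : ℕ → ℕ, ∃ c < Q a, ∀ e' < e, cf a e c e' (col' e') = false) →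
      ∀ e < E a, col a e < Q a ∧ ∀ e' < e, cf a e (col a e) e' (col a e') = false := by
  have hs : CT 0 fun p : α × List ℕ × ℕ => p.2.1 := CT.id.snd.fst
  have hstep : CT 0 fun p : α × List ℕ × ℕ => CRoute_step (cf p.1) (Q p.1) p.2.1 := by
    unfold CRoute_step
    refine hs.append (CT.cons (CT.headD ?_ (CT.const 0)) (CT.const []))
    refine CT.filter (f := fun (p : α × List ℕ × ℕ) c =>
      (List.range p.2.1.length).all fun e' => !cf p.1 p.2.1.length c e' (p.2.1.getD e' 0)) ?_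
      ((hQ.range hQB).comp CT.id.fst)
    refine CT.all (f := fun (q : (α × List ℕ × ℕ) × ℕ) e' =>
      !cf q.1.1 q.1.2.1.length q.2 e' (q.1.2.1.getD e' 0)) (CT.not ?_)
      (hs.range_length.comp CT.id.fst)
    have hs' : CT 0 fun r : ((α × List ℕ × ℕ) × ℕ) × ℕ => r.1.1.2.1 := CT.id.fst.fst.snd.fst
    exact hcf.comp (CT.id.fst.fst.fst.mk ((hs'.length.mk CT.id.fst.snd).mk
      (CT.id.snd.mk (hs'.getD CT.id.snd (CT.const 0)))))
  have hL : CT 0 fun a =>
      (List.range (E a)).foldl (fun s _ => CRoute_step (cf a) (Q a) s) [] := by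
    refine CT.foldl (g := fun a s _ => CRoute_step (cf a) (Q a) s) hstep (CT.const [])
      (hE.range hEB) (G := fun p : α × ℕ => sz (Q p.1) + 1)
      ((hQ.comp CT.id.fst).size.add (Bd.const 1)) fun a s x => ?_
    unfold CRoute_step
    generalize hc : ((List.range (Q a)).filter fun c =>
      (List.range s.length).all fun e' => !cf a s.length c e' (s.getD e' 0)).headD 0 = c
    have h1 : c ≤ Q a := hc ▸ CRoute_headD_le _ _
    have h2 := sz_mono h1
    have h3 := sz_append s [c]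
    simp only [sz_cons, sz_nil] at h3
    simp only
    omega
  refine ⟨fun a e =>
    ((List.range (E a)).foldl (fun s _ => CRoute_step (cf a) (Q a) s) []).getD e 0,
    (hL.comp CT.id.fst).getD CT.id.snd (CT.const 0), fun a h e he => ?_⟩
  exact (CRoute_fold (cf a) (E a) (Q a) h (E a) le_rfl).2 e he

lemma ct_dg (t : ℕ) {k q j : α → ℕ} (hk : CT 0 k) (hq : CT 0 q) (hj : CT 0 j) :
    CT 0 fun a => dg (k a) t (q a) (j a) := by
  unfold dg
  exact (hq.div (hk.pow ((CT.const t).sub hj)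
    ((Bd.const t).of_le fun _ => Nat.sub_le _ _))).mod hk

lemma CRoute_anyC {S : Type} (l : List S) (f : S → α → Bool) (h : ∀ s, CT 0 (f s)) :
    CT 0 fun a => l.any fun s => f s a := by
  induction l with
  | nil => exact CT.const false
  | cons s l ih => exact ((h s).or ih).of_eq fun a => by rw [List.any_cons]

lemma CRoute_cfl (t : ℕ) {k m c e m' c' e' : α → ℕ} (hk : CT 0 k) (hm : CT 0 m) (hc : CT 0 c)
    (he : CT 0 e) (hm' : CT 0 m') (hc' : CT 0 c') (he' : CT 0 e') :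
    CT 0 fun a => cfl (k a) t (m a) (c a) (e a) (m' a) (c' a) (e' a) := by
  unfold cfl
  refine CRoute_anyC _ (fun r a =>
    (decide (m a % k a ^ r = m' a % k a ^ r) &&
      decide (c a / (4 * k a) ^ r = c' a / (4 * k a) ^ r)) ||
      (decide (0 < r) && decide (e a / k a ^ r = e' a / k a ^ r) &&
        decide (c a % (4 * k a) ^ r = c' a % (4 * k a) ^ r))) fun r => ?_
  have h1 : CT 0 fun a => k a ^ r := hk.pow (CT.const r) (Bd.const r)
  have h2 : CT 0 fun a => (4 * k a) ^ r := ((CT.const 4).mul hk).pow (CT.const r) (Bd.const r)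
  exact ((MachCT_eq (hm.mod h1) (hm'.mod h1)).and (MachCT_eq (hc.div h2) (hc'.div h2))).or
    (((CT.const _).and (MachCT_eq (he.div h1) (he'.div h1))).and
      (MachCT_eq (hc.mod h2) (hc'.mod h2)))

lemma CRoute_rank {src : α → ℕ → ℕ} {E : α → ℕ} (hsrc : CT 0 fun z : α × ℕ => src z.1 z.2)
    (hE : CT 0 E) (hEB : Bd 0 E) : CT 0 fun z : α × ℕ => rank (src z.1) (E z.1) z.2 := by
  unfold rank
  have h1 : CT 0 fun p : (α × ℕ) × ℕ => src p.1.1 p.2 := hsrc.comp (CT.id.fst.fst.mk CT.id.snd)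
  have h2 : CT 0 fun p : (α × ℕ) × ℕ => src p.1.1 p.1.2 := hsrc.comp CT.id.fst
  refine CT.add (CT.length (CT.filter (f := fun (z : α × ℕ) e' =>
    decide (src z.1 e' < src z.1 z.2) || (decide (src z.1 e' = src z.1 z.2) && decide (e' < z.2)))
    ?_ ((hE.range hEB).comp CT.id.fst))) hsrc
  exact (h1.decLt h2).or ((MachCT_eq h1 h2).and (CT.id.snd.decLt CT.id.fst.snd))

lemma CRoute_word (t : ℕ) {k src m c e s : α → ℕ} (hk : CT 0 k) (hsrc : CT 0 src) (hm : CT 0 m)
    (hc : CT 0 c) (he : CT 0 e) (hs : CT 0 s) :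
    CT 0 fun a => word (k a) t (src a) (m a) (c a) (e a) (s a) := by
  unfold word
  exact MachCT_ite (hs.decLt (CT.const _)) (ct_dg t hk hsrc hs)
    (MachCT_ite (hs.decLt (CT.const _)) (ct_dg t hk hm (hs.sub (CT.const _)))
      (MachCT_ite (hs.decLt (CT.const _))
        (ct_dg t ((CT.const 4).mul hk) hc (hs.sub (CT.const _)))
        (ct_dg t hk he (hs.sub (CT.const _)))))

lemma CRoute_word_lt {k : ℕ} (hk : 0 < k) (t src m c e s : ℕ) : word k t src m c e s < 4 * k := by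
  unfold word
  split_ifs
  · have := dg_lt hk t src s
    omega
  · have := dg_lt hk t m (s - (t + 1))
    omega
  · exact dg_lt (by omega) _ _ _
  · have := dg_lt hk t e (s - (3 * t + 3))
    omega

theorem exists_route (t : ℕ) {src : α → ℕ → ℕ} {E k : α → ℕ}
    (hsrc : CT 0 fun z : α × ℕ => src z.1 z.2) (hE : CT 0 E) (hEB : Bd 0 E) (hk : CT 0 k)
    (hkB : Bd 0 k) :
    ∃ u : α → ℕ → ℕ → ℕ, CT 0 (fun z : α × ℕ × ℕ => u z.1 z.2.1 z.2.2) ∧
      ∀ a K, E a ≤ K → (∀ e < E a, src a e < K) → 2 * K ≤ k a ^ (t + 1) →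
        (∀ e < E a, ∀ s, u a e s < 4 * k a) ∧
        (∀ e < E a, ∀ j ≤ t, u a e j = dg (k a) t (src a e) j) ∧
        (∀ e < E a, ∀ j ≤ t, u a e (3 * t + 3 + j) = dg (k a) t e j) ∧
        ∀ e < E a, ∀ e' < E a, ∀ s < 3 * t + 3,
          (∀ j ≤ t, u a e (s + 1 + j) = u a e' (s + 1 + j)) → u a e s = u a e' s := by
  have hr := CRoute_rank hsrc hE hEB
  have hcf : CT 0 fun z : α × (ℕ × ℕ) × ℕ × ℕ =>
      cfl (k z.1) t (rank (src z.1) (E z.1) z.2.1.1) z.2.1.2 z.2.1.1
        (rank (src z.1) (E z.1) z.2.2.1) z.2.2.2 z.2.2.1 := by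
    have g0 : CT 0 fun z : α × (ℕ × ℕ) × ℕ × ℕ => k z.1 := hk.comp CT.id.fst
    have g1 : CT 0 fun z : α × (ℕ × ℕ) × ℕ × ℕ => (z.1, z.2.1.1) := CT.id.fst.mk CT.id.snd.fst.fst
    have g2 : CT 0 fun z : α × (ℕ × ℕ) × ℕ × ℕ => (z.1, z.2.2.1) := CT.id.fst.mk CT.id.snd.snd.fst
    have g3 : CT 0 fun z : α × (ℕ × ℕ) × ℕ × ℕ => rank (src z.1) (E z.1) z.2.1.1 :=
      (hr.comp g1).of_eq fun _ => rfl
    have g4 : CT 0 fun z : α × (ℕ × ℕ) × ℕ × ℕ => rank (src z.1) (E z.1) z.2.2.1 :=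
      (hr.comp g2).of_eq fun _ => rfl
    have g5 : CT 0 fun z : α × (ℕ × ℕ) × ℕ × ℕ => z.2.1.2 := CT.id.snd.fst.snd
    have g6 : CT 0 fun z : α × (ℕ × ℕ) × ℕ × ℕ => z.2.1.1 := CT.id.snd.fst.fst
    have g7 : CT 0 fun z : α × (ℕ × ℕ) × ℕ × ℕ => z.2.2.2 := CT.id.snd.snd.snd
    have g8 : CT 0 fun z : α × (ℕ × ℕ) × ℕ × ℕ => z.2.2.1 := CT.id.snd.snd.fst
    exact CRoute_cfl t g0 g3 g5 g6 g4 g7 g8
  obtain ⟨col, hcol, hspec⟩ := exists_greedy
    (cf := fun a e c e' c' => cfl (k a) t (rank (src a) (E a) e) c e (rank (src a) (E a) e') c' e')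
    (E := E) (Q := fun a => (4 * k a) ^ (t + 1)) hcf hE hEB
    (((CT.const 4).mul hk).pow (CT.const _) (Bd.const _))
    (CFam_pow ((Bd.const 4).mul hkB) (t + 1))
  have hp : CT 0 fun z : α × ℕ × ℕ => (z.1, z.2.1) := CT.id.fst.mk CT.id.snd.fst
  have hw : CT 0 fun z : α × ℕ × ℕ =>
      word (k z.1) t (src z.1 z.2.1) (rank (src z.1) (E z.1) z.2.1) (col z.1 z.2.1) z.2.1 z.2.2 := by
    have g0 : CT 0 fun z : α × ℕ × ℕ => k z.1 := hk.comp CT.id.fst
    have g1 : CT 0 fun z : α × ℕ × ℕ => src z.1 z.2.1 := (hsrc.comp hp).of_eq fun _ => rfl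
    have g2 : CT 0 fun z : α × ℕ × ℕ => rank (src z.1) (E z.1) z.2.1 :=
      (hr.comp hp).of_eq fun _ => rfl
    have g3 : CT 0 fun z : α × ℕ × ℕ => col z.1 z.2.1 := (hcol.comp hp).of_eq fun _ => rfl
    have g4 : CT 0 fun z : α × ℕ × ℕ => z.2.1 := CT.id.snd.fst
    have g5 : CT 0 fun z : α × ℕ × ℕ => z.2.2 := CT.id.snd.snd
    exact CRoute_word t g0 g1 g2 g3 g4 g5
  refine ⟨fun a e s => word (k a) t (src a e) (rank (src a) (E a) e) (col a e) e s, hw,
    fun a K hEK hs hK => ?_⟩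
  have hk0 : ∀ e < E a, 0 < k a := fun e he => by
    rcases Nat.eq_zero_or_pos (k a) with h0 | h0
    · rw [h0, zero_pow (Nat.succ_ne_zero t)] at hK
      omega
    · exact h0
  have hc := hspec a fun e he col' =>
    free_col (hk0 e he) (m := rank (src a) (E a))
      (fun e he => (rank_lt hEK he (hs e he)).trans_le hK) (fun e he e' he' h => rank_inj he he' h)
      he col'
  refine ⟨fun e he s => CRoute_word_lt (hk0 e he) _ _ _ _ _ _, fun e _ j hj => ?_,
    fun e _ j hj => ?_, fun e he e' he' s hs' h => ?_⟩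
  · simp only [word]
    rw [if_pos (by omega)]
  · simp only [word]
    rw [if_neg (by omega), if_neg (by omega), if_neg (by omega), Nat.add_sub_cancel_left]
  · exact word_fun hEK hs hK (fun e he => (hc e he).1) (fun e he => (hc e he).2) he he' hs' h

end Vale.Agent.P330.B
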