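import Vale.Agent.P330B.CCode
import Vale.Agent.P330.CTab

/-! Codes of vectors and positions are computed in polynomial time. -/

namespace Vale.Agent.P330.B

open Vale.Agent.Lib.TM Finset
open scoped BigOperators

variable {α β : Type} [Enc α] [Enc β] {M p c t jj : ℕ} [Fact M.Prime] [Fact p.Prime]
  {N : α → ℕ} {J : Type}

/-- A computable family of vectors. -/
def VecCT (N : α → ℕ) (v : ∀ a, CC t jj (N a) → ZMod p) : Prop :=
  ∀ r, FinCT fun z : α × ℕ => ext (v z.1) r z.2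

/-- A computable family of replica indices. -/
def WCT (N : α → ℕ) (w : ∀ a, WW p c t jj (N a)) : Prop :=
  IdxCT N (fun a => (w a).1) ∧ VecCT N fun a => (w a).2.1

/-- A computable family of positions. -/
def PCT (N : α → ℕ) (z : ∀ a, PP M p c t jj (N a)) : Prop :=
  PtCT N (fun a => (z a).1) ∧ VecCT N (fun a => (z a).2.1) ∧ WCT N fun a => (z a).2.2

lemma VecCT.comp {v : ∀ a, CC t jj (N a) → ZMod p} (h : VecCT N v) {f : β → α} (hf : CT 0 f) :
    VecCT (fun b => N (f b)) fun b => v (f b) := fun r =>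
  FinCT.comp' (g := fun z : β × ℕ => (f z.1, z.2)) (h r) (by fun_prop)

lemma ct_RR (t jj : ℕ) (hN : CT 0 N) : CT 0 fun a => RR t jj (N a) := hN.div (CT.const _)

lemma ct_LB (t jj : ℕ) (hN : CT 0 N) : CT 0 fun a => LB t jj (N a) :=
  (CT.const _).mul (ct_RR t jj hN)

lemma RR_le (t jj n : ℕ) : RR t jj n ≤ n := Nat.div_le_self _ _

lemma LB_le (t jj n : ℕ) : LB t jj n ≤ n :=
  le_trans (Nat.mul_le_mul_right _ (Nat.le_mul_of_pos_left _ (by omega))) (Nat.mul_div_le _ _)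

lemma ct_nV (hN : LogN N) (p t jj : ℕ) :
    CT 0 (fun a => nV p t jj (N a)) ∧ Bd 0 fun a => nV p t jj (N a) := by
  refine hN.pow p (nR t * 2) ((CT.const _).mul ((ct_RR t jj hN.1).add (CT.const 2))) fun a => ?_
  rw [mul_assoc]
  exact Nat.mul_le_mul_left _ (by have := RR_le t jj (N a); omega)

lemma ct_nW (hN : LogN N) (p c t jj : ℕ) :
    CT 0 (fun a => nW p c t jj (N a)) ∧ Bd 0 fun a => nW p c t jj (N a) := by
  have h1 := ct_nV hN p t jj
  exact ⟨(hN.1.mul (CT.const c)).mul h1.1, (hN.bd.mul (Bd.const c)).mul h1.2⟩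

lemma ct_nP (hN : LogN N) (M p c t jj : ℕ) :
    CT 0 (fun a => nP M p c t jj (N a)) ∧ Bd 0 fun a => nP M p c t jj (N a) := by
  have h1 := ct_nV hN p t jj
  have h2 := hN.pow M 1 hN.1 fun a => by omega
  have h3 := ct_nW hN p c t jj
  exact ⟨h2.1.mul (h1.1.mul h3.1), h2.2.mul (h1.2.mul h3.2)⟩

variable [NeZero c] [∀ a, NeZero (N a)] {u v : ∀ a, CC t jj (N a) → ZMod p}

omit [∀ a, NeZero (N a)] in
lemma CVecB_mk (hN : CT 0 N) {f : α → Row t → ℕ → ZMod p}
    (hf : ∀ r, FinCT fun z : α × ℕ => f z.1 r z.2) (hv : ∀ a y, v a y = f a y.1 y.2) :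
    VecCT N v := fun r => by
  have h1 : CT 0 fun z : α × ℕ => decide (z.2 < RR t jj (N z.1) + 2) :=
    CT.decLt (by fun_prop) (((ct_RR t jj hN).comp (by fun_prop)).add (CT.const 2))
  refine (FinCT.ite h1 (hf r) (FinCT.const 0)).of_eq fun z => ?_
  unfold ext
  split_ifs with h
  · exact (hv z.1 (r, ⟨z.2, h⟩)).symm
  · rfl

omit [Fact p.Prime] [∀ a, NeZero (N a)] in
lemma CVecB_pw (hN : LogN N) (r : Row t) : CT 0 fun z : α × ℕ =>
    p ^ (rowE t r * (RR t jj (N z.1) + 2) + min z.2 (RR t jj (N z.1) + 2)) := by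
  have h1 : CT 0 fun z : α × ℕ => RR t jj (N z.1) + 2 :=
    ((ct_RR t jj hN.1).comp (by fun_prop)).add (CT.const 2)
  refine ((hN.comp (f := fun z : α × ℕ => z.1) (by fun_prop)).pow p ((rowE t r + 1) * 2)
    (((CT.const _).mul h1).add (CT.min (by fun_prop) h1)) fun z => ?_).1
  have h2 := RR_le t jj (N z.1)
  refine (Nat.add_le_add_left (min_le_right _ _) _).trans ?_
  rw [← Nat.succ_mul, mul_assoc]
  exact Nat.mul_le_mul_left _ (by omega)

omit [∀ a, NeZero (N a)] in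
lemma CVecB_fac (hN : LogN N) (hv : VecCT N v) (f : Fac t) :
    FinCT fun z : α × ℕ => Fac.ev (v z.1) z.2 f := by
  have h1 : CT 0 fun z : α × ℕ => RR t jj (N z.1) := (ct_RR t jj hN.1).comp (by fun_prop)
  have h2 : CT 0 fun z : α × ℕ => z.2 := by fun_prop
  rcases f with ⟨r, i⟩ | i | o
  · have h3 : CT 0 fun z : α × ℕ => z.2 + (i : ℕ) := h2.add (CT.const _)
    have h4 : FinCT fun z : α × ℕ => ext (v z.1) r (z.2 + i - 1) :=
      FinCT.comp' (g := fun z : α × ℕ => (z.1, z.2 + (i : ℕ) - 1)) (hv r)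
        (by fun_prop)
    exact FinCT.ite (MachCT_eq h3 (CT.const 0)) (FinCT.const 0) h4
  · simp only [Fac.ev]
    by_cases h0 : i = 0
    · simp only [h0, if_true]
      exact FinCT.const _
    by_cases h1' : i = 1
    · simp only [h1', if_true]
      exact FinCT.const _
    simp only [h0, h1', if_false]
    refine FinCT.ite (MachCT_eq h2 ?_) (FinCT.const 1) (FinCT.const 0)
    unfold posB
    split_ifs
    · exact h1.add (CT.const 1)
    · exact CT.const 0
  · simp only [Fac.ev]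
    refine FinCT.zmod p ?_
    unfold tv
    refine CT.mod (CT.add ((CT.const _).mul (h1.add (CT.const 2))) ?_) (CT.const 4)
    split_ifs
    · exact h2
    · exact (h1.add (CT.const 1)).sub h2

lemma VecCT.zero : VecCT (p := p) (t := t) (jj := jj) N fun _ => 0 := by
  exact fun r => (FinCT.const 0).of_eq fun z => by simp [ext]

lemma VecCT.add (hu : VecCT N u) (hv : VecCT N v) : VecCT N fun a => u a + v a := by
  refine fun r => ((hu r).op2 (hv r) (· + ·)).of_eq fun z => ?_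
  unfold ext
  split_ifs <;> simp

lemma VecCT.smul {s : α → ZMod p} (hs : FinCT s) (hv : VecCT N v) :
    VecCT N fun a => s a • v a := by
  refine fun r =>
    ((hs.comp' (g := fun z : α × ℕ => z.1) (by fun_prop)).op2 (hv r) (· * ·)).of_eq fun z => ?_
  unfold ext
  split_ifs <;> simp

lemma VecCT.single (hN : LogN N) (r : Row t) :
    VecCT (p := p) (jj := jj) N fun _ => Pi.single (r, 0) 1 := by
  refine CVecB_mk hN.1 (f := fun _ r' s => if s = 0 then (if r' = r then 1 else 0) else 0)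
    (fun r' => FinCT.ite (MachCT_eq (by fun_prop) (CT.const 0)) (FinCT.const _) (FinCT.const _))
    fun a y => ?_
  obtain ⟨r', s⟩ := y
  by_cases h1 : r' = r <;> by_cases h2 : s = 0 <;> simp [h1, h2]

lemma VecCT.pd (hN : LogN N) (pd : PD t) (hv : VecCT N v) : VecCT N fun a => pd.ev (v a) := by
  exact CVecB_mk hN.1 (f := fun a r s => Fac.ev (v a) s (pd r).1 * Fac.ev (v a) s (pd r).2)
    (fun r => (CVecB_fac hN hv (pd r).1).op2 (CVecB_fac hN hv (pd r).2) (· * ·)) fun _ _ => rfl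

lemma VecCT.code (hN : LogN N) (hv : VecCT N v) : CT 0 fun a => cA (v a) := by
  unfold cA
  refine CVec_sum _ fun r => ?_
  refine (ct_sum_range (f := fun a s => (ext (v a) r s).val *
    p ^ (rowE t r * (RR t jj (N a) + 2) + min s (RR t jj (N a) + 2)))
    (((hv r).toCT ZMod.val).mul (CVecB_pw hN r)) ((ct_RR t jj hN.1).add (CT.const 2))
    ((hN.bd.of_le fun a => RR_le t jj _).add (Bd.const 2))).of_eq fun a => ?_
  exact Finset.sum_congr rfl fun s hs => by rw [min_eq_left (Finset.mem_range.1 hs).le]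

lemma vec_dA (hN : LogN N) {n : α → ℕ} (hn : CT 0 n) :
    VecCT N fun a => dA p t jj (N a) (n a) := by
  refine CVecB_mk hN.1 (f := fun a r s =>
    (n a / p ^ (rowE t r * (RR t jj (N a) + 2) + min s (RR t jj (N a) + 2)) % p : ℕ))
    (fun r => FinCT.zmod p (((hn.comp (by fun_prop)).div (CVecB_pw hN r)).mod (CT.const p)))
    fun a y => ?_
  rw [min_eq_left y.2.2.le]
  rfl

lemma VecCT.dot (hN : LogN N) (hv : VecCT N v) {f : α → Row t → ℕ → ZMod p}
    (hf : ∀ r, FinCT fun z : α × ℕ => f z.1 r z.2) :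
    FinCT fun a => ∑ y : CC t jj (N a), v a y * f a y.1 y.2 := by
  refine (FinCT.sum_fin
    (f := fun a r => ∑ s ∈ range (RR t jj (N a) + 2), ext (v a) r s * f a r s)
    fun r => FinCT.sum_range (f := fun a s => ext (v a) r s * f a r s)
      ((hv r).op2 (hf r) (· * ·)) ((ct_RR t jj hN.1).add (CT.const 2))
      ((hN.bd.of_le fun a => RR_le t jj _).add (Bd.const 2))).of_eq fun a => ?_
  refine Eq.trans ?_ (Fintype.sum_prod_type fun y : CC t jj (N a) => v a y * f a y.1 y.2).symm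
  refine Finset.sum_congr rfl fun r _ => ?_
  rw [Finset.sum_range]
  exact Finset.sum_congr rfl fun s _ => by simp only [ext, s.2, dite_true]

lemma WCT.code (hN : LogN N) {w : ∀ a, WW p c t jj (N a)} (hw : WCT N w) :
    CT 0 fun a => cW (w a) := by
  exact (hw.1.1.add (hN.1.mul (hw.1.2.toCT Fin.val))).add
    ((hN.1.mul (CT.const c)).mul (hw.2.code hN))

lemma w_dW (hN : LogN N) {n : α → ℕ} (hn : CT 0 n) : WCT N fun a => dW p c t jj (N a) (n a) := by
  have h1 : CT 0 fun a => N a * c := hN.1.mul (CT.const c)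
  exact ⟨⟨ct_val_cast hN (hn.mod h1), CVec_ofNat ((hn.mod h1).div hN.1)⟩, vec_dA hN (hn.div h1)⟩

lemma WCT.zero : WCT (p := p) (c := c) (t := t) (jj := jj) N fun _ => 0 := by
  exact ⟨⟨(CT.const 0).of_eq fun a => by simp, FinCT.const 0⟩, VecCT.zero⟩

lemma PCT.code (hN : LogN N) {z : ∀ a, PP M p c t jj (N a)} (hz : PCT N z) :
    CT 0 fun a => cP (z a) := by
  exact (hz.1.code hN).add ((CVec_MN hN).mul
    ((hz.2.1.code hN).add ((ct_nV hN p t jj).1.mul (hz.2.2.code hN))))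

lemma p_dP (hN : LogN N) {n : α → ℕ} (hn : CT 0 n) :
    PCT N fun a => dP M p c t jj (N a) (n a) := by
  exact ⟨pt_dX hN (hn.mod (CVec_MN hN)),
    vec_dA hN ((hn.div (CVec_MN hN)).mod (ct_nV hN p t jj).1),
    w_dW hN ((hn.div (CVec_MN hN)).div (ct_nV hN p t jj).1)⟩

/-- A computable family of data. -/
structure CxCT (N : α → ℕ) [∀ a, NeZero (N a)] (cx : ∀ a, Cx M p c t jj (N a) J) : Prop where
  hN : LogN N
  g : ∀ i, PtCT N fun a => (cx a).g i
  phi : FnCT (fun z : α × ℕ => N z.1) fun z => (cx z.1).phi z.2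
  ps : FnCT (fun z : α × ℕ => N z.1) fun z => (cx z.1).ps z.2
  yy : PtCT (fun z : α × ℕ => N z.1) fun z => (cx z.1).yy z.2
  kk : CT 0 fun a => (cx a).kk
  bkk : Bd 0 fun a => (cx a).kk
  cp : CT 0 fun z : α × ℕ × ℕ => (cx z.1).cp z.2.1 z.2.2
  u : ∀ dir g b, CT 0 fun z : α × ℕ × ℕ => (cx z.1).u dir g b z.2.1 z.2.2
  A : CT 0 fun a => (cx a).A
  bk : Bd 0 fun a => (cx a).A.k
  sp : ∀ j, CT 0 fun z : α × ℕ => cW ((cx z.1).sp j (dW p c t jj (N z.1) z.2))

lemma CxCT.comp {cx : ∀ a, Cx M p c t jj (N a) J} (h : CxCT N cx) {f : β → α} (hf : CT 0 f) :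
    CxCT (fun b => N (f b)) fun b => cx (f b) := by
  have h1 : CT 0 fun z : β × ℕ => (f z.1, z.2) := by fun_prop
  have h2 : CT 0 fun z : β × ℕ × ℕ => (f z.1, z.2) := by fun_prop
  refine ⟨h.hN.comp hf, fun i => PtCT.comp (h.g i) hf, ?_, ?_, ?_, h.kk.comp hf,
    h.bkk.comp hf.size, ?_, fun dir g b => ?_, h.A.comp hf, h.bk.comp hf.size, fun j => ?_⟩
  · exact FnCT.comp (f := fun z : β × ℕ => (f z.1, z.2)) h.phi h1
  · exact FnCT.comp (f := fun z : β × ℕ => (f z.1, z.2)) h.ps h1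
  · exact PtCT.comp (f := fun z : β × ℕ => (f z.1, z.2)) h.yy h1
  · exact CT.comp (g := fun z : β × ℕ × ℕ => (f z.1, z.2)) h.cp h2
  · exact CT.comp (g := fun z : β × ℕ × ℕ => (f z.1, z.2)) (h.u dir g b) h2
  · exact (CT.comp (h.sp j) h1).of_eq fun _ => rfl

lemma CVecB_extJ (hN : LogN N) (e : Fin jj → ZMod M) : PtCT N fun _ => extJ e := by
  refine (FinCT.sum_fin (f := fun (z : α × ℕ) (i : Fin jj) =>
    if ((z.2 : ZMod (N z.1))).val = i then e i else 0) fun i => FinCT.ite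
      (MachCT_eq (ct_val_cast (hN.comp CT.id.fst) CT.id.snd) (CT.const _)) (FinCT.const _)
      (FinCT.const _)).of_eq fun z => ?_
  simp only [extJ]
  split_ifs with h
  · rw [Finset.sum_eq_single ⟨_, h⟩ (fun i _ hi => if_neg fun e => hi (Fin.ext e.symm)) (by simp),
      if_pos rfl]
  · exact Finset.sum_eq_zero fun i _ => if_neg fun e => h (e.trans_lt i.2)

lemma CVecB_xa {cx : ∀ a, Cx M p c t jj (N a) J} (h : CxCT N cx) (xd : XD M jj)
    {x : ∀ a, XX M (N a)} (hx : PtCT N x) {i : ∀ a, II (N a) c} (hi : IdxCT N i) :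
    PtCT N fun a => (cx a).xa xd (x a) (i a) := by
  refine (PtCT.tw h.hN ?_ hx).add ((CVecB_extJ h.hN _).add
    (PtCT.smul (FinCT.const _) (pt_dirs h.hN h.g hi)))
  split_ifs
  · exact ct_val_cast h.hN (CT.const jj)
  · exact (CT.const 0).of_eq fun a => by simp

lemma CVecB_sp {cx : ∀ a, Cx M p c t jj (N a) J} (h : CxCT N cx) (j : J)
    {w : ∀ a, WW p c t jj (N a)} (hw : WCT N w) : WCT N fun a => (cx a).sp j (w a) := by
  have h0 : CT 0 fun a => (a, cW (w a)) := CT.id.mk (hw.code h.hN)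
  have h1 : CT 0 fun a => cW ((cx a).sp j (w a)) :=
    ((h.sp j).comp (g := fun a => (a, cW (w a))) h0).of_eq
      fun a => by simp only [dW_cW]
  have h2 := w_dW (p := p) (c := c) (t := t) (jj := jj) h.hN h1
  simp only [dW_cW] at h2
  exact h2

theorem CxCT.adF {cx : ∀ a, Cx M p c t jj (N a) J} (h : CxCT N cx)
    (χ : AddChar (ZMod M) (ZMod p)) (q : QQ M t jj J) {z : ∀ a, PP M p c t jj (N a)}
    (hz : PCT N z) : PCT N fun a => (cx a).adF χ q (z a) := by
  rcases q with q | xd | _ | q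
  · exact ⟨CVecB_xa h q.1 hz.1 hz.2.2.1, (hz.2.1.pd h.hN q.2).add hz.2.2.2, hz.2.2.1, hz.2.1⟩
  · exact ⟨CVecB_xa h xd hz.1 hz.2.2.1, hz.2⟩
  · exact ⟨hz.1, hz.2.1.add hz.2.2.2, hz.2.2⟩
  · have hw := CVecB_sp h q.1 hz.2.2
    exact ⟨hz.1.add (PtCT.smul (FinCT.const _) (pt_dirs h.hN h.g hw.1)),
      hz.2.1.add (VecCT.smul (FinCT.const _) hw.2), hw.1, VecCT.smul (FinCT.const _) hw.2⟩

end Vale.Agent.P330.B
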