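import Vale.Agent.P330.KQC

/-! Expanding shift invariant directions exist in every dimension. -/

namespace Vale.Agent.P330.B

open Finset
open scoped BigOperators

lemma tail3 {M N c k : ℕ} [Fact M.Prime] [NeZero N] {lam : ℝ} (hc : 3 ≤ lam * c)
    {y : ZMod N → ZMod M}
    (hy : LinearIndependent (ZMod M) fun (j : Fin k) (m : ZMod N) => y (m + (j : ℕ))) :
    pr (fun g : Fin c → ZMod N → ZMod M => lam < pr fun i => ip y (dirs g i) = 0) ≤
      ((2 : ℝ) ^ c / M ^ 3) ^ k := by
  have hM : (1 : ℝ) < M := mod_cast (Fact.out : M.Prime).one_lt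
  have hL := (Real.log_pos hM).le
  have hs : Function.Surjective fun (g : ZMod N → ZMod M) (j : Fin k) => ip y (tw (j : ℕ) g) := by
    let A : Matrix (Fin k) (ZMod N) (ZMod M) := Matrix.of fun j m => y (m + (j : ℕ))
    have h1 : LinearMap.range A.mulVecLin = ⊤ := Submodule.eq_top_of_finrank_eq
      ((LinearIndependent.rank_matrix (M := A) hy).trans (Module.finrank_fintype_fun_eq_card _).symm)
    intro z
    obtain ⟨g, rfl⟩ := LinearMap.range_eq_top.1 h1 z
    refine ⟨g, funext fun j => ?_⟩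
    exact (Equiv.sum_comp (Equiv.addRight ((j : ℕ) : ZMod N)) _).symm.trans (by
      simp [tw, A, Matrix.mulVec, dotProduct])
  have h1 : 𝔼 t : ZMod M, Real.exp (Real.log M * ind (t = 0)) ≤ 2 := by
    refine (ex_mono (g := fun t => 1 + M * ind (t = 0)) fun t => ?_).trans ?_
    · by_cases h : t = 0
      · rw [ind_pos h, mul_one, mul_one, Real.exp_log (by linarith)]
        linarith
      · simp [ind_neg h]
    · rw [ex_add, ex_const, ex_mul, ex_eq, sum_eq_single 0 (fun _ _ => ind_neg) (by simp),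
        ind_pos rfl, ZMod.card, mul_one_div_cancel (by linarith)]
      norm_num
  have h2 : ∀ w : ZMod N, 𝔼 g : Fin c → ZMod N → ZMod M, ∏ i, ∏ j : Fin k,
      Real.exp (Real.log M * ind (ip y (tw (j : ℕ) (tw w (g i))) = 0)) ≤ (2 ^ c) ^ k := fun w => by
    rw [KQC_pi fun g => ∏ j : Fin k,
        Real.exp (Real.log M * ind (ip y (tw (j : ℕ) (tw w g)) = 0)),
      KQC_unif (φ := fun g (j : Fin k) => ip y (tw (j : ℕ) (tw w g)))
        (fun a b => funext fun j => by rw [tw_add, tw_add, ip_add_right]; rfl)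
        (hs.comp fun g => ⟨tw (-w) g, by rw [tw_tw, add_neg_cancel, tw_zero]⟩)
        fun z => ∏ j, Real.exp (Real.log M * ind (z j = 0)),
      KQC_pi fun t : ZMod M => Real.exp (Real.log M * ind (t = 0)), Fintype.card_fin,
      Fintype.card_fin, ← pow_mul, ← pow_mul, mul_comm c]
    exact pow_le_pow_left₀ (ex_nonneg fun _ => (Real.exp_pos _).le) h1 _
  refine (pr_mono fun g hg => ?_).trans ((markov (t := (M ^ 3) ^ k) (f := fun g => 𝔼 w : ZMod N,
    ∏ i, ∏ j : Fin k, Real.exp (Real.log M * ind (ip y (tw (j : ℕ) (tw w (g i))) = 0)))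
    (fun g => ex_nonneg fun w => by positivity) (by positivity)).trans ?_)
  · have h3 : 𝔼 w : ZMod N, ∑ i, ∑ j : Fin k, ind (ip y (tw (j : ℕ) (tw w (g i))) = 0) =
        k * (c * pr fun i => ip y (dirs g i) = 0) := by
      have hc0 : (c : ℝ) ≠ 0 := fun h => by rw [h] at hc; linarith
      have e : ∀ i (a : ZMod N), 𝔼 w : ZMod N, ind (ip y (tw (a + w) (g i)) = 0) =
          pr fun w => ip y (dirs g (w, i)) = 0 := fun i a =>
        ex_equiv (Equiv.addLeft a) fun w => ind (ip y (tw w (g i)) = 0)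
      simp only [ex_sum, tw_tw, e]
      rw [pr_prod', ex_eq, Fintype.card_fin, mul_div_cancel₀ _ hc0, mul_sum]
      simp
    have h4 : (M ^ 3 : ℝ) ^ k = Real.exp (Real.log M * (k * 3)) := by
      rw [Real.exp_mul, Real.exp_log (by linarith), ← pow_mul, mul_comm 3]
      norm_cast
    refine le_trans ?_ (ex_mono (f := fun w => (M ^ 3 : ℝ) ^ k * (Real.log M *
      ((∑ i, ∑ j : Fin k, ind (ip y (tw (j : ℕ) (tw w (g i))) = 0)) - k * 3) + 1)) fun w => ?_)
    · rw [ex_mul, ex_add, ex_mul, ex_sub, ex_const, ex_const, h3]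
      refine le_mul_of_one_le_right (by positivity) (le_add_of_nonneg_left (mul_nonneg hL ?_))
      rw [← mul_sub]
      exact mul_nonneg k.cast_nonneg (by nlinarith [(c.cast_nonneg : (0 : ℝ) ≤ c)])
    · refine (mul_le_mul_of_nonneg_left (Real.add_one_le_exp _) (by positivity)).trans_eq ?_
      simp only [h4, ← Real.exp_add, ← Real.exp_sum, ← mul_sum]
      congr 1
      ring
  · rw [ex_comm, div_pow]
    exact div_le_div_of_nonneg_right (ex_le_const (by positivity) h2) (by positivity)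

open Classical in
lemma cnt_rec {M N : ℕ} [Fact M.Prime] [NeZero N] (k : ℕ) :
    #{y : ZMod N → ZMod M | ∃ a : Fin k → ZMod M, ∀ m : ZMod N,
      y (m + (k : ℕ)) = ∑ j, a j * y (m + (j : ℕ))} ≤ M ^ (2 * k) := by
  have h0 : ∀ y : ZMod N → ZMod M, ∃ a : Fin k → ZMod M, (∃ a : Fin k → ZMod M, ∀ m : ZMod N,
      y (m + (k : ℕ)) = ∑ j, a j * y (m + (j : ℕ))) → ∀ m : ZMod N,
      y (m + (k : ℕ)) = ∑ j, a j * y (m + (j : ℕ)) := fun y => by
    by_cases h : ∃ a : Fin k → ZMod M, ∀ m : ZMod N,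
      y (m + (k : ℕ)) = ∑ j, a j * y (m + (j : ℕ))
    · exact h.imp fun a ha _ => ha
    · exact ⟨0, fun h' => absurd h' h⟩
  choose a ha using h0
  refine (card_le_card_of_injOn (t := univ) (fun y => (a y, fun j : Fin k => y (j : ℕ)))
    (fun y _ => mem_univ _) fun y hy z hz h => ?_).trans_eq
    (by rw [card_univ, Fintype.card_prod, Fintype.card_fun, ZMod.card, Fintype.card_fin, two_mul,
      pow_add])
  obtain ⟨h1, h2⟩ := Prod.ext_iff.1 h
  funext m
  obtain ⟨n, rfl⟩ := ZMod.natCast_zmod_surjective m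
  induction n using Nat.strong_induction_on with
  | h n ih =>
    rcases lt_or_ge n k with hn | hn
    · exact congrFun h2 ⟨n, hn⟩
    · obtain ⟨n, rfl⟩ := Nat.exists_eq_add_of_le' hn
      rw [Nat.cast_add, ha y (mem_filter.1 hy).2, ha z (mem_filter.1 hz).2]
      refine sum_congr rfl fun j _ => ?_
      rw [← Nat.cast_add, ih _ (Nat.add_lt_add_left j.2 n), show a y = a z from h1]

lemma ord_rec {M N : ℕ} [Fact M.Prime] [NeZero N] {y : ZMod N → ZMod M} (hy : y ≠ 0) :
    ∃ k : Fin N, (LinearIndependent (ZMod M)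
      fun (j : Fin (k + 1)) (m : ZMod N) => y (m + (j : ℕ))) ∧
      ∃ a : Fin (k + 1) → ZMod M, ∀ m : ZMod N,
        y (m + ((k + 1 : ℕ) : ZMod N)) = ∑ j, a j * y (m + (j : ℕ)) := by
  by_contra hn
  have h : ∀ n, n ≤ N → LinearIndependent (ZMod M)
      fun (j : Fin (n + 1)) (m : ZMod N) => y (m + (j : ℕ)) := fun n => by
    induction n with
    | zero =>
      intro _
      refine (linearIndependent_unique_iff (ι := Fin 1)).2 ?_
      simpa using hy
    | succ n ih =>
      intro hle
      refine linearIndependent_finSucc'.2 ⟨ih (by omega), fun hm => ?_⟩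
      obtain ⟨a, ha⟩ := (Submodule.mem_span_range_iff_exists_fun _).1 hm
      refine hn ⟨⟨n, hle⟩, ih (by omega), a, fun m => ?_⟩
      have := congrFun ha m
      rw [Finset.sum_apply] at this
      exact this.symm
  have := (h N le_rfl).fintype_card_le_finrank
  rw [Module.finrank_fintype_fun_eq_card, ZMod.card, Fintype.card_fin] at this
  omega

theorem exists_dirs {M N c : ℕ} [Fact M.Prime] [NeZero N] {lam : ℝ}
    (hc : 3 ≤ lam * c) (hM : 2 ^ (c + 2) ≤ M) :
    ∃ g : Fin c → ZMod N → ZMod M, Expd (dirs g) lam := by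
  classical
  have hM2 : (2 : ℝ) ^ (c + 2) ≤ M := mod_cast hM
  have hM0 : (0 : ℝ) < M := lt_of_lt_of_le (by positivity) hM2
  obtain ⟨g, hg⟩ := exists_not_of_pr_lt (A := fun g : Fin c → ZMod N → ZMod M =>
    ∃ (k : Fin N) (y : ZMod N → ZMod M), (∃ a : Fin (k + 1) → ZMod M, ∀ m : ZMod N,
        y (m + ((k + 1 : ℕ) : ZMod N)) = ∑ j, a j * y (m + (j : ℕ))) ∧
      (LinearIndependent (ZMod M) fun (j : Fin (k + 1)) (m : ZMod N) => y (m + (j : ℕ))) ∧
        lam < pr fun i => ip y (dirs g i) = 0) (by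
    refine ((pr_exists_le _).trans (sum_le_sum (g := fun k : Fin N => 1 / 4 * (1 / 2 : ℝ) ^ (k : ℕ))
      fun k _ => (pr_exists_le _).trans ?_)).trans_lt ?_
    · refine (sum_le_sum (g := fun y => if ∃ a : Fin (k + 1) → ZMod M, ∀ m : ZMod N,
        y (m + ((k + 1 : ℕ) : ZMod N)) = ∑ j, a j * y (m + (j : ℕ)) then
        ((2 : ℝ) ^ c / M ^ 3) ^ (k + 1 : ℕ) else 0) fun y _ => ?_).trans ?_
      · split_ifs with h
        · by_cases hy : LinearIndependent (ZMod M)
            fun (j : Fin (k + 1)) (m : ZMod N) => y (m + (j : ℕ))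
          · exact (pr_mono fun g h => h.2.2).trans (tail3 hc hy)
          · rw [pr_false fun g h => hy h.2.1]
            positivity
        · rw [pr_false fun g h' => h h'.1]
      · rw [← sum_filter, sum_const, nsmul_eq_mul]
        calc _ ≤ (M : ℝ) ^ (2 * (k + 1 : ℕ)) * ((2 : ℝ) ^ c / M ^ 3) ^ (k + 1 : ℕ) := by
              refine mul_le_mul_of_nonneg_right ?_ (by positivity)
              rw [← Nat.cast_pow, Nat.cast_le]
              refine le_trans (le_of_eq (congrArg card ?_)) (cnt_rec (M := M) (N := N) (k + 1))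
              exact filter_congr_decidable _ _ _
          _ ≤ (1 / 4) ^ (k + 1 : ℕ) := by
              rw [pow_mul, ← mul_pow]
              refine pow_le_pow_left₀ (by positivity) ?_ _
              rw [← mul_div_assoc, div_le_div_iff₀ (by positivity) (by positivity)]
              rw [pow_add] at hM2
              nlinarith [mul_le_mul_of_nonneg_left hM2 (sq_nonneg (M : ℝ))]
          _ ≤ _ := by
              rw [pow_succ']
              gcongr
              norm_num
    · rw [← mul_sum, Fin.sum_univ_eq_sum_range fun k => (1 / 2 : ℝ) ^ k]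
      linarith [sum_geometric_two_le N])
  refine ⟨g, fun y hy => not_lt.1 fun h => ?_⟩
  obtain ⟨k, h1, h2⟩ := ord_rec hy
  exact hg ⟨k, y, h2, h1, h⟩

end Vale.Agent.P330.B
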