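import Vale.Agent.P330B.CDim
import Vale.Agent.P330B.CInt
import Vale.Agent.P330B.CRoute
import Vale.Agent.P330B.CVec
import Vale.Agent.P330B.KQC2
import Vale.Agent.P330.CPar

/-! The data of a machine are computed in polynomial time. -/

namespace Vale.Agent.P330.B

open Vale.Agent.Lib.TM

theorem exists_cx {M p c t jj d : ℕ} [Fact M.Prime] [Fact p.Prime] [NeZero c]
    {χ : AddChar (ZMod M) (ZMod p)} (h : Par M p c t jj d χ) : ∃ h0 C : ℕ,
    ∀ (α : Type) [Enc α] (A : α → Mach), CT 0 A → Bd 0 (fun a => (A a).k) →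
      ∃ (N : α → ℕ) (_ : ∀ a, NeZero (N a)) (cx : ∀ a, Cx M p c t jj (N a) (Fin h0 → Fin 32)),
        CxCT N cx ∧ (∀ a, (cx a).A = A a) ∧ (∀ a, (A a).Start → (cx a).Ok χ d) ∧
        ∀ a, (nP M p c t jj (N a) * ((nP M p c t jj (N a)).size + 1)) ^ (t + 1) ≤
          C * ((A a).K + 1) ^ (t + 7) := by
  obtain ⟨h0, hs⟩ := walk_samp (β := 1 / 256) (by norm_num)
  obtain ⟨C, hC⟩ := nP_bound h
  refine ⟨h0, C ^ (t + 1) * (9 ^ (t + 1) * 2) ^ (t + 7), fun α _ A hA hk => ?_⟩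
  have c1 : CT 0 fun a => (A a).ck false := hA.snd.snd.snd.fst
  have c2 : CT 0 fun a => (A a).ck true := hA.snd.snd.snd.snd.fst
  obtain ⟨k, k1, k2, k3⟩ := exists_root t (K := fun a => (A a).K)
    ((((CT.const 2).mul hA.fst).add c1.length).add c2.length)
    ((((Bd.const 2).mul hk).add c1.bd_length).add c2.bd_length)
  have k0 : ∀ a, 0 < k a := fun a => Nat.pos_of_ne_zero fun e => by
    have := (k3 a).1
    rw [e, zero_pow (Nat.succ_ne_zero t)] at this
    omega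
  have hU : 0 < UU t c := by
    unfold UU BB DD Dm
    positivity
  have k4 : CT 0 fun a => 4 * k a := (CT.const 4).mul k1
  have k5 : Bd 0 fun a => 4 * k a := (Bd.const 4).mul k2
  obtain ⟨R, hR, h1⟩ := exists_len hU ((Nat.le_self_pow (by omega) _).trans h.hMB) h.hj0
    (x := fun a => 4 * k a + 1) (k4.add (CT.const 1)) (k5.add (Bd.const 1))
    fun a => by have := k0 a; omega
  obtain ⟨N, hN, hNe⟩ : ∃ N : α → ℕ, LogN N ∧ ∀ a, N a = (t + 2) * jj * R a :=
    ⟨_, LogN_mul hR ((t + 2) * jj), fun _ => rfl⟩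
  have hp : 0 < (t + 2) * jj := Nat.mul_pos (by omega) h.hj0
  have hL : ∀ a, LB t jj (N a) = jj * R a := fun a => by
    rw [LB, RR, hNe, Nat.mul_div_cancel_left _ hp]
  have i0 : ∀ a, NeZero (N a) := fun a => ⟨by rw [hNe]; exact (Nat.mul_pos hp (h1 a).1).ne'⟩
  obtain ⟨g, hg, hE⟩ := search_dirs (M := M) (c := c) hN fun a => exists_dirs h.hc h.hMc
  obtain ⟨phi, yy, p1, p2, p3⟩ := exists_phi h.prim h.hMp hN hg (ct_LB t jj hN.1) k4 k5 d
  obtain ⟨ps, q1, q2⟩ := exists_ps h.prim h.hMp hN hg (ct_LB t jj hN.1) p2 (Dm t d)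
  have hS : ∀ a, 4 * k a + 1 ≤ nSm (g a) (LB t jj (N a)) d := fun a => by
    have h2 := nSm_ge h.hB (g a) (LB_le t jj _)
    have e : BB t ^ (N a * c) = UU t c ^ (jj * R a) := by
      rw [UU, ← pow_mul, hNe]
      congr 1
      ring
    rw [e, Nat.mul_comm (UU t c ^ _)] at h2
    refine Nat.le_of_mul_le_mul_right (le_trans ?_ h2) (Nat.pow_pos hU)
    rw [hL]
    exact (h1 a).2.1
  have r0 := fun (dir g : Bool) (b : Fin 5) => exists_route t
    (src := fun a e => ((A a).ent dir g e).ix b) (E := fun a => ((A a).ents dir g).length)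
    ((((CTab_ents hA hk dir g).comp CT.id.fst).getD CT.id.snd (CT.const _)).snd.getD (CT.const _)
      (CT.const _)) (CTab_ents hA hk dir g).length (CTab_ents hA hk dir g).bd_length k1 k2
  choose u r1 r2 using r0
  have r3 := fun a (ha : (A a).Start) (dir g : Bool) (b : Fin 5) =>
    r2 dir g b a (A a).K (ha.1.ents_len dir g).2
      (fun e he => (ha.1.ent_ix he b).trans_le (by unfold Mach.K; omega))
      (le_trans (by omega) (k3 a).1)
  have hN' : LogN fun z : α × ℕ => N z.1 := hN.comp CT.id.fst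
  refine ⟨N, i0, fun a => ⟨g a, phi a, ps a, yy a, 4 * k a,
    fun q j => dg (k a) t q j, fun dir g b => u dir g b a, A a,
    fun j => (eW p c t jj (N a)).symm.permCongr (walkP _ j)⟩,
    ⟨hN, hg, p1, q1, p2, k4, k5, ct_dg t (k1.comp CT.id.fst) CT.id.snd.fst CT.id.snd.snd, r1, hA,
      hk, fun j => ?_⟩, fun a => rfl, fun a ha =>
    ⟨h.prim, h.hM, h.hp, h.hMp, by rw [hL, hNe, mul_assoc], hE a, (hs _).congr _, (p3 a).1,
      (p3 a).2.2 (hS a), (p3 a).2.1, (q2 a).1, (q2 a).2, fun q _ j _ => ?_,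
      fun q hq q' hq' e => ?_, fun dir g b e he s _ => (r3 a ha dir g b).1 e he s,
      fun dir g b => (r3 a ha dir g b).2.1, fun dir g b => (r3 a ha dir g b).2.2.1,
      fun dir g b => (r3 a ha dir g b).2.2.2, ha⟩, fun a => ?_⟩
  · exact (ct_walkN (wordL j) (ct_nW hN' p c t jj).1 (ct_nW hN' p c t jj).2
      (WCT.code hN' (w_dW hN' CT.id.snd))).of_eq fun z =>
        (CPar_val (eW p c t jj (N z.1)) j _).symm
  · exact (dg_lt (k0 a) t q j).trans_le (Nat.le_mul_of_pos_left _ (by omega))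
  · have h2 : (A a).K ≤ k a ^ (t + 1) := le_trans (by omega) (k3 a).1
    exact dg_inj (lt_of_lt_of_le hq h2) (lt_of_lt_of_le hq' h2) e
  · rw [hNe]
    refine (Nat.pow_le_pow_left (hC _ _ (h1 a).1 (h1 a).2.2) _).trans ?_
    rw [mul_pow, ← pow_mul, mul_comm (t + 7), pow_mul, mul_assoc, ← mul_pow, mul_assoc]
    exact Nat.mul_le_mul_left _ (Nat.pow_le_pow_left (k3 a).2 _)

theorem exists_sp (M p c t jj : ℕ) [Fact M.Prime] [Fact p.Prime] [NeZero c] {β : ℝ} (hβ : 0 < β) :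
    ∃ hs : ℕ, ∀ (α : Type) [Enc α] (N : α → ℕ) [∀ a, NeZero (N a)], LogN N →
      ∃ sp : ∀ a, (Fin hs → Bool) → Equiv.Perm (PP M p c t jj (N a)), (∀ a, Samp β (sp a)) ∧
        ∀ j, CT 0 fun z : α × ℕ => cP (sp z.1 j (dP M p c t jj (N z.1) z.2)) := by
  obtain ⟨h0, hs⟩ := walk_samp hβ
  have e : (Fin (5 * h0) → Bool) ≃ (Fin h0 → Fin 32) :=
    Fintype.equivOfCardEq (by simp [pow_mul])
  refine ⟨5 * h0, fun α _ N _ hN =>
    ⟨fun a j => (eP M p c t jj (N a)).symm.permCongr (walkP _ (e j)),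
      fun a => ((hs _).congr _).reindex e, fun j => ?_⟩⟩
  have hN' : LogN fun z : α × ℕ => N z.1 := hN.comp CT.id.fst
  exact (ct_walkN (wordL (e j)) (ct_nP hN' M p c t jj).1 (ct_nP hN' M p c t jj).2
    (PCT.code hN' (p_dP hN' CT.id.snd))).of_eq fun z =>
      (CPar_val (eP M p c t jj (N z.1)) (e j) _).symm

end Vale.Agent.P330.B
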