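import Vale.Agent.P330B.YEnc
import Vale.Agent.P330.YCd

/-! Functions with small frequencies in every block. -/

namespace Vale.Agent.P330.B

open Finset
open scoped BigOperators

variable {M p c t jj N : ℕ} [Fact M.Prime] [Fact p.Prime] [NeZero N] {J : Type} [Fintype J]
  {χ : AddChar (ZMod M) (ZMod p)} {cx : Cx M p c t jj N J} {d : ℕ}
  {g : Fin c → XX M N} {L D D' : ℕ} {f f' : XX M N → ZMod p}

lemma AJ_iter (R : ℕ) (φ : XX M N → ZMod p) : (AJ jj)^[R] φ = Aop^[jj * R] φ := by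
  rw [Function.iterate_mul]
  rfl

lemma AJ_zero : AJ jj (0 : XX M N → ZMod p) = 0 :=
  Function.iterate_fixed Aop_zero jj

lemma AJ_sum {T : Type} (s : Finset T) (a : T → ZMod p) (f : T → XX M N → ZMod p) (x : XX M N) :
    AJ jj (fun y => ∑ i ∈ s, a i * f i y) x = ∑ i ∈ s, a i * AJ jj (f i) x := by
  unfold AJ
  induction jj generalizing x with
  | zero => rfl
  | succ n ih =>
    simp only [Function.iterate_succ_apply']
    rw [funext ih, Aop_sum]

lemma AJ_eq (hM : (M : ZMod p) ≠ 0) (hj : jj ≤ N) (φ : XX M N → ZMod p) (x : XX M N) :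
    AJ jj φ x = ((M : ZMod p) ^ jj)⁻¹ *
      ∑ α : Fin jj → ZMod M, φ (tw (jj : ZMod N) x + extJ α) := by
  have h1 : ∀ (v : XX M N) (α : Fin jj → ZMod M), cut jj (v + extJ α) =
      extJ ((fun i : Fin jj => v ((i : ℕ) : ZMod N)) + α) := fun v α => by
    funext l
    by_cases hl : l.val < jj
    · simp [cut, extJ, hl]
    · simp [cut, extJ, hl]
  have h2 : ∀ y : XX M N, (M : ZMod p) ^ jj * ∑ v, φ (y + cut jj v) =
      (M : ZMod p) ^ N * ∑ α : Fin jj → ZMod M, φ (y + extJ α) := fun y => by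
    have h5 : ∀ α : Fin jj → ZMod M, ∑ v, φ (y + cut jj v) =
        ∑ v, φ (y + cut jj (v + extJ α)) := fun α =>
      (Equiv.sum_comp (Equiv.addRight _) fun v => φ (y + cut jj v)).symm
    have h6 : (M : ZMod p) ^ jj * ∑ v, φ (y + cut jj v) =
        ∑ _α : Fin jj → ZMod M, ∑ v, φ (y + cut jj v) := by simp
    rw [h6, sum_congr rfl fun α _ => h5 α, sum_comm, ← YFour_const]
    refine sum_congr rfl fun v _ => ?_
    simp only [h1]
    exact Equiv.sum_comp (Equiv.addLeft fun i : Fin jj => v ((i : ℕ) : ZMod N))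
      fun α => φ (y + extJ α)
  rw [AJ, Aop_iter hM hj, eq_inv_mul_iff_mul_eq₀ (pow_ne_zero _ hM), mul_left_comm, h2,
    inv_mul_cancel_left₀ (pow_ne_zero _ hM)]

lemma Cx.Ok.jj_le (h : cx.Ok χ d) : jj ≤ N := by
  have h1 := h.hN
  have h2 : RR t jj N ≠ 0 := fun h2 => NeZero.ne N (by rw [← h1, LB, h2, mul_zero, mul_zero])
  calc jj ≤ jj * RR t jj N := Nat.le_mul_of_pos_right _ (Nat.pos_of_ne_zero h2)
    _ ≤ (t + 2) * LB t jj N := Nat.le_mul_of_pos_left _ (by omega)
    _ = N := h1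

lemma Hn_mono (hf : f ∈ Hn χ g t L D) (hD : D ≤ D') : f ∈ Hn χ g t L D' := by
  refine Submodule.span_mono ?_ hf
  rintro _ ⟨β, h1, h2, rfl⟩
  exact ⟨β, h1, fun j hj i => (h2 j hj i).mono hD, rfl⟩

lemma YHnA_zero (D : ℕ) : Small D (0 : ZMod M) := ⟨0, by simp, by simp⟩

lemma YHnA_add {z w : ZMod M} (hz : Small D z) (hw : Small D' w) : Small (D + D') (z + w) := by
  obtain ⟨a, ha, rfl⟩ := hz
  obtain ⟨b, hb, rfl⟩ := hw
  exact ⟨a + b, (abs_add_le a b).trans (by push_cast; omega), by simp⟩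

lemma YHnA_ip0 (x : XX M N) : ip (0 : XX M N) x = 0 := by
  simp [ip]

lemma YHnA_ipadd (y y' x : XX M N) : ip (y + y') x = ip y x + ip y' x := by
  simp [ip, add_mul, sum_add_distrib]

lemma YHnA_smv0 : SmV g D (0 : XX M N) := fun i => by
  rw [YHnA_ip0]
  exact YHnA_zero D

lemma Hn_one : (fun _ => 1) ∈ Hn χ g t L D := by
  refine Submodule.subset_span ⟨0, fun _ _ => rfl, fun j _ => ?_, funext fun x => ?_⟩
  · have e : cutB L j (0 : XX M N) = 0 := funext fun l => by simp [cutB]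
    rw [e]
    exact YHnA_smv0
  · rw [YHnA_ip0, AddChar.map_zero_eq_one]

lemma Hn_mul (hf : f ∈ Hn χ g t L D) (hf' : f' ∈ Hn χ g t L D') :
    (fun x => f x * f' x) ∈ Hn χ g t L (D + D') := by
  have h := Submodule.mul_mem_mul hf hf'
  rw [Hn, Hn, Submodule.span_mul_span] at h
  refine Submodule.span_mono ?_ h
  rintro _ ⟨_, ⟨β, h1, h2, rfl⟩, _, ⟨β', h3, h4, rfl⟩, rfl⟩
  refine ⟨β + β', fun l hl => by simp [h1 l hl, h3 l hl], fun j hj i => ?_, funext fun x => ?_⟩
  · have e : cutB L j (β + β') = cutB L j β + cutB L j β' := funext fun l => by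
      simp only [cutB, Pi.add_apply]
      split_ifs <;> simp
    rw [e, YHnA_ipadd]
    exact YHnA_add (h2 j hj i) (h4 j hj i)
  · simp only [Pi.mul_apply, YHnA_ipadd, AddChar.map_add_eq_mul]

lemma YHnA_prod {T : Type} (s : Finset T) {F : T → XX M N → ZMod p}
    (hF : ∀ b, F b ∈ Hn χ g t L D) : (fun x => ∏ b ∈ s, F b x) ∈ Hn χ g t L (s.card * D) := by
  classical
  induction s using Finset.induction_on with
  | empty => simpa using Hn_one
  | insert a s ha ih =>
    simp only [prod_insert ha, card_insert_of_notMem ha]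
    exact Hn_mono (Hn_mul (hF a) ih) (le_of_eq (by ring))

lemma Hn_psi {F : Fin 5 → XX M N → ZMod p} (hF : ∀ b, F b ∈ Hn χ g t L D) (β : Fin 5 → Bool) :
    (fun x => ∏ b, if β b then F b x else 1 - F b x) ∈ Hn χ g t L (5 * D) := by
  have h := YHnA_prod (χ := χ) (g := g) (t := t) (L := L) (D := D) univ
    (F := fun (b : Fin 5) x => if β b then F b x else 1 - F b x) fun b => by
      cases β b
      · exact Submodule.sub_mem _ Hn_one (hF b)
      · exact hF b
  rwa [card_univ, Fintype.card_fin] at h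

lemma YHnA_dep {S : Set (XX M N → ZMod p)} (hf : f ∈ Submodule.span (ZMod p) S) {x x' : XX M N}
    (h : ∀ f ∈ S, f x = f x') : f x = f x' := by
  induction hf using Submodule.span_induction with
  | mem f hf => exact h f hf
  | zero => rfl
  | add f f' _ _ h1 h2 => simp only [Pi.add_apply, h1, h2]
  | smul a f _ h1 => simp only [Pi.smul_apply, h1]

lemma YHnA_ipdep {K : ℕ} {β x x' : XX M N} (hβ : ∀ l, K ≤ l.val → β l = 0)
    (h : ∀ l, l.val < K → x l = x' l) : ip β x = ip β x' := by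
  refine sum_congr rfl fun l _ => ?_
  by_cases hl : l.val < K
  · rw [h l hl]
  · rw [hβ l (not_lt.1 hl), zero_mul, zero_mul]

lemma Hn_dep (hf : f ∈ Hn χ g t L D) {x x' : XX M N}
    (h : ∀ l, l.val < (t + 1) * L → x l = x' l) : f x = f x' := by
  refine YHnA_dep hf ?_
  rintro _ ⟨β, h1, -, rfl⟩
  exact congrArg χ (YHnA_ipdep h1 h)

lemma Sp0_dep (hf : f ∈ Sp0 χ g L D) {x x' : XX M N} (h : ∀ l, l.val < L → x l = x' l) :
    f x = f x' := by
  refine YHnA_dep hf ?_
  rintro _ ⟨β, h1, -, rfl⟩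
  exact congrArg χ (YHnA_ipdep h1 h)

lemma YHnA_cd {T : Set (XX M N → ZMod p)} (hf : f ∈ Submodule.span (ZMod p) T)
    (h : ∀ f ∈ T, ∃ β, SmV g D β ∧ f = fun x => χ (ip β x)) (S : II N c → Prop) :
    Cd χ D (dirs g) S f := by
  induction hf using Submodule.span_induction with
  | mem f hf =>
    obtain ⟨β, h1, rfl⟩ := h f hf
    intro i _ x
    simp only [ip_add_right, ip_smul_right]
    exact LD.chi (h1 i) _
  | zero => exact Cd.const 0
  | add f f' _ _ h1 h2 => exact h1.add h2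
  | smul a f _ h1 => exact fun i hi x => (h1 i hi x).smul a

omit [NeZero N] in
lemma YHnA_split {β : XX M N} (hβ : ∀ l, (t + 1) * L ≤ l.val → β l = 0) :
    β = ∑ j ∈ range (t + 1), cutB L j β := by
  funext l
  rw [Finset.sum_apply]
  by_cases hl : l.val < (t + 1) * L
  · have hL : 0 < L := Nat.pos_of_ne_zero fun h => by simp [h] at hl
    rw [sum_eq_single_of_mem (l.val / L) (mem_range.2 ((Nat.div_lt_iff_lt_mul hL).2 hl))]
    · rw [cutB, if_pos ⟨Nat.div_mul_le_self _ _,
        (Nat.div_lt_iff_lt_mul hL).1 (Nat.lt_succ_self _)⟩]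
    · intro j _ hj
      exact if_neg fun h => hj (Nat.div_eq_of_lt_le h.1 h.2).symm
  · simp [cutB, hβ l (not_lt.1 hl)]

lemma Hn_cd (hf : f ∈ Hn χ g t L D) (S : II N c → Prop) : Cd χ ((t + 1) * D) (dirs g) S f := by
  refine YHnA_cd hf ?_ S
  rintro _ ⟨β, h1, h2, rfl⟩
  refine ⟨β, fun i => ?_, rfl⟩
  have h3 := Small.sum (range (t + 1)) fun j hj => h2 j (Nat.lt_succ_iff.1 (mem_range.1 hj)) i
  rwa [card_range, ← ip_sum_left, ← YHnA_split h1] at h3

lemma Sp0_cd (hf : f ∈ Sp0 χ g L D) (S : II N c → Prop) : Cd χ D (dirs g) S f := by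
  refine YHnA_cd hf ?_ S
  rintro _ ⟨β, -, h2, rfl⟩
  exact ⟨β, h2, rfl⟩

lemma YHnA_iptw (m : ZMod N) (β x : XX M N) : ip β (tw (-m) x) = ip (tw m β) x := by
  rw [ip, ip, ← Equiv.sum_comp (Equiv.subRight m)]
  simp [tw]

lemma Sp0_tw (hN : (t + 2) * L = N) (hf : f ∈ Sp0 χ g L D) {j : ℕ} (hj : j ≤ t) :
    (fun x => f (tw (-(j * L : ℕ)) x)) ∈ Hn χ g t L D := by
  induction hf using Submodule.span_induction with
  | mem f hf =>
    obtain ⟨β, h1, h2, rfl⟩ := hf
    have h3 : ∀ l : ZMod N, tw ((j * L : ℕ) : ZMod N) β l ≠ 0 →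
        j * L ≤ l.val ∧ l.val < (j + 1) * L := fun l hl => by
      have h4 : (l - (j * L : ℕ)).val < L := not_le.1 fun h => hl (h1 _ h)
      have h5 : (j + 1) * L ≤ N := hN ▸ Nat.mul_le_mul_right _ (by omega)
      rw [add_mul, one_mul] at h5 ⊢
      have h6 : ((j * L : ℕ) : ZMod N).val = j * L := ZMod.val_cast_of_lt (by omega)
      have h7 := ZMod.val_add_of_lt (a := l - ((j * L : ℕ) : ZMod N)) (b := ((j * L : ℕ) : ZMod N))
        (by omega)
      rw [sub_add_cancel] at h7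
      omega
    refine Submodule.subset_span ⟨tw (j * L : ℕ) β, fun l hl => ?_, fun j' _ => ?_,
      funext fun x => congrArg χ (YHnA_iptw _ _ _)⟩
    · by_contra h
      have h4 := (h3 l h).2
      have h5 : (j + 1) * L ≤ (t + 1) * L := Nat.mul_le_mul_right _ (by omega)
      omega
    · by_cases hj' : j' = j
      · have e : cutB L j' (tw ((j * L : ℕ) : ZMod N) β) = tw (j * L : ℕ) β := funext fun l => by
          rw [cutB, hj']
          split_ifs with h
          · rfl
          · exact (not_not.1 fun h' => h (h3 l h')).symm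
        intro i
        rw [e, ← YHnA_iptw, dirs, tw_tw]
        exact h2 (_, i.2)
      · have e : cutB L j' (tw ((j * L : ℕ) : ZMod N) β) = 0 := funext fun l => by
          rw [cutB]
          split_ifs with h
          · by_contra h'
            have h4 := h3 l h'
            exact hj' ((Nat.div_eq_of_lt_le h.1 h.2).symm.trans (Nat.div_eq_of_lt_le h4.1 h4.2))
          · rfl
        rw [e]
        exact YHnA_smv0
  | zero => exact Submodule.zero_mem _
  | add f f' _ _ h1 h2 => exact Submodule.add_mem _ h1 h2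
  | smul a f _ h1 => exact Submodule.smul_mem _ a h1

end Vale.Agent.P330.B
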