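import Vale.Agent.P330B.CVec
import Vale.Agent.P330B.YHnA

/-! The constants of the cells are computed in polynomial time. -/

namespace Vale.Agent.P330.B

open Vale.Agent.Lib.TM Finset
open scoped BigOperators

variable {α : Type} [Enc α] {M p c t jj : ℕ} [Fact M.Prime] [Fact p.Prime] [NeZero c]
  {N : α → ℕ} [∀ a, NeZero (N a)] {J : Type} {cx : ∀ a, Cx M p c t jj (N a) J}

omit [Fact M.Prime] [NeZero c] [∀ a, NeZero (N a)] in
lemma CTab_mul {φ ψ : ∀ a, XX M (N a) → ZMod p} (h : FnCT N φ) (h' : FnCT N ψ) :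
    FnCT N fun a x => φ a x * ψ a x := FinCT.op2 h h' (· * ·)

omit [Fact M.Prime] [NeZero c] [∀ a, NeZero (N a)] in
lemma CTab_ite {P : α → Prop} [DecidablePred P] (hP : CT 0 fun a => decide (P a))
    {φ : ∀ a, XX M (N a) → ZMod p} (h : FnCT N φ) :
    FnCT N fun a x => if P a then φ a x else 0 :=
  FinCT.ite (hP.comp CT.id.fst) h (FinCT.const 0)

omit [Fact M.Prime] [NeZero c] [∀ a, NeZero (N a)] in
lemma CTab_sum {F : ∀ a, ℕ → XX M (N a) → ZMod p}
    (hF : FnCT (fun z : α × ℕ => N z.1) fun z => F z.1 z.2) {n : α → ℕ} (hn : CT 0 n)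
    (hB : Bd 0 n) : FnCT N fun a x => ∑ i ∈ range (n a), F a i x :=
  FinCT.sum_range (f := fun (y : α × ℕ) i => F y.1 i (dX M (N y.1) y.2))
    (FinCT.comp' (g := fun y : (α × ℕ) × ℕ => ((y.1.1, y.2), y.1.2)) hF
      ((CT.id.fst.fst.mk CT.id.snd).mk CT.id.fst.snd))
    (hn.comp CT.id.fst) (hB.comp (CT.fst (e := 0) CT.id).size)

omit [NeZero c] in
lemma CTab_tw (hN : LogN N) {φ : ∀ a, XX M (N a) → ZMod p} (hφ : FnCT N φ) {n : α → ℕ}
    (hn : CT 0 n) : FnCT N fun a x => φ a (tw (-(n a : ℕ)) x) :=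
  hφ.tw hN (ct_val_neg hN (ct_val_cast hN hn))

omit [∀ a, NeZero (N a)] in
lemma CTab_hgt {R j : α → ℕ} (hR : CT 0 R) (hj : CT 0 j) (κ : Ct t) (y : SS t) :
    CT 0 fun a => hgt (R a) κ (j a) y := by
  unfold hgt
  split_ifs
  exacts [hj, hR.add (CT.const 1), CT.const 0]

theorem fn_aj (hM : (M : ZMod p) ≠ 0) (hN : LogN N) {φ : ∀ a, XX M (N a) → ZMod p}
    (hφ : FnCT N φ) {n : α → ℕ} (hn : CT 0 n) (hle : ∀ a, n a ≤ RR t jj (N a)) :
    FnCT N fun a => (AJ jj)^[n a] (φ a) := by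
  simp only [AJ_iter]
  exact FnCT.iter hM hN hφ ((CT.const jj).mul hn) fun a =>
    (Nat.mul_le_mul_left jj (hle a)).trans (LB_le t jj (N a))

theorem CxCT.Phi (h : CxCT N cx) {r : α → ℕ → ℕ} (hr : ∀ j, CT 0 fun a => r a j) :
    FnCT N fun a => (cx a).Phi (r a) := by
  have key : ∀ k, FnCT N fun a x => ∏ j ∈ range k,
      (cx a).phi (r a j) (tw (-(j * LB t jj (N a) : ℕ)) x) := fun k => by
    induction k with
    | zero => exact FinCT.const 1
    | succ k ih =>
      have h1 : FnCT N fun a => (cx a).phi (r a k) :=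
        h.phi.comp (f := fun a => (a, r a k)) (CT.id.mk (hr k))
      simp only [prod_range_succ]
      exact CTab_mul ih (CTab_tw h.hN h1 ((CT.const k).mul (ct_LB t jj h.hN.1)))
  exact key (t + 1)

theorem CxCT.yv (h : CxCT N cx) {r : α → ℕ → ℕ} (hr : ∀ j, CT 0 fun a => r a j) :
    PtCT N fun a => (cx a).yv (r a) := by
  have key : ∀ k, PtCT N fun a => ∑ j ∈ range k,
      tw (j * LB t jj (N a) : ℕ) ((cx a).yy (r a j)) := fun k => by
    induction k with
    | zero => exact PtCT.zero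
    | succ k ih =>
      have h1 : PtCT N fun a => (cx a).yy (r a k) :=
        h.yy.comp (f := fun a => (a, r a k)) (CT.id.mk (hr k))
      simp only [sum_range_succ]
      exact ih.add (h1.tw h.hN (ct_val_cast h.hN ((CT.const k).mul (ct_LB t jj h.hN.1))))
  exact key (t + 1)

lemma CTab_cp (h : CxCT N cx) :
    FnCT (fun z : α × ℕ => N z.1) fun z => (cx z.1).Phi ((cx z.1).cp z.2) :=
  (h.comp (f := fun z : α × ℕ => z.1) CT.id.fst).Phi (r := fun z => (cx z.1).cp z.2) fun j =>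
    h.cp.comp (g := fun z : α × ℕ => (z.1, z.2, j)) (CT.id.fst.mk (CT.id.snd.mk (CT.const j)))

theorem CxCT.encC (h : CxCT N cx) {z : α → ℕ → ZMod p}
    (hz : FinCT fun y : α × ℕ => z y.1 y.2) : FnCT N fun a => (cx a).encC (z a) := by
  have h1 : CT 0 fun a => (cx a).A.ck false := h.A.snd.snd.snd.fst
  have h2 : CT 0 fun a => (cx a).A.ck true := h.A.snd.snd.snd.snd.fst
  exact CTab_sum (F := fun a q x => z a q * (cx a).Phi ((cx a).cp q) x)
    (CTab_mul (N := fun y : α × ℕ => N y.1) (φ := fun y _ => z y.1 y.2) (hz.comp' CT.id.fst)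
      (CTab_cp h))
    ((((CT.const 2).mul h.A.fst).add h1.length).add h2.length)
    ((((Bd.const 2).mul h.bk).add h1.bd_length).add h2.bd_length)

theorem CxCT.kap (h : CxCT N cx) (dir g : Bool) (b : Fin 5) (s : ℕ) :
    FnCT N fun a => (cx a).kap dir g b s := by
  have h1 := CTab_ents h.A h.bk dir g
  have h2 := h.comp (f := fun z : α × ℕ => z.1) CT.id.fst
  have hu : ∀ k, CT 0 fun z : α × ℕ => (cx z.1).u dir g b z.2 k := fun k =>
    (h.u dir g b).comp (g := fun z : α × ℕ => (z.1, z.2, k))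
      (CT.id.fst.mk (CT.id.snd.mk (CT.const k)))
  have h3 : CT 0 fun y : ((α × ℕ) × ℕ) × ℕ => (cx y.1.1.1).u dir g b y.1.2 (s + 1 + y.2) :=
    (h.u dir g b).comp (g := fun y : ((α × ℕ) × ℕ) × ℕ => (y.1.1.1, y.1.2, s + 1 + y.2))
      (CT.id.fst.fst.fst.mk (CT.id.fst.snd.mk ((CT.const _).add CT.id.snd)))
  have h4 : CT 0 fun y : ((α × ℕ) × ℕ) × ℕ => (cx y.1.1.1).u dir g b y.1.1.2 (s + 1 + y.2) :=
    (h.u dir g b).comp (g := fun y : ((α × ℕ) × ℕ) × ℕ => (y.1.1.1, y.1.1.2, s + 1 + y.2))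
      (CT.id.fst.fst.fst.mk (CT.id.fst.fst.snd.mk ((CT.const _).add CT.id.snd)))
  have h5 : CT 0 fun z : α × ℕ => (List.range (min z.2 ((cx z.1).A.ents dir g).length)).all
      fun e' => (List.range (t + 1)).any fun j =>
        (cx z.1).u dir g b e' (s + 1 + j) != (cx z.1).u dir g b z.2 (s + 1 + j) :=
    CT.all (CT.any (f := fun (y : (α × ℕ) × ℕ) j => (cx y.1.1).u dir g b y.2 (s + 1 + j) !=
      (cx y.1.1).u dir g b y.1.2 (s + 1 + j)) (h3.beqNat h4).not (CT.const _))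
      ((CT.id.snd.min (h1.comp CT.id.fst).length).range
        ((h1.comp CT.id.fst).bd_length.of_le fun _ => min_le_right _ _))
  have h6 : FnCT (fun z : α × ℕ => N z.1) fun z => (cx z.1).ps ((cx z.1).u dir g b z.2 s) :=
    h.ps.comp (f := fun z : α × ℕ => (z.1, (cx z.1).u dir g b z.2 s)) (CT.id.fst.mk (hu s))
  have h7 := CTab_ite (h5.of_eq fun _ => Bool.decide_eq_true.symm) (CTab_mul h6 (CTab_tw h2.hN
    (h2.Phi (r := fun z j => (cx z.1).u dir g b z.2 (s + 1 + j)) fun j => hu _)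
    (ct_LB t jj h2.hN.1)))
  refine FinCT.of_eq (CTab_sum (F := fun a e x =>
    if (List.range (min e ((cx a).A.ents dir g).length)).all fun e' => (List.range (t + 1)).any
      fun j => (cx a).u dir g b e' (s + 1 + j) != (cx a).u dir g b e (s + 1 + j) then
    (cx a).ps ((cx a).u dir g b e s) x * (cx a).Phi (fun j => (cx a).u dir g b e (s + 1 + j))
      (tw (-(LB t jj (N a) : ℕ)) x) else 0) h7 h1.length h1.bd_length) fun z => ?_
  refine sum_congr rfl fun e he => ?_
  rw [min_eq_left (mem_range.1 he).le]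
  rfl

theorem CxCT.ker (h : CxCT N cx) : FnCT N fun a => (cx a).ker := by
  have h1 := h.hN.comp (f := fun z : α × ℕ => z.1) CT.id.fst
  exact CTab_sum (F := fun a i x => (cx a).ps i x *
      (cx a).phi i (tw (-((t + 1) * LB t jj (N a) : ℕ)) x))
    (CTab_mul h.ps (CTab_tw h1 h.phi ((CT.const (t + 1)).mul (ct_LB t jj h1.1)))) h.kk h.bkk

theorem CxCT.Pt (h : CxCT N cx) (dir g : Bool) (b : Fin 5) (β : Fin 5 → Bool) :
    FnCT N fun a => (cx a).Pt dir g b β := by
  have h1 := CTab_ents h.A h.bk dir g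
  have h2 : CT 0 fun y : α × ℕ => (cx y.1).A.ent dir g y.2 :=
    (h1.comp CT.id.fst).getD CT.id.snd (CT.const _)
  have h3 : CT 0 fun y : α × ℕ => rowc (cx y.1).A b y.2 := by
    unfold rowc
    split_ifs
    exacts [CT.id.snd.decLt (h.A.comp CT.id.fst).fst, (h.A.comp CT.id.fst).fst.decLe CT.id.snd]
  have h4 : CT 0 fun y : α × ℕ =>
      decide ((rowc (cx y.1).A b y.2 && ((cx y.1).A.ent dir g y.2).tt β) = true) :=
    (h3.and (h2.fst.getD (CT.const (bnum β)) (CT.const false))).of_eq fun _ =>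
      Bool.decide_eq_true.symm
  exact CTab_sum (F := fun a e x => if rowc (cx a).A b e && ((cx a).A.ent dir g e).tt β then
    (cx a).Phi ((cx a).cp e) x else 0) (CTab_ite h4 (CTab_cp h)) h1.length h1.bd_length

theorem CxCT.Tab (h : CxCT N cx) (dir g : Bool) (s : ℕ) (β : Fin 5 → Bool) (b : Fin 5) :
    FnCT N fun a => (cx a).Tab dir g s β b := by
  unfold Cx.Tab
  split_ifs
  exacts [h.kap dir g b s, FinCT.const 0, CTab_mul h.ker (h.Pt dir g b β), h.ker, FinCT.const 0]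

theorem CxCT.bas (h : CxCT N cx) (dir g : Bool) (s : ℕ) (b : Fin 5)
    {f : ∀ a, Fin 5 → XX M (N a) → ZMod p} (hf : ∀ b', FnCT N fun a => f a b') :
    FnCT N fun a => (cx a).bas dir g s b (f a) := by
  have h1 := fun β => h.Tab dir g s β b
  unfold FnCT at h1 hf
  exact CTab_psiL h1 (fun _ => FinCT.const 1) hf

theorem CxCT.stg (hM : (M : ZMod p) ≠ 0) (h : CxCT N cx) (dir g : Bool)
    {f : ∀ a, XX M (N a) → ZMod p} (hf : FnCT N f) (s : ℕ) (b : Fin 5) :
    FnCT N fun a => (cx a).stg dir g (f a) s b := by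
  induction s generalizing b with
  | zero => exact hf
  | succ s ih =>
    exact fn_aj (t := t) hM h.hN (h.bas dir g s b ih) (ct_RR t jj h.hN.1) fun _ => le_rfl

theorem CxCT.base (hM : (M : ZMod p) ≠ 0) (h : CxCT N cx) (y : SS t) (b : Fin 5)
    {w : α → List Bool} (hw : CT 0 w) : FnCT N fun a => (cx a).base y b (w a) := by
  have h1 : FinCT fun y : α × ℕ => bitv p (w y.1) y.2 :=
    (FinCT.bool ((hw.comp CT.id.fst).getD CT.id.snd (CT.const false))).comp
      fun u => if u then (1 : ZMod p) else 0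
  exact h.bas y.1.1 (ing y.1) y.2 b fun b' =>
    h.stg hM y.1.1 (ing y.1) (h.encC (z := fun a => bitv p (w a)) h1) y.2 b'

theorem CxCT.tab (hM : (M : ZMod p) ≠ 0) (h : CxCT N cx) {z : ∀ a, PP M p c t jj (N a)}
    (hz : PCT N z) : FinCT fun a => (cx a).tab (z a) := by
  have hN := h.hN
  have hR := ct_RR t jj hN.1
  refine (FinCT.pi fun r => FinCT.pi fun i => ?_).prod
    ((FinCT.pi fun dir => FinCT.pi fun g => FinCT.pi fun s : Fin (4 * t + 4) => FinCT.pi fun β =>
      FinCT.pi fun b => (h.Tab dir g s β b).app hN hz.1).prod (FinCT.pi fun τ => ?_))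
  · refine (hz.2.1 r).comp' (g := fun a => (a, if i = 0 then 0 else if i = 1 then RR t jj (N a)
      else RR t jj (N a) + 1)) (CT.id.mk ?_)
    split_ifs
    exacts [CT.const 0, hR, hR.add (CT.const 1)]
  have hj : CT 0 fun a => if τ then RR t jj (N a) else RR t jj (N a) + 1 := by
    split_ifs
    exacts [hR, hR.add (CT.const 1)]
  have hg : FinCT fun a => (cx a).A.g0 := FinCT.bool h.A.snd.snd.snd.snd.snd.snd
  have hw : CT 0 fun a => (cx a).A.w0 := h.A.snd.snd.snd.snd.snd.fst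
  refine VecCT.dot hN hz.2.1
    (f := fun a => (cx a).StR (s0 t (cx a).A (RR t jj (N a)) τ) (z a).1) ?_
  rintro (⟨y, b⟩ | _ | _)
  · have h1 := hN.comp (f := fun y : α × ℕ => y.1) CT.id.fst
    have h2 : CT 0 fun a => msg (cx a).A (s0 t (cx a).A (RR t jj (N a)) τ) y.1 :=
      hg.elim (g := fun g a => (cx a).A.msg ((g, 0),
        if τ then RR t jj (N a) else RR t jj (N a) + 1, (cx a).A.w0, (cx a).A.step true (cx a).A.w0)
        y.1) fun g => CTab_msg h.A (g, 0) _ hw ((ct_step true).comp (h.A.mk hw)) y.1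
    have h3 : CT 0 fun a => hgt (RR t jj (N a)) (((cx a).A.g0, 0), 0)
        (if τ then RR t jj (N a) else RR t jj (N a) + 1) y :=
      hg.elim (g := fun g a => hgt (RR t jj (N a)) ((g, 0), 0)
        (if τ then RR t jj (N a) else RR t jj (N a) + 1) y) fun g => CTab_hgt hR hj ((g, 0), 0) y
    have h4 := (fn_aj (t := t) (jj := jj) hM h1 ((h.base hM y b h2).comp CT.id.fst)
      (((h3.comp CT.id.fst).sub (CT.const 1)).sub CT.id.snd) fun y => by
        unfold hgt; split_ifs <;> omega).app h1 (hz.1.comp CT.id.fst)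
    exact (FinCT.ite (CT.id.snd.decLt (h3.comp CT.id.fst)) h4 (FinCT.const 0)).of_eq fun y => by
      rw [Cx.StR, stk, ite_apply]
      rfl
  · exact FinCT.ite (MachCT_eq CT.id.snd (hj.comp CT.id.fst)) (FinCT.const 1) (FinCT.const 0)
  · exact FinCT.ite (MachCT_eq CT.id.snd (CT.const 0))
      ((hg.comp' CT.id.fst).comp fun g => code p (((g, 0), 0) : Ct t)) (FinCT.const 0)

end Vale.Agent.P330.B
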