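import Vale.Agent.P330.MachF
import Vale.Agent.P330.MachCT

/-! The machine with a thermometer register has a linear number of checks. -/

namespace Vale.Agent.P330

open Vale.Agent.Lib.TM

namespace EoL

variable (I : EoL)

/-- The thermometer at time `t`. -/
def th (t : ℕ) : List Bool := (List.range (I.T + 1)).map fun s => decide (s ≤ t ∧ s < I.T)

/-- The update of a cell. -/
def upd2 (dir : Bool) (q : ℕ) : Desc :=
  if q < I.k then I.upd dir q
  else if q = I.k then (mkT fun _ => true, [q, q, q, q, q])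
  else if q = I.k + I.T then (mkT fun _ => false, [q, q, q, q, q])
  else if dir then (mkT fun β => !β 0 && (β 1 || β 2), [I.T - 1, q - I.k - 1, q, q, q])
  else (mkT fun β => β 0 || (β 2 && !β 1), [0, q - I.k, q, q, q])

/-- The table of the clock check. -/
def clkT (bad : Bool) : List Bool :=
  mkT fun β => (β 0 != (β 1 && !β 2)) || (β 2 && !β 1) || (β 0 && bad) || !β 3 || β 4

/-- The check of the clock and the thermometer. -/
def chkC (g : Bool) (t : ℕ) : Desc :=
  (clkT (decide (t % 2 ≠ g.toNat)), [t, I.k + t, I.k + t + 1, I.k, I.k + I.T])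

/-- Dead cells are zero. -/
def chkD (q : ℕ) : Desc :=
  (mkT fun β => β 2 && !(β 0 && !β 1), [I.k + I.bth q, I.k + I.dth q, q, q, q])

/-- The table of a comparison inside an interval. -/
def neT2 (o : ℕ) : List Bool := mkT fun β => β 0 && !β 1 && (β 2 != opV o (β 3) (β 4))

/-- A cell equals its gate inside its interval. -/
def chkE (q : ℕ) : Desc :=
  (neT2 (I.op (decide (I.oS ≤ q)) q).1,
    [I.k + if q < I.oS then I.tP else I.bth q,
      I.k + if I.oY ≤ q ∧ q < I.oP then I.tP + 1 else I.dth q, q,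
      (I.op (decide (I.oS ≤ q)) q).2.1, (I.op (decide (I.oS ≤ q)) q).2.2])

/-- All checks of a parity. -/
def cks2 (g : Bool) : List Desc :=
  (List.range I.T).map (I.chkC g) ++ ((List.range (I.k - I.T)).map (fun q => I.chkD (I.T + q)) ++
    (List.range (I.k - I.T)).map fun q => I.chkE (I.T + q))

/-- The machine. -/
def mach2 : Mach :=
  (I.k + I.T + 1, (List.range (I.k + I.T + 1)).map (I.upd2 true),
    (List.range (I.k + I.T + 1)).map (I.upd2 false), I.cks2 false, I.cks2 true,
    I.mach.w0 ++ I.th (I.tP + 1), I.mach.g0)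

variable {I}

theorem Mach2_prog (dir : Bool) :
    I.mach2.prog dir = (List.range (I.k + I.T + 1)).map (I.upd2 dir) := by
  cases dir <;> rfl

theorem Mach2_ck (g : Bool) : I.mach2.ck g = I.cks2 g := by
  cases g <;> rfl

theorem Mach2_mem {g : Bool} {D : Desc} : D ∈ I.cks2 g ↔ (∃ t < I.T, I.chkC g t = D) ∨
    (∃ q, I.T ≤ q ∧ q < I.k ∧ I.chkD q = D) ∨ ∃ q, I.T ≤ q ∧ q < I.k ∧ I.chkE q = D := by
  simp only [cks2, List.mem_append, List.mem_map, List.mem_range]
  refine or_congr Iff.rfl (or_congr ?_ ?_)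
  · exact ⟨fun ⟨q, h1, h2⟩ => ⟨_, by omega, by omega, h2⟩, fun ⟨q, h1, h2, h3⟩ =>
      ⟨q - I.T, by omega, by rw [Nat.add_sub_cancel' h1, h3]⟩⟩
  · exact ⟨fun ⟨q, h1, h2⟩ => ⟨_, by omega, by omega, h2⟩, fun ⟨q, h1, h2, h3⟩ =>
      ⟨q - I.T, by omega, by rw [Nat.add_sub_cancel' h1, h3]⟩⟩

theorem Mach2_upd (hI : I.Valid) (dir : Bool) {q : ℕ} (hq : q < I.k) (b : Fin 5) :
    (I.upd dir q).ix b < I.k := by
  have e : I.mach.prog dir = (List.range I.k).map (I.upd dir) := by cases dir <;> rfl
  exact ((mach_wf hI).1 dir).2 _ (e ▸ List.mem_map.2 ⟨q, List.mem_range.2 hq, rfl⟩) b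

theorem mach2_wf (hI : I.Valid) : I.mach2.WF := by
  have hn := MachS_num I
  refine ⟨fun dir => ?_, fun g D hD => ?_⟩
  · rw [Mach2_prog]
    refine ⟨by rw [List.length_map, List.length_range]; rfl, fun D hD => ?_⟩
    obtain ⟨q, hq, rfl⟩ := List.mem_map.1 hD
    rw [List.mem_range] at hq
    change ∀ b, _ < I.k + I.T + 1
    unfold upd2
    split_ifs with h1
    · exact fun b => (Mach2_upd hI dir h1 b).trans_le (by omega)
    · exact machI_ix hq hq hq hq hq
    · exact machI_ix hq hq hq hq hq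
    · exact machI_ix (by omega) (by omega) hq hq hq
    · exact machI_ix (by omega) (by omega) hq hq hq
  · rw [Mach2_ck, Mach2_mem] at hD
    change ∀ b, _ < I.k + I.T + 1
    rcases hD with ⟨t, ht, rfl⟩ | ⟨q, h1, h2, rfl⟩ | ⟨q, h1, h2, rfl⟩
    · exact machI_ix (by omega) (by omega) (by omega) (by omega) (by omega)
    · have h3 := MachS_lt h2
      exact machI_ix (by omega) (by omega) (by omega) (by omega) (by omega)
    · have h3 := MachS_lt h2
      have h4 := machI_op hI (decide (I.oS ≤ q)) h1 h2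
      exact machI_ix (by split_ifs <;> omega) (by split_ifs <;> omega) (by omega) (by omega)
        (by omega)

theorem Mach2_lo {u : List Bool} (hu : u.length = I.k) (v : List Bool) {q : ℕ} (hq : q < I.k) :
    (u ++ v).getD q false = u.getD q false :=
  List.getD_append _ _ _ _ (hu ▸ hq)

theorem Mach2_hi {u : List Bool} (hu : u.length = I.k) {t s : ℕ} (ht : t < I.T) (hs : s ≤ I.T) :
    (u ++ I.th t).getD (I.k + s) false = decide (s ≤ t) := by
  rw [List.getD_append_right _ _ _ _ (by omega), hu, Nat.add_sub_cancel_left, th,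
    MachK_range _ (by omega)]
  exact decide_eq_decide.2 (by omega)

theorem Mach2_evC (g : Bool) (t : ℕ) (w : List Bool) : (I.chkC g t).ev w = false ↔
    w.getD t false = (w.getD (I.k + t) false && !w.getD (I.k + (t + 1)) false) ∧
      (w.getD (I.k + (t + 1)) false = true → w.getD (I.k + t) false = true) ∧
      (w.getD t false = true → t % 2 = g.toNat) ∧ w.getD (I.k + 0) false = true ∧
      w.getD (I.k + I.T) false = false := by
  have e : ∀ a b c d e f : Bool,
      ((a != (b && !c)) || (c && !b) || (a && f) || !d || e) = false ↔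
        a = (b && !c) ∧ (c = true → b = true) ∧ (a = true → f = false) ∧ d = true ∧
          e = false := by decide
  rw [chkC, clkT, Desc.ev, mkT_tt, e, decide_eq_false_iff_not, not_not]
  rfl

theorem Mach2_evD {u : List Bool} (hu : u.length = I.k) {t q : ℕ} (ht : t < I.T) (hq : q < I.k) :
    (I.chkD q).ev (u ++ I.th t) = false ↔ (I.alive q t = false → u.getD q false = false) := by
  have h3 := MachS_lt hq
  have e : ∀ a b c : Bool, (c && !(a && !b)) = false ↔ ((a && !b) = false → c = false) := by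
    decide
  rw [chkD, Desc.ev, mkT_tt, e]
  change (((u ++ I.th t).getD (I.k + I.bth q) false &&
    !(u ++ I.th t).getD (I.k + I.dth q) false) = false → (u ++ I.th t).getD q false = false) ↔ _
  rw [Mach2_hi hu ht (by omega), Mach2_hi hu ht (by omega), Mach2_lo hu _ hq, alive, ← decide_not]
  simp only [not_le]

theorem Mach2_evE (hI : I.Valid) {u : List Bool} (hu : u.length = I.k) {t q : ℕ} (ht : t < I.T)
    (h1 : I.T ≤ q) (hq : q < I.k) : (I.chkE q).ev (u ++ I.th t) = false ↔
      (I.alive q t = true → I.con q t = true →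
        u.getD q false = gateVal (I.op (decide (I.oS ≤ q)) q) u) := by
  have hn := MachS_num I
  have h3 := MachS_lt hq
  have h4 := machI_op hI (decide (I.oS ≤ q)) h1 hq
  have e : ∀ a b c d : Bool, (a && !b && (c != d)) = false ↔ (a = true ∧ b = false → c = d) := by
    decide
  rw [chkE, neT2, Desc.ev, mkT_tt, e]
  change ((u ++ I.th t).getD (I.k + if q < I.oS then I.tP else I.bth q) false = true ∧
    (u ++ I.th t).getD (I.k + if I.oY ≤ q ∧ q < I.oP then I.tP + 1 else I.dth q) false = false →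
    (u ++ I.th t).getD q false = opV _ ((u ++ I.th t).getD (I.op (decide (I.oS ≤ q)) q).2.1 false)
      ((u ++ I.th t).getD (I.op (decide (I.oS ≤ q)) q).2.2 false)) ↔ _
  rw [Mach2_hi hu ht (by split_ifs <;> omega), Mach2_hi hu ht (by split_ifs <;> omega),
    Mach2_lo hu _ hq, Mach2_lo hu _ h4.1, Mach2_lo hu _ h4.2, ← gateVal_eq, ← and_imp]
  refine imp_congr_left ?_
  have h5 := MachS_bd I q
  rw [alive, con, Bool.and_eq_true, decide_eq_true_iff, decide_eq_true_iff, decide_eq_true_iff,
    decide_eq_false_iff_not]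
  split_ifs <;> simp only [decide_eq_true_iff, and_true] <;> omega

theorem Mach2_clock (x y : List Bool) (t : ℕ) {s : ℕ} (hs : s < I.T) :
    (I.cst x y t).getD s false = decide (s = t) := by
  have hn := MachS_num I
  rw [cst_getD _ _ _ (by omega), cellv, if_pos hs]

theorem Mach2_time {x y x' y' : List Bool} {t t' : ℕ} (ht : t < I.T)
    (h : I.cst x y t = I.cst x' y' t') : t = t' := by
  have h1 := Mach2_clock x y t ht
  rw [h, Mach2_clock _ _ _ ht, decide_eq_true rfl] at h1
  exact of_decide_eq_true h1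

theorem Mach2_len (x y : List Bool) (t : ℕ) : (I.cst x y t).length = I.k := by
  simp [cst]

theorem Mach2_therm {f : ℕ → Bool} {T : ℕ} (h0 : f 0 = true) (hT : f T = false)
    (h : ∀ s < T, f (s + 1) = true → f s = true) : ∃ t < T, ∀ s ≤ T, f s = decide (s ≤ t) := by
  induction T with
  | zero => exact absurd (h0.symm.trans hT) (by decide)
  | succ T ih =>
    cases h1 : f T
    · obtain ⟨t, ht, h2⟩ := ih h1 fun s hs => h s (by omega)
      refine ⟨t, by omega, fun s hs => ?_⟩
      rcases Nat.lt_or_ge T s with h3 | h3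
      · rw [show s = T + 1 by omega, hT, decide_eq_false (by omega)]
      · exact h2 s h3
    · have h2 : ∀ d s, s + d = T → f s = true := by
        intro d
        induction d with
        | zero => intro s hs; rw [show s = T by omega, h1]
        | succ d ih' => intro s hs; exact h s (by omega) (ih' _ (by omega))
      refine ⟨T, by omega, fun s hs => ?_⟩
      rcases Nat.lt_or_ge T s with h3 | h3
      · rw [show s = T + 1 by omega, hT, decide_eq_false (by omega)]
      · rw [h2 (T - s) s (by omega), decide_eq_true h3]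

theorem ok2_iff (hI : I.Valid) (g : Bool) (w : List Bool) : I.mach2.ok g w ↔
    ∃ t < I.T, ∃ x y, t % 2 = g.toNat ∧ I.Cons x y t ∧ w = I.cst x y t ++ I.th t := by
  have hn := MachS_num I
  have eb : ∀ s t : ℕ, (decide (s ≤ t) && !decide (s + 1 ≤ t)) = decide (s = t) := fun s t => by
    rw [← decide_not, ← Bool.decide_and]
    exact decide_eq_decide.2 (by omega)
  rw [Mach.ok, Mach2_ck]
  change w.length = I.k + I.T + 1 ∧ _ ↔ _
  constructor
  · rintro ⟨hl, hc⟩
    have hC := fun t ht => (Mach2_evC g t w).1 (hc _ (Mach2_mem.2 (.inl ⟨t, ht, rfl⟩)))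
    obtain ⟨t, ht, h1⟩ := Mach2_therm (f := fun s => w.getD (I.k + s) false) (T := I.T)
      (hC 0 (by omega)).2.2.2.1 (hC 0 (by omega)).2.2.2.2 fun s hs => (hC s hs).2.1
    have h2 : ∀ s < I.T, w.getD s false = decide (s = t) := fun s hs => by
      rw [(hC s hs).1, h1 s hs.le, h1 (s + 1) hs, eb]
    have hg : t % 2 = g.toNat := (hC t ht).2.2.1 (by rw [h2 t ht, decide_eq_true rfl])
    have hu : (w.take I.k).length = I.k := by rw [List.length_take]; omega
    have hw : w = w.take I.k ++ I.th t := by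
      refine MachK_ext hl (by rw [List.length_append, hu]; simp [th]; omega) fun j hj => ?_
      rcases Nat.lt_or_ge j I.k with h3 | h3
      · conv_lhs => rw [← List.take_append_drop I.k w]
        rw [Mach2_lo hu _ h3, Mach2_lo hu _ h3]
      · obtain ⟨s, rfl⟩ := Nat.exists_eq_add_of_le h3
        rw [Mach2_hi hu ht (by omega), h1 s (by omega)]
    generalize w.take I.k = u at hu hw
    subst hw
    have h3 : ∀ s < I.T, u.getD s false = decide (s = t) := fun s hs => by
      rw [← h2 s hs, Mach2_lo hu _ (by omega)]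
    have hok : I.mach.ok g u := by
      refine (ok_iff g u).2 ⟨hu, fun s hs q hq => (ev_chk g s q u).2 fun h4 => ?_⟩
      rw [h3 s hs, decide_eq_true_iff] at h4
      subst h4
      refine ⟨fun h5 h6 => ?_, fun h5 => ?_, fun h5 => ?_⟩
      · rw [h3 q h5, decide_eq_false (h6.resolve_right (not_not.2 hg))]
      · exact (Mach2_evD hu ht hq).1 (hc _ (Mach2_mem.2 (.inr (.inl ⟨q, h5, hq, rfl⟩))))
      · exact (Mach2_evE hI hu ht h5 hq).1 (hc _ (Mach2_mem.2 (.inr (.inr ⟨q, h5, hq, rfl⟩))))
    rcases ok_cases hI hok with h4 | ⟨t', ht', x, y, -, h5, rfl⟩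
    · exact absurd ((h4 t ht).symm.trans (h3 t ht)) (by simp)
    · have h6 := h3 t ht
      rw [Mach2_clock _ _ _ ht, decide_eq_true rfl, decide_eq_true_iff] at h6
      subst h6
      exact ⟨t, ht, x, y, hg, h5, rfl⟩
  · rintro ⟨t, ht, x, y, hg, h1, rfl⟩
    have hu := Mach2_len (I := I) x y t
    have h2 := fun q hq => (ev_chk g t q _).1 (((ok_iff g _).1 (ok_cst hI ht hg h1)).2 t ht q hq)
      (by rw [Mach2_clock _ _ _ ht, decide_eq_true rfl])
    refine ⟨by rw [List.length_append, hu]; simp [th]; omega, fun D hD => ?_⟩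
    rcases Mach2_mem.1 hD with ⟨s, hs, rfl⟩ | ⟨q, h3, h4, rfl⟩ | ⟨q, h3, h4, rfl⟩
    · rw [Mach2_evC, Mach2_hi hu ht hs.le, Mach2_hi hu ht hs, Mach2_hi hu ht (Nat.zero_le _),
        Mach2_hi hu ht le_rfl, Mach2_lo hu _ (by omega), Mach2_clock _ _ _ hs, eb]
      simp only [decide_eq_true_iff, decide_eq_false_iff_not, true_and]
      refine ⟨by omega, fun h => h ▸ hg, by omega, by omega⟩
    · exact (Mach2_evD hu ht h4).2 ((h2 q h4).2.1 h3)
    · exact (Mach2_evE hI hu ht h3 h4).2 ((h2 q h4).2.2 h3)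

theorem step2_eq (hI : I.Valid) (dir : Bool) (x y : List Bool) {t : ℕ} (ht : t < I.T) :
    I.mach2.step dir (I.cst x y t ++ I.th t) = I.mach.step dir (I.cst x y t) ++
      I.th (if dir then (t + 1) % I.T else (t + I.T - 1) % I.T) := by
  have hn := MachS_num I
  have hu := Mach2_len (I := I) x y t
  have hl : (I.mach.step dir (I.cst x y t)).length = I.k := by simp [step_eq]
  have h1 := MachS_pred ht
  have h2 := MachS_succ (a := t + 1) ht
  have ht' : (if dir then (t + 1) % I.T else (t + I.T - 1) % I.T) < I.T := by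
    split_ifs <;> omega
  rw [Mach.step, Mach2_prog, List.map_map]
  refine MachK_ext (n := I.k + I.T + 1) (by simp)
    (by rw [List.length_append, hl]; simp [th]; omega) fun j hj => ?_
  rw [MachK_range _ hj, Function.comp_apply]
  rcases Nat.lt_or_ge j I.k with h3 | h3
  · rw [Mach2_lo hl _ h3, step_eq, MachK_range _ h3, upd2, if_pos h3, Desc.ev, Desc.ev]
    exact congrArg _ (funext fun b => Mach2_lo hu _ (Mach2_upd hI dir h3 b))
  · obtain ⟨s, rfl⟩ := Nat.exists_eq_add_of_le h3
    rw [Mach2_hi hl ht' (by omega), upd2, if_neg (by omega)]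
    by_cases h4 : s = 0
    · rw [if_pos (by omega), Desc.ev, mkT_tt, h4, decide_eq_true (Nat.zero_le _)]
    rw [if_neg (by omega)]
    by_cases h5 : s = I.T
    · rw [if_pos (by omega), Desc.ev, mkT_tt, decide_eq_false (by omega)]
    rw [if_neg (by omega)]
    cases dir
    · rw [if_neg Bool.false_ne_true, if_neg Bool.false_ne_true, Desc.ev, mkT_tt]
      change ((I.cst x y t ++ I.th t).getD 0 false ||
        ((I.cst x y t ++ I.th t).getD (I.k + s) false &&
          !(I.cst x y t ++ I.th t).getD (I.k + s - I.k) false)) = _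
      rw [Mach2_hi hu ht (by omega), Mach2_lo hu _ (by omega), Mach2_lo hu _ (by omega),
        Mach2_clock _ _ _ (by omega), Mach2_clock _ _ _ (by omega), ← decide_not,
        ← Bool.decide_and, ← Bool.decide_or]
      exact decide_eq_decide.2 (by omega)
    · rw [if_pos rfl, if_pos rfl, Desc.ev, mkT_tt]
      change (!(I.cst x y t ++ I.th t).getD (I.T - 1) false &&
        ((I.cst x y t ++ I.th t).getD (I.k + s - I.k - 1) false ||
          (I.cst x y t ++ I.th t).getD (I.k + s) false)) = _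
      rw [Mach2_hi hu ht (by omega), Mach2_lo hu _ (by omega), Mach2_lo hu _ (by omega),
        Mach2_clock _ _ _ (by omega), Mach2_clock _ _ _ (by omega), ← decide_not,
        ← Bool.decide_or, ← Bool.decide_and]
      exact decide_eq_decide.2 (by omega)

theorem Mach2_down (hI : I.Valid) {g : Bool} {w w' : List Bool} (h : I.mach2.Edge g w w') :
    ∃ t < I.T, ∃ t' < I.T, ∃ x y x' y', w = I.cst x y t ++ I.th t ∧
      w' = I.cst x' y' t' ++ I.th t' ∧ I.mach.Edge g (I.cst x y t) (I.cst x' y' t') := by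
  obtain ⟨h1, h2, h3, h4⟩ := h
  obtain ⟨t, ht, x, y, hg, hc, rfl⟩ := (ok2_iff hI _ _).1 h1
  obtain ⟨t', ht', x', y', hg', hc', rfl⟩ := (ok2_iff hI _ _).1 h2
  rw [step2_eq hI _ _ _ ht] at h3
  rw [step2_eq hI _ _ _ ht'] at h4
  exact ⟨t, ht, t', ht', x, y, x', y', rfl, rfl, ok_cst hI ht hg hc, ok_cst hI ht' hg' hc',
    (List.append_inj h3 (by simp [step_eq, cst])).1, (List.append_inj h4 (by simp [step_eq, cst])).1⟩

theorem Mach2_up (hI : I.Valid) {g : Bool} {u u' : List Bool} (h : I.mach.Edge g u u')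
    (hs : ∃ s < I.T, u.getD s false = true ∨ u'.getD s false = true) :
    ∃ t < I.T, ∃ t' < I.T, ∃ x y x' y', u = I.cst x y t ∧ u' = I.cst x' y' t' ∧
      I.mach2.Edge g (u ++ I.th t) (u' ++ I.th t') := by
  have hn := MachS_num I
  obtain ⟨h1, h2, h3, h4⟩ := h
  obtain ⟨s, hs, h5⟩ := hs
  rcases ok_cases hI h1 with h6 | ⟨t, ht, x, y, hg, hc, rfl⟩
  · rw [step_idle _ h1.1 h6] at h3
    rw [← h3, or_self, h6 s hs] at h5
    exact absurd h5 Bool.false_ne_true
  rcases ok_cases hI h2 with h6 | ⟨t', ht', x', y', hg', hc', rfl⟩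
  · rw [step_idle _ h2.1 h6] at h4
    rw [← h4, or_self, h6 s hs] at h5
    exact absurd h5 Bool.false_ne_true
  have h7 := Mach2_clock x' y' t' ht'
  have h8 := MachS_pred ht'
  have h9 := MachS_succ (a := t + 1) ht
  rw [← h3, step_eq, MachK_range _ (by omega), ev_upd_clock _ ht', if_pos rfl,
    Mach2_clock _ _ _ (by omega), decide_eq_true rfl, decide_eq_true_iff] at h7
  refine ⟨t, ht, t', ht', x, y, x', y', rfl, rfl, (ok2_iff hI _ _).2 ⟨t, ht, x, y, hg, hc, rfl⟩,
    (ok2_iff hI _ _).2 ⟨t', ht', x', y', hg', hc', rfl⟩, ?_, ?_⟩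
  · rw [step2_eq hI _ _ _ ht, h3, if_pos rfl, show (t + 1) % I.T = t' by omega]
  · rw [step2_eq hI _ _ _ ht', h4, if_neg Bool.false_ne_true, h7]

theorem mach2_start (hI : I.Valid) : I.mach2.Start := by
  have hn := MachF_num I
  have hT : I.tP + 1 < I.T := by omega
  obtain ⟨-, h1, h2⟩ := mach_start hI
  have e0 : I.mach.w0 = I.cst (List.replicate I.1 false) (List.replicate I.1 false) (I.tP + 1) :=
    rfl
  obtain ⟨t, ht, t', ht', x, y, x', y', h3, -, h4⟩ := Mach2_up hI h1
    ⟨I.tP + 1, hT, .inl (by rw [e0, Mach2_clock _ _ _ hT, decide_eq_true rfl])⟩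
  rw [← Mach2_time hT (e0.symm.trans h3)] at h4
  refine ⟨mach2_wf hI, ?_, fun ⟨w, h5⟩ => h2 ?_⟩
  · have h6 := h4.2.2.1
    rw [← h6] at h4
    exact h4
  · obtain ⟨s, -, s', -, a, b, a', b', -, h6, h7⟩ := Mach2_down hI h5
    have h8 : I.mach.w0 = I.cst a' b' s' :=
      (List.append_inj h6 (by rw [e0, Mach2_len, Mach2_len])).1
    exact ⟨_, h8 ▸ h7⟩

theorem Mach2_cands {u : List Bool} (hu : u.length = I.k) (v : List Bool) :
    I.cands (u ++ v) = I.cands u := by
  have hn := MachS_num I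
  unfold cands
  congr 1
  · exact List.map_congr_left fun j hj => Mach2_lo hu _ (by have := List.mem_range.1 hj; omega)
  · congr 1
    exact List.map_congr_left fun j hj => Mach2_lo hu _ (by have := List.mem_range.1 hj; omega)

theorem mach2_end (hI : I.Valid) {w : List Bool} (h : I.mach2.End w) :
    ∃ v ∈ I.cands w, I.Sol v := by
  rcases h with ⟨g, w', h1, h2⟩ | ⟨g, w', h1, h2, h3⟩
  · obtain ⟨t0, -, t, ht, x0, y0, x, y, -, rfl, h4⟩ := Mach2_down hI h1
    rw [Mach2_cands (Mach2_len _ _ _)]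
    refine mach_end hI (.inl ⟨g, _, h4, fun ⟨u, h5⟩ => h2 ?_⟩)
    obtain ⟨s, -, s', -, a, b, -, -, h6, -, h7⟩ := Mach2_up hI h5
      ⟨t, ht, .inl (by rw [Mach2_clock _ _ _ ht, decide_eq_true rfl])⟩
    rw [← Mach2_time ht h6] at h7
    exact ⟨_, h7⟩
  · obtain ⟨t, ht, t0, -, x, y, x0, y0, rfl, -, h4⟩ := Mach2_down hI h1
    rw [Mach2_cands (Mach2_len _ _ _)]
    refine mach_end hI (.inr ⟨g, _, h4, fun ⟨u, h5⟩ => h2 ?_, fun h5 => h3 ?_⟩)
    · obtain ⟨s, -, s', -, -, -, a, b, -, h6, h7⟩ := Mach2_up hI h5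
        ⟨t, ht, .inr (by rw [Mach2_clock _ _ _ ht, decide_eq_true rfl])⟩
      rw [← Mach2_time ht h6] at h7
      exact ⟨_, h7⟩
    · obtain ⟨h6, h7⟩ := Prod.mk.inj h5
      rw [h6, h7, Mach2_time ht h7]
      rfl

theorem mach2_len (I : EoL) :
    2 * I.norm.mach2.k + (I.norm.mach2.ck false).length + (I.norm.mach2.ck true).length ≤
      100 * sz I := by
  have hn := MachS_num I.norm
  have h1 : I.norm.gS < sz I.2.1.1 := length_lt_sz _
  have h2 : I.norm.gP < sz I.2.2.1 := length_lt_sz _
  have h3 : I.norm.1 < sz I.2.1.2 := length_lt_sz _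
  have h4 := sz_prod I
  have h5 := sz_prod I.2
  have h6 := sz_prod I.2.1
  have h7 := sz_prod I.2.2
  have e : I.norm.mach2.k = I.norm.k + I.norm.T + 1 := rfl
  rw [Mach2_ck, Mach2_ck, e]
  simp only [cks2, List.length_append, List.length_map, List.length_range]
  omega

end EoL

section

variable {α : Type} [Enc α] {I : α → EoL} {q t : α → ℕ}

open EoL

theorem Mach2_ctU (d : Bool) (hI : CT 0 I) (hq : CT 0 q) :
    CT 0 fun a => (I a).upd2 d (q a) := by
  have h := MachCT_upd d hI hq
  unfold upd2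
  fun_prop

theorem Mach2_ctC (g : Bool) (hI : CT 0 I) (ht : CT 0 t) :
    CT 0 fun a => (I a).chkC g (t a) := by
  have h : CT 0 fun a => clkT (decide (t a % 2 ≠ g.toNat)) := by
    have h1 : CT 0 fun a => if t a % 2 = g.toNat then clkT false else clkT true := by fun_prop
    refine h1.of_eq fun a => ?_
    by_cases h2 : t a % 2 = g.toNat <;> simp [h2]
  unfold chkC
  exact h.mk (by fun_prop)

theorem Mach2_ctD (hI : CT 0 I) (hq : CT 0 q) : CT 0 fun a => (I a).chkD (q a) := by
  unfold chkD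
  fun_prop

theorem Mach2_ctE (hI : CT 0 I) (hq : CT 0 q) : CT 0 fun a => (I a).chkE (q a) := by
  have h1 : CT 0 fun a => (I a).op (decide ((I a).oS ≤ q a)) (q a) := by fun_prop
  have h2 : CT 0 fun a => neT2 ((I a).op (decide ((I a).oS ≤ q a)) (q a)).1 :=
    MachCT_tab (fun o => mkT fun β => β 0 && !β 1 && (β 2 != o (β 3) (β 4))) h1.fst
  have h3 : CT 0 fun a => decide ((I a).oY ≤ q a ∧ q a < (I a).oP) := by
    simp only [Bool.decide_and]
    fun_prop
  unfold chkE
  exact h2.mk (by fun_prop)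

theorem Mach2_ct (hI : CT 0 I) (hB : Bd 0 fun a => (I a).1) : CT 0 fun a => (I a).mach2 := by
  have hK : CT 0 fun a => (I a).k + (I a).T + 1 := by fun_prop
  have hk := hK.range (((MachCT_bk hI hB).add (MachCT_bT hI)).add (Bd.const 1))
  have hT := (MachCT_T hI).range (MachCT_bT hI)
  have hd := ((MachCT_k hI).sub (MachCT_T hI)).range
    ((MachCT_bk hI hB).of_le fun a => Nat.sub_le _ _)
  have h1 := ((MachCT_T hI).add (CT.const 1)).range ((MachCT_bT hI).add (Bd.const 1))
  have hI' : CT 0 fun p : α × ℕ => I p.1 := hI.comp CT.id.fst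
  have hu : ∀ d, CT 0 fun a => (List.range ((I a).k + (I a).T + 1)).map ((I a).upd2 d) := fun d =>
    CT.map (f := fun a q => (I a).upd2 d q) (Mach2_ctU d hI' CT.id.snd) hk
  have hc : ∀ g, CT 0 fun a => (I a).cks2 g := fun g =>
    (CT.map (f := fun a t => (I a).chkC g t) (Mach2_ctC g hI' CT.id.snd) hT).append
      ((CT.map (f := fun a q => (I a).chkD ((I a).T + q))
        (Mach2_ctD hI' ((MachCT_T hI').add CT.id.snd)) hd).append
      (CT.map (f := fun a q => (I a).chkE ((I a).T + q))
        (Mach2_ctE hI' ((MachCT_T hI').add CT.id.snd)) hd))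
  have ht : CT 0 fun a => (I a).th ((I a).tP + 1) :=
    CT.map (f := fun a s => decide (s ≤ (I a).tP + 1 ∧ s < (I a).T)) (by
      simp only [Bool.decide_and]
      fun_prop) h1
  have hm := (MachCT_mach hI hB).snd.snd.snd.snd.snd
  exact hK.mk ((hu true).mk ((hu false).mk ((hc false).mk ((hc true).mk
    ((hm.fst.append ht).mk hm.snd)))))

end

theorem ct_mach2 : CT 0 fun I : EoL => I.norm.mach2 :=
  Mach2_ct MachCT_norm (CT.snd (e := 0) CT.id).fst.snd.bd_length

end Vale.Agent.P330
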