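import Vale.Agent.P330B.YStA

/-! The relations determine a state. -/

namespace Vale.Agent.P330.B

variable {M p c t jj N : ℕ} [Fact M.Prime] [Fact p.Prime] [NeZero N] [NeZero c] {J : Type}
  [Fintype J] {χ : AddChar (ZMod M) (ZMod p)} {cx : Cx M p c t jj N J} {d : ℕ}
  {Θ : XX M N → CC t jj N → ZMod p} {κ : Ct t} {j : ℕ}

lemma YStB_pos (R : ℕ) (b : Bool) : posB R b ≤ R + 1 := by
  cases b <;> simp [posB]

lemma YStB_nx (κ : Ct t) :
    (κ.1.2 = 3 ∧ κ.2 = lastS t → (nxS κ).1.1 = !κ.1.1 ∧ up κ.1 = true) ∧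
    (¬(κ.1.2 = 3 ∧ κ.2 = lastS t) → (nxS κ).1.1 = κ.1.1) := by
  have h : ∀ κ : Ctl, (κ.2 = 3 → (nxC κ).1 = !κ.1 ∧ up κ = true) ∧
    (¬κ.2 = 3 → (nxC κ).1 = κ.1) := by decide
  by_cases hi : κ.2 = lastS t
  · simpa [nxS, hi] using h κ.1
  · simp [nxS, hi]

lemma YStB_pv (κ : Ct t) : nxS (pvS κ) = κ ∧
    (κ.1.2 = 0 ∧ κ.2 = 0 →
      (pvS κ).1.1 = !κ.1.1 ∧ up κ.1 = false ∧ (pvS κ).1.2 = 3 ∧ (pvS κ).2 = lastS t) ∧
    (¬(κ.1.2 = 0 ∧ κ.2 = 0) →
      (pvS κ).1.1 = κ.1.1 ∧ ¬((pvS κ).1.2 = 3 ∧ (pvS κ).2 = lastS t)) := by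
  have h : ∀ κ : Ctl, nxC (pvC κ) = κ ∧
    (κ.2 = 0 → (pvC κ).1 = !κ.1 ∧ up κ = false ∧ (pvC κ).2 = 3) ∧
    (¬κ.2 = 0 → (pvC κ).1 = κ.1 ∧ ¬(pvC κ).2 = 3) := by decide
  obtain ⟨κ, i⟩ := κ
  by_cases hi : i = 0
  · subst hi
    simpa [nxS, pvS] using h κ
  · have h1 : i - 1 ≠ lastS t := fun e => hi <| by
      rw [← sub_add_cancel i 1, e]
      exact Fin.last_add_one _
    simp [nxS, pvS, hi, h1]

lemma has_next {A : Mach} {R : ℕ} {s : Sta t} (hs : Val A R s)
    (h : s.1.1.2 = 3 → s.1.2 = lastS t → s.2.1 = R + 1 → ∃ w, A.Edge (!s.1.1.1) s.2.2.2 w) :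
    ∃ s', LNx A R s s' := by
  obtain ⟨κ, j, w, w'⟩ := s
  have hj : j ≤ R + 1 := hs.1
  by_cases h1 : j = posB R (up κ.1)
  · by_cases h2 : κ.1.2 = 3 ∧ κ.2 = lastS t
    · obtain ⟨h3, h4⟩ := (YStB_nx κ).1 h2
      obtain ⟨v, hv⟩ := h h2.1 h2.2 (by rw [h4] at h1; exact h1)
      refine ⟨(nxS κ, posB R (!up (nxS κ).1), w', v), hs, ⟨YStB_pos R _, ?_⟩, ?_⟩
      · rw [← h3] at hv
        exact hv
      · simp only [if_pos h1, if_pos h2, and_self]
    · refine ⟨(nxS κ, posB R (!up (nxS κ).1), w, w'), hs, ⟨YStB_pos R _, ?_⟩, ?_⟩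
      · have h3 := hs.2
        rw [← (YStB_nx κ).2 h2] at h3
        exact h3
      · simp only [if_pos h1, if_neg h2, and_self]
  · refine ⟨(κ, if up κ.1 then j + 1 else j - 1, w, w'), hs, ⟨?_, hs.2⟩, ?_⟩
    · cases hu : up κ.1 <;> simp [hu, posB] at h1 ⊢ <;> omega
    · simp only [if_neg h1, and_self]

lemma has_prev {A : Mach} {R : ℕ} {s : Sta t} (hs : Val A R s)
    (h : s.1.1.2 = 0 → s.1.2 = 0 → s.2.1 = R + 1 → ∃ w, A.Edge (!s.1.1.1) w s.2.2.1) :
    ∃ s', LNx A R s' s := by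
  obtain ⟨κ, j, w, w'⟩ := s
  have hj : j ≤ R + 1 := hs.1
  obtain ⟨e0, e1, e2⟩ := YStB_pv κ
  by_cases h1 : j = posB R (!up κ.1)
  · by_cases h2 : κ.1.2 = 0 ∧ κ.2 = 0
    · obtain ⟨h3, h4, h5⟩ := e1 h2
      obtain ⟨v, hv⟩ := h h2.1 h2.2 (by rw [h4] at h1; exact h1)
      refine ⟨(pvS κ, posB R (up (pvS κ).1), v, w), ⟨YStB_pos R _, ?_⟩, hs, ?_⟩
      · rw [← h3] at hv
        exact hv
      · simp only [if_true, if_pos h5, e0, and_true, true_and]
        exact h1
    · obtain ⟨h3, h5⟩ := e2 h2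
      refine ⟨(pvS κ, posB R (up (pvS κ).1), w, w'), ⟨YStB_pos R _, ?_⟩, hs, ?_⟩
      · have h4 := hs.2
        rw [← h3] at h4
        exact h4
      · simp only [if_true, if_neg h5, e0, and_true, true_and]
        exact h1
  · refine ⟨(κ, if up κ.1 then j - 1 else j + 1, w, w'), ⟨?_, hs.2⟩, hs, ?_⟩
    · cases hu : up κ.1 <;> simp [hu, posB] at h1 ⊢ <;> omega
    · have h2 : ¬(if up κ.1 then j - 1 else j + 1) = posB R (up κ.1) := by
        cases hu : up κ.1 <;> simp [hu, posB] at h1 ⊢ <;> omega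
      simp only [if_neg h2, true_and]
      cases hu : up κ.1 <;> simp [hu, posB] at h1 ⊢ <;> omega

lemma rel_stk_eq (h1 : cx.Rel κ j Θ) (y : SS t) (b : Fin 5) (n : ℕ) :
    (fun x => ext (Θ x) (.inl (y, b)) n) =
      stk jj (cx.baseT Θ κ y b) (hgt (RR t jj N) κ j y) n := by
  have h2 : hgt (RR t jj N) κ j y ≤ RR t jj N + 1 := by
    unfold hgt
    split_ifs
    exacts [h1.le, le_rfl, Nat.zero_le _]
  suffices H : ∀ k n, RR t jj N + 2 ≤ n + k →
      (fun x => ext (Θ x) (.inl (y, b)) n) =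
        stk jj (cx.baseT Θ κ y b) (hgt (RR t jj N) κ j y) n from
    H (RR t jj N + 2) n (Nat.le_add_left _ _)
  intro k
  induction k with
  | zero =>
    intro n hn
    funext x
    rw [ext, dif_neg (by omega), stk, if_neg (by omega)]
    rfl
  | succ k ih =>
    intro n hn
    funext x
    rw [h1.stk, ih (n + 1) (by omega), stk, stk]
    rcases lt_trichotomy (n + 1) (hgt (RR t jj N) κ j y) with h3 | h3 | h3
    · rw [if_pos h3, if_neg h3.ne, if_pos (by omega), add_zero,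
        show hgt (RR t jj N) κ j y - 1 - n = hgt (RR t jj N) κ j y - 1 - (n + 1) + 1 by omega,
        Function.iterate_succ_apply']
    · rw [if_neg (by omega), if_pos h3, if_pos (by omega), AJ_zero,
        show hgt (RR t jj N) κ j y - 1 - n = 0 by omega, Function.iterate_zero_apply, Pi.zero_apply, zero_add]
    · rw [if_neg (by omega), if_neg h3.ne', if_neg (by omega), AJ_zero, add_zero]

lemma YStB_top (h1 : cx.Rel κ j Θ) {y : SS t} (hy : hgt (RR t jj N) κ j y = RR t jj N + 1)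
    (b : Fin 5) : Cx.top Θ (y, b) = (AJ jj)^[RR t jj N] (cx.baseT Θ κ y b) := by
  funext x
  have h2 := congrFun (rel_stk_eq h1 y b 0) x
  rw [hy, stk, if_pos (Nat.succ_pos _)] at h2
  exact (ext_val (Θ x) (.inl (y, b)) 0).symm.trans h2

lemma YStB_hgt (R : ℕ) {y : SS t} (h : full κ.1 y.1 = true ∨ y.1 = act κ.1 ∧ y.2 < stage κ) :
    fullS κ y = true ∧ hgt R κ j y = R + 1 := by
  have h0 : ∀ κ : Ctl, full κ (act κ) = false := by decide
  have h1 : fullS κ y = true := by simpa [fullS] using h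
  have h2 : y ≠ actS κ := by
    rintro rfl
    rcases h with h | h
    · rw [show (actS κ).1 = act κ.1 from rfl, h0] at h
      exact Bool.false_ne_true h
    · exact lt_irrefl _ h.2
  exact ⟨h1, by rw [hgt, if_neg h2, if_pos h1]⟩

lemma rel_inp (h1 : cx.Rel κ j Θ) {y : SS t} (hy : y = actS κ ∨ fullS κ y = true) (b : Fin 5) :
    Cx.top Θ (inp κ y b) =
      cx.stg y.1.1 (ing y.1) (Cx.top Θ ((src κ.1 y.1, lastS t), 0)) y.2 b := by
  obtain ⟨σ, i, hi⟩ := y
  induction i generalizing b with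
  | zero => rfl
  | succ i ih =>
    have h2 : full κ.1 σ = true ∨ σ = act κ.1 ∧ (⟨i, by omega⟩ : Fin (4 * t + 4)) < stage κ := by
      rcases hy with hy | hy
      · obtain ⟨e1, e2⟩ := Prod.mk.inj hy
        exact Or.inr ⟨e1, by rw [← e2]; exact Nat.lt_succ_self i⟩
      · have : full κ.1 σ = true ∨ σ = act κ.1 ∧ (⟨i + 1, hi⟩ : Fin (4 * t + 4)) < stage κ := by
          simpa [fullS] using hy
        exact this.imp id fun e => ⟨e.1, lt_trans (Nat.lt_succ_self i) e.2⟩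
    obtain ⟨h3, h4⟩ := YStB_hgt (j := j) (RR t jj N) (y := (σ, ⟨i, by omega⟩)) h2
    have h5 : inp κ (σ, ⟨i + 1, hi⟩) b = ((σ, ⟨i, by omega⟩), b) := by
      rw [inp, if_neg (by simp [Fin.ext_iff])]
      rfl
    rw [h5, YStB_top h1 h4, Cx.baseT, funext fun b' => ih b' (by omega) (Or.inr h3)]
    rfl

lemma rel_last (h1 : cx.Rel κ j Θ) {σ : Slot} (hσ : full κ.1 σ = true) (b : Fin 5) :
    Cx.top Θ ((σ, lastS t), b) =
      cx.stg σ.1 (ing σ) (Cx.top Θ ((src κ.1 σ, lastS t), 0)) (4 * t + 4) b := by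
  obtain ⟨h3, h4⟩ := YStB_hgt (j := j) (RR t jj N) (y := (σ, lastS t)) (Or.inl hσ)
  rw [YStB_top h1 h4, Cx.baseT, funext (rel_inp h1 (Or.inr h3))]
  rfl

theorem St_of_rel (h : cx.Ok χ d) (h1 : cx.Rel κ j Θ) :
    ∃ w w', Val cx.A (RR t jj N) (κ, j, w, w') ∧ Θ = cx.St (κ, j, w, w') := by
  obtain ⟨⟨π, ph⟩, i⟩ := κ
  have g1 : ∀ dir, full (π, ph) (dir, π) = true := fun dir => by simp [full]
  have s1 : src (π, ph) (true, π) = (false, π) := by simp [src]
  have s2 : src (π, ph) (false, π) = (true, π) := by simp [src]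
  have r1 := fun b => rel_last h1 (g1 true) b
  have r2 := fun b => rel_last h1 (g1 false) b
  simp only [s1, s2] at r1 r2
  obtain ⟨w, w', he, e1, e2⟩ := pair_edge h (g := π) (r1 0)
    ((r1 1).symm.trans (funext (h1.zero true))) (r2 0) ((r2 1).symm.trans (funext (h1.zero false)))
  have t1 : ph = 0 → Cx.top Θ (((false, !π), lastS t), 0) =
      cx.encC (bitv p (cx.A.step false w)) := by
    rintro rfl
    have h2 : ing (false, !π) = π := by simp [ing]
    have h3 : src (π, 0) (false, !π) = (false, π) := by cases π <;> rfl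
    rw [rel_last h1 (σ := (false, !π)) (by simp [full]), h2, h3, e1, chain_enc h,
      outC_ok h _ _ he.1, if_pos rfl]
  have t2 : ph = 3 → Cx.top Θ (((true, !π), lastS t), 0) =
      cx.encC (bitv p (cx.A.step true w')) := by
    rintro rfl
    have h2 : ing (true, !π) = !π := rfl
    have h3 : src (π, 3) (true, !π) = (true, π) := by cases π <;> rfl
    rw [rel_last h1 (σ := (true, !π)) (by cases π <;> rfl), h2, h3, e2, chain_enc h,
      outC_ok h _ _ he.2.1, if_pos rfl]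
  have key : ∀ σ, Cx.top Θ ((src (π, ph) σ, lastS t), 0) =
      cx.encC (bitv p (cx.A.msg ((π, ph), j, w, w') σ)) := by
    rintro ⟨dir, q⟩
    by_cases hq : q = π
    · subst hq
      cases dir
      · simpa [src, Mach.msg] using e2
      · simpa [src, Mach.msg] using e1
    · obtain rfl : q = !π := Bool.eq_not.2 hq
      cases dir
      · by_cases h3 : ph = 3
        · simpa [src, Mach.msg, h3] using t2 h3
        · simpa [src, Mach.msg, h3] using e1
      · by_cases h3 : ph = 0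
        · simpa [src, Mach.msg, h3] using t1 h3
        · simpa [src, Mach.msg, h3] using e2
  refine ⟨w, w', ⟨h1.le, he⟩, ?_⟩
  funext x ⟨r, n⟩
  rcases r with ⟨y, b⟩ | _ | _
  · rw [← ext_val (Θ x), congrFun (rel_stk_eq h1 y b n) x]
    show _ = stk jj (cx.base y b (cx.A.msg ((π, ph), j, w, w') y.1))
      (hgt (RR t jj N) ((π, ph), i) j y) n x
    by_cases hy : y = actS ((π, ph), i) ∨ fullS ((π, ph), i) y = true
    · rw [Cx.baseT, funext (rel_inp h1 hy), key, Cx.base]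
    · rw [not_or] at hy
      rw [hgt, if_neg hy.1, if_neg hy.2, stk, stk, if_neg (Nat.not_lt_zero _),
        if_neg (Nat.not_lt_zero _)]
  · exact h1.mu x n
  · exact h1.ctl x n

theorem mid_of_relE (h : cx.Ok χ d) {s : Sta t} (hs : Val cx.A (RR t jj N) s)
    (h2 : Cx.RelE s.1 s.2.1 (cx.St s)) :
    (∃ s', LNx cx.A (RR t jj N) s' s) ∧ ∃ s', LNx cx.A (RR t jj N) s s' := by
  obtain ⟨⟨⟨π, ph⟩, i⟩, j, w, w'⟩ := s
  have hl : ∀ dir v, (cx.A.step dir v).length = cx.A.k := fun dir v => by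
    rw [Mach.step, List.length_map, (h.start.1.1 dir).1]
  have he : cx.A.Edge π w w' := hs.2
  refine ⟨has_prev hs ?_, has_next hs ?_⟩
  · rintro (rfl : ph = 0) (rfl : i = 0) (rfl : j = RR t jj N + 1)
    have h3 : ∀ b, cx.outC true (!π) b (bitv p (cx.A.step false w)) =
        if b = 0 then cx.encC (bitv p w) else 0 := fun b => by
      have h4 : Cx.top (cx.St (((π, 0), 0), RR t jj N + 1, w, w')) (((true, !π), lastS t), b) =
          Cx.top (cx.St (((π, 0), 0), RR t jj N + 1, w, w')) (((false, π), lastS t), b) :=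
        funext fun y => h2 rfl true b rfl rfl _
      rw [top_full (by rw [hgt, if_pos (by simp [actS, act, stage, up, lastS])]),
        top_pair h hs false] at h4
      have h5 : msg cx.A (((π, 0), (0 : Fin (4 * t + 4))), RR t jj N + 1, w, w') (true, !π) =
          cx.A.step false w := by simp [msg, Mach.msg]
      rw [h5] at h4
      rw [← chain_enc h]
      exact h4
    obtain ⟨h5, h6⟩ := ok_of_outC h (hl _ _) he.1.1 (h3 0) (h3 1)
    exact ⟨_, h5, by rw [Bool.not_not]; exact he.1, h6, rfl⟩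
  · rintro (rfl : ph = 3) (rfl : i = lastS t) (rfl : j = RR t jj N + 1)
    have h3 : ∀ b, cx.outC false π b (bitv p (cx.A.step true w')) =
        if b = 0 then cx.encC (bitv p w') else 0 := fun b => by
      have h4 : Cx.top (cx.St (((π, 3), lastS t), RR t jj N + 1, w, w'))
            (((false, !π), lastS t), b) =
          Cx.top (cx.St (((π, 3), lastS t), RR t jj N + 1, w, w')) (((true, π), lastS t), b) :=
        funext fun y => h2 rfl false b rfl rfl _
      rw [top_full (by rw [hgt, if_pos (by simp [actS, act, stage, up])]),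
        top_pair h hs true] at h4
      have h5 : msg cx.A (((π, 3), lastS t), RR t jj N + 1, w, w') (false, !π) =
          cx.A.step true w' := by simp [msg, Mach.msg]
      have h7 : ing (false, !π) = π := by simp [ing]
      rw [h5, h7] at h4
      rw [← chain_enc h]
      exact h4
    obtain ⟨h5, h6⟩ := ok_of_outC h (hl _ _) he.2.1.1 (h3 0) (h3 1)
    exact ⟨_, he.2.1, by rw [Bool.not_not]; exact h5, rfl, h6⟩

end Vale.Agent.P330.B
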