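import Vale.Agent.P330B.YStA

/-! The local update rules compute neighbours. -/

namespace Vale.Agent.P330.B

variable {M p c t jj N : ℕ} [Fact M.Prime] [Fact p.Prime] [NeZero N] [NeZero c] {J : Type}
  [Fintype J] {χ : AddChar (ZMod M) (ZMod p)} {cx : Cx M p c t jj N J} {d : ℕ}
  {κ κ' : Ct t} {j : ℕ} {w w' : List Bool} {s s' : Sta t}

omit [NeZero N] in
lemma YUpd_ext (a : CC t jj N → ZMod p) (r : Row t) (m : ℕ) (v : ZMod p) :
    ∑ n : Fin (RR t jj N + 2), a (r, n) * (if n.val = m then v else 0) = ext a r m * v := by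
  unfold ext
  split_ifs with hm
  · rw [Finset.sum_eq_single ⟨m, hm⟩ (fun n _ hn => by
      rw [if_neg fun h => hn (Fin.ext h), mul_zero]) (by simp), if_pos rfl]
  · rw [zero_mul]
    exact Finset.sum_eq_zero fun n _ => by rw [if_neg (by omega), mul_zero]

lemma YUpd_stk0 (φ : XX M N → ZMod p) (j : ℕ) (x : XX M N) :
    stk jj φ (j + 1) 0 x = AJ jj (stk jj φ j 0) x + (if j = 0 then 1 else 0) * φ x := by
  rcases j with _ | j
  · simp [stk, AJ_zero]
  · simp [stk, Function.iterate_succ_apply']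

lemma YUpd_stk1 (φ : XX M N → ZMod p) (j n : ℕ) :
    stk jj φ (j + 1) (n + 1) = stk jj φ j n := by
  simp only [stk, Nat.add_lt_add_iff_right, show j + 1 - 1 - (n + 1) = j - 1 - n by omega]

omit [NeZero c] [Fintype J] in
lemma YUpd_mov (x : XX M N) {r : Row t} (hr : mov (actS κ) r = true) (n : ℕ) :
    cx.StR (κ, j + 1, w, w') x r (n + 1) = cx.StR (κ, j, w, w') x r n := by
  rcases r with ⟨σ, b⟩ | _ | _
  · obtain rfl : σ = actS κ := by simpa [mov] using hr
    simp only [Cx.StR, hgt, if_true, YUpd_stk1]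
    rfl
  · simp [Cx.StR]
  · simp [mov] at hr

omit [NeZero c] [Fintype J] in
lemma YUpd_fix (x : XX M N) {r : Row t} (hr : ¬mov (actS κ) r = true) (j j' n : ℕ) :
    cx.StR (κ, j, w, w') x r n = cx.StR (κ, j', w, w') x r n := by
  rcases r with ⟨σ, b⟩ | _ | _
  · have h : σ ≠ actS κ := by simpa [mov] using hr
    simp only [Cx.StR, hgt, if_neg h]
    rfl
  · simp [mov] at hr
  · rfl

lemma YUpd_gam (h : cx.Ok χ d) (s : Sta t) (z : PP M p c t jj N) :
    gam (cx.rh χ (cx.St s) z) = s.1 := gam_rh h.hp rfl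

lemma YUpd_mu (hs : s.2.1 ≤ RR t jj N + 1) (z : PP M p c t jj N) (top : Bool) :
    muB (cx.rh χ (cx.St s) z) top = 1 ↔ s.2.1 = posB (RR t jj N) top := by
  rw [muB_rh hs fun _ => rfl]
  split_ifs with h
  · exact iff_of_true rfl h
  · exact iff_of_false zero_ne_one h

omit [NeZero c] in
lemma YUpd_jj (h : cx.Ok χ d) : jj ≤ N := by
  have h1 := h.hN
  have h2 := NeZero.ne N
  rw [LB] at h1
  rcases Nat.eq_zero_or_pos (RR t jj N) with h3 | h3
  · rw [h3] at h1
    simp at h1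
    omega
  · calc jj = 1 * (jj * 1) := by ring
      _ ≤ (t + 2) * (jj * RR t jj N) := Nat.mul_le_mul (by omega) (Nat.mul_le_mul_left _ h3)
      _ = N := h1

theorem pushv_St (h : cx.Ok χ d) (hs : Val cx.A (RR t jj N) (κ, j, w, w')) (hj : j ≤ RR t jj N)
    (z : PP M p c t jj N) :
    pushv (cx.tab z) (cx.rh χ (cx.St (κ, j, w, w')) z) κ = cx.wd (κ, j + 1, w, w') z := by
  let E : Fin 5 → ZMod p := fun b => cx.StR (κ, j + 1, w, w') z.1 (.inl (actS κ, b)) 0
  let δ : Row t → ZMod p := fun r => match r with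
    | .inl y => if y.1 = actS κ then E y.2 else 0
    | .inr _ => 0
  have h1 : ∀ b, Aval (cx.rh χ (cx.St (κ, j, w, w')) z) (pd1 (.inl (actS κ, b)) (fK 2) (fK 1)) +
      muB (cx.rh χ (cx.St (κ, j, w, w')) z) false *
        basev (cx.tab z) (cx.rh χ (cx.St (κ, j, w, w')) z) κ (actS κ) b = E b := fun b => by
    rw [Aval_at0 h.hMp (YUpd_jj h), muB_rh hs.1 fun _ => rfl, basev_rh, baseT_St h hs (Or.inl rfl)]
    simp only [E, Cx.St, Cx.StR, hgt, if_true, YUpd_stk0]
    rfl
  have h2 : ∑ b, (cx.tab z).1 (.inl (actS κ, b)) 0 * E b =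
      ∑ y : CC t jj N, z.2.1 y * if y.2.val = 0 then δ y.1 else 0 := by
    rw [Fintype.sum_prod_type]
    simp only [YUpd_ext]
    rw [Fintype.sum_sum_type, Fintype.sum_prod_type, Finset.sum_eq_single (actS κ)]
    · simp [δ, Cx.tab]
    · intro σ _ hσ
      simp [δ, hσ]
    · simp
  rw [pushv]
  simp only [h1]
  rw [h2, val_push, ← Finset.sum_add_distrib]
  refine Finset.sum_congr rfl ?_
  rintro ⟨r, n, hn⟩ _
  rw [← mul_add]
  congr 1
  by_cases hr : mov (actS κ) r = true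
  · rcases n with _ | n
    · rcases r with ⟨σ, b⟩ | _ | _
      · obtain rfl : σ = actS κ := by simpa [mov] using hr
        simp [hr, δ, E, Cx.St]
      · simp [hr, δ, Cx.St, Cx.StR]
      · simp [mov] at hr
    · simp only [hr, if_true, Nat.succ_ne_zero, if_false, add_zero, Nat.add_sub_cancel]
      rw [ext_St hs.1]
      exact (YUpd_mov z.1 hr n).symm
  · have h3 : δ r = 0 := by
      rcases r with ⟨σ, b⟩ | _
      · have h4 : σ ≠ actS κ := by simpa [mov] using hr
        simp [δ, h4]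
      · rfl
    simp only [if_neg hr, h3, ite_self, add_zero]
    exact YUpd_fix z.1 hr _ _ _

theorem popv_St (hj : j ≤ RR t jj N) (z : PP M p c t jj N) :
    popv (cx.rh χ (cx.St (κ, j + 1, w, w')) z) κ = cx.wd (κ, j, w, w') z := by
  rw [popv, val_pop]
  refine Finset.sum_congr rfl fun y _ => ?_
  congr 1
  split_ifs with hr
  · rw [ext_St (Nat.succ_le_succ hj)]
    exact YUpd_mov z.1 hr _
  · exact YUpd_fix z.1 hr _ _ _

theorem chg_St {top top' : Bool} (hs : s.2.1 = posB (RR t jj N) top)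
    (hs' : s'.2.1 = posB (RR t jj N) top')
    (e : ∀ x y n, cx.StR s x (.inl y) n = cx.StR s' x (.inl y) n) (z : PP M p c t jj N) :
    chg (cx.tab z) (cx.rh χ (cx.St s) z) s.1 s'.1 top top' = cx.wd s' z := by
  have h1 : ∀ b : Bool, (cx.tab z).1 (.inr false) (if b then 2 else 0) =
      ext z.2.1 (.inr false) (posB (RR t jj N) b) := fun b => by cases b <;> rfl
  have h2 : (cx.tab z).1 (.inr true) 0 = ext z.2.1 (.inr true) 0 := rfl
  rw [chg, own_rh, h1, h1, h2, Cx.wd, hw, hw, Fintype.sum_prod_type, Fintype.sum_prod_type,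
    Fintype.sum_sum_type, Fintype.sum_sum_type, Fintype.sum_bool, Fintype.sum_bool]
  simp only [Cx.St, e]
  simp only [Cx.StR, YUpd_ext, hs, hs']
  ring

lemma YUpd_hgt (R : ℕ) (κ : Ct t) (j : ℕ) (y : SS t) :
    hgt R κ j y = if y.1 = act κ.1 then (if y.2.val = (stage κ).val then j
      else if y.2.val < (stage κ).val then R + 1 else 0) else if full κ.1 y.1 then R + 1 else 0 := by
  have h0 : ∀ κ : Ctl, full κ (act κ) = false := by decide
  obtain ⟨σ, i⟩ := y
  by_cases h : σ = act κ.1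
  · subst h
    simp only [hgt, actS, fullS, h0, Prod.mk.injEq, true_and, decide_true, Bool.true_and,
      Bool.false_or, decide_eq_true_eq, if_true, Fin.ext_iff, Fin.lt_def]
  · simp [hgt, actS, fullS, h]

lemma YUpd_end (R : ℕ) (κ : Ctl) (y : SS t) :
    hgt R (κ, lastS t) (posB R (up κ)) y =
      if y.1 = act κ then posB R (up κ) else if full κ y.1 then R + 1 else 0 := by
  have := y.2.2
  rw [YUpd_hgt]
  cases hu : up κ <;> simp [stage, hu, posB, lastS] <;> split_ifs <;> first | rfl | omega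

lemma YUpd_beg (R : ℕ) (κ : Ctl) (y : SS t) :
    hgt R (κ, 0) (posB R (!up κ)) y =
      if y.1 = act κ then posB R (!up κ) else if full κ y.1 then R + 1 else 0 := by
  have := y.2.2
  rw [YUpd_hgt]
  cases hu : up κ <;> simp [stage, hu, posB] <;> split_ifs <;> first | rfl | omega

lemma YUpd_succ {i : Fin (4 * t + 4)} (h : i ≠ lastS t) : (i + 1).val = i.val + 1 := by
  rw [Fin.val_add_one_of_lt (lt_of_le_of_ne (Fin.le_last i) h)]

lemma hgt_nx (R : ℕ) (κ : Ct t) (y : SS t) :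
    hgt R κ (posB R (up κ.1)) y = hgt R (nxS κ) (posB R (!up (nxS κ).1)) y := by
  obtain ⟨κ, i⟩ := κ
  by_cases h : i = lastS t
  · subst h
    have : nxS (κ, lastS t) = (nxC κ, 0) := by simp [nxS]
    rw [this, YUpd_end, YUpd_beg]
    obtain ⟨⟨dir, q⟩, k⟩ := y
    obtain ⟨π, ph⟩ := κ
    fin_cases ph <;> cases π <;> cases dir <;> cases q <;> simp [act, full, nxC, up, posB]
  · have : nxS (κ, i) = (κ, i + 1) := by simp [nxS, h]
    have h1 := YUpd_succ h
    have h2 := y.2.2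
    have h3 := (i + 1).2
    rw [this, YUpd_hgt, YUpd_hgt]
    cases hu : up κ <;> simp only [stage, hu, posB, Fin.val_rev, h1, Bool.false_eq_true, if_false,
      if_true, Bool.not_false, Bool.not_true] <;> split_ifs <;> first | rfl | omega

lemma pvS_nxS (κ : Ct t) : pvS (nxS κ) = κ := by
  obtain ⟨κ, i⟩ := κ
  have h2 : ∀ κ, pvC (nxC κ) = κ := by decide
  by_cases h : i = lastS t
  · subst h
    simp [nxS, pvS, h2]
  · have h1 : i + 1 ≠ 0 := fun e => by
      have := YUpd_succ h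
      rw [e] at this
      simp at this
    simp [nxS, pvS, h, h1]

theorem stR_phase (h : LNx cx.A (RR t jj N) s s') (hs : s.2.1 = posB (RR t jj N) (up s.1.1))
    (x : XX M N) (y : SS t × Fin 5) (n : ℕ) : cx.StR s x (.inl y) n = cx.StR s' x (.inl y) n := by
  obtain ⟨⟨κ, i⟩, j, w, w'⟩ := s
  obtain ⟨κ', j', v, v'⟩ := s'
  obtain ⟨h1, h2, h3⟩ := h
  rw [if_pos hs] at h3
  obtain ⟨h3, h4, h5⟩ := h3
  have e1 := h1.2.2.2.2
  have e2 := h2.2.2.2.1
  dsimp only at hs h3 h4 h5 e1 e2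
  subst hs h3 h4
  simp only [Cx.StR]
  rw [← hgt_nx]
  by_cases hi : i = lastS t
  · subst hi
    have : nxS (κ, lastS t) = (nxC κ, 0) := by simp [nxS]
    rw [YUpd_end]
    simp only [msg, this]
    obtain ⟨⟨⟨dir, q⟩, k⟩, b⟩ := y
    obtain ⟨π, ph⟩ := κ
    fin_cases ph <;> simp at h5
    · obtain ⟨rfl, rfl⟩ := h5
      cases π <;> cases dir <;> cases q <;> simp [act, full, nxC, up, posB, Mach.msg, stk]
    · obtain ⟨rfl, rfl⟩ := h5
      cases π <;> cases dir <;> cases q <;> simp [act, full, nxC, up, posB, Mach.msg, stk]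
    · obtain ⟨rfl, rfl⟩ := h5
      cases π <;> cases dir <;> cases q <;> simp [act, full, nxC, up, posB, Mach.msg, stk]
    · subst h5
      cases π <;> cases dir <;> cases q <;>
        simp [act, full, nxC, up, posB, Mach.msg, stk, e1, e2]
  · have : nxS (κ, i) = (κ, i + 1) := by simp [nxS, hi]
    rw [if_neg fun h => hi h.2] at h5
    obtain ⟨rfl, rfl⟩ := Prod.mk.inj h5
    simp only [msg, this, Mach.msg]

theorem suc_St (h : cx.Ok χ d) (hst : LNx cx.A (RR t jj N) s s') (z : PP M p c t jj N) :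
    sucF (cx.tab z) (cx.rh χ (cx.St s) z) = cx.wd s' z := by
  have h1 := hst.2.2
  rw [sucF, YUpd_gam h]
  by_cases hs : s.2.1 = posB (RR t jj N) (up s.1.1)
  · rw [if_pos hs] at h1
    rw [if_pos ((YUpd_mu hst.1.1 z _).2 hs), ← h1.1]
    exact chg_St hs h1.2.1 (stR_phase hst hs) z
  · rw [if_neg hs] at h1
    rw [if_neg fun h2 => hs ((YUpd_mu hst.1.1 z _).1 h2)]
    obtain ⟨κ, j, w, w'⟩ := s
    obtain ⟨κ', j', v, v'⟩ := s'
    have h2 : j' ≤ RR t jj N + 1 := hst.2.1.1
    have h3 : j ≤ RR t jj N + 1 := hst.1.1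
    obtain ⟨h4, h5, h6⟩ := h1
    dsimp only at hs h4 h5 h6 ⊢
    obtain ⟨rfl, rfl⟩ := Prod.mk.inj h5
    subst h4
    by_cases hu : up κ'.1 = true
    · rw [if_pos hu] at h6 ⊢
      subst h6
      exact pushv_St h hst.1 (by omega) z
    · rw [if_neg hu] at h6 ⊢
      have h7 : j ≠ 0 := by simpa [hu, posB] using hs
      obtain rfl : j = j' + 1 := by omega
      exact popv_St (by omega) z

theorem prd_St (h : cx.Ok χ d) (hst : LNx cx.A (RR t jj N) s s') (z : PP M p c t jj N) :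
    prdF (cx.tab z) (cx.rh χ (cx.St s') z) = cx.wd s z := by
  have h1 := hst.2.2
  rw [prdF, YUpd_gam h]
  by_cases hs : s.2.1 = posB (RR t jj N) (up s.1.1)
  · rw [if_pos hs] at h1
    have h3 : pvS s'.1 = s.1 := by rw [h1.1, pvS_nxS]
    rw [if_pos ((YUpd_mu hst.2.1.1 z _).2 h1.2.1), h3]
    exact chg_St h1.2.1 hs (fun x y n => (stR_phase hst hs x y n).symm) z
  · rw [if_neg hs] at h1
    obtain ⟨κ, j, w, w'⟩ := s
    obtain ⟨κ', j', v, v'⟩ := s'
    have h2 : j' ≤ RR t jj N + 1 := hst.2.1.1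
    have h3 : j ≤ RR t jj N + 1 := hst.1.1
    obtain ⟨h4, h5, h6⟩ := h1
    rw [if_neg fun h7 => ?_]
    · dsimp only at hs h4 h5 h6 ⊢
      obtain ⟨rfl, rfl⟩ := Prod.mk.inj h5
      subst h4
      by_cases hu : up κ'.1 = true
      · rw [if_pos hu] at h6 ⊢
        subst h6
        exact popv_St (by omega) z
      · rw [if_neg hu] at h6 ⊢
        have h7 : j ≠ 0 := by simpa [hu, posB] using hs
        obtain rfl : j = j' + 1 := by omega
        exact pushv_St h hst.2.1 (by omega) z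
    · have h8 := (YUpd_mu hst.2.1.1 z _).1 h7
      dsimp only at hs h4 h6 h8
      subst h4
      cases hu : up κ'.1 <;> simp [hu, posB] at h6 h8 <;> omega

theorem tm_St (h : cx.Ok χ d) (hs : Val cx.A (RR t jj N) s) (z : PP M p c t jj N) :
    tmF (cx.rh χ (cx.St s) z) = (tv (RR t jj N) (toff s.1) s.2.1 : ℕ) := by
  exact tmF_rh h.hp rfl hs.1 fun _ => rfl

theorem tv_next {A : Mach} {R : ℕ} (hst : LNx A R s s') :
    ((tv R (toff s'.1) s'.2.1 : ℕ) : ZMod 4) = (tv R (toff s.1) s.2.1 : ℕ) + 1 := by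
  obtain ⟨⟨κ, i⟩, j, w, w'⟩ := s
  obtain ⟨κ', j', v, v'⟩ := s'
  obtain ⟨h1, h2, h3⟩ := hst
  have h4 : j ≤ R + 1 := h1.1
  rw [← Nat.cast_succ, ZMod.natCast_eq_natCast_iff']
  dsimp only at h3 ⊢
  have h8 : i.val % 4 = 0 ∨ i.val % 4 = 1 ∨ i.val % 4 = 2 ∨ i.val % 4 = 3 := by omega
  by_cases h5 : j = posB R (up κ)
  · rw [if_pos h5] at h3
    obtain ⟨rfl, h6, -⟩ := h3
    have a1 : (if up κ then j else R + 1 - j) = R + 1 := by
      cases hu : up κ <;> simp [hu, posB] at h5 ⊢ <;> omega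
    have a2 : (if up (nxS (κ, i)).1 then j' else R + 1 - j') = 0 := by
      cases hu : up (nxS (κ, i)).1 <;> simp [hu, posB] at h6 ⊢ <;> omega
    have a3 : (nxS (κ, i)).2.val % 4 = (i.val + 1) % 4 := by
      by_cases hi : i = lastS t
      · subst hi
        simp [nxS, lastS]
        omega
      · simp only [nxS, if_neg hi, YUpd_succ hi]
    change ((nxS (κ, i)).2.val % 4 * (R + 2) +
      if up (nxS (κ, i)).1 then j' else R + 1 - j') % 4 % 4 =
      ((i.val % 4 * (R + 2) + if up κ then j else R + 1 - j) % 4 + 1) % 4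
    rw [a1, a2, a3, Nat.add_mod i.val]
    rcases h8 with h | h | h | h <;> rw [h] <;> norm_num <;> omega
  · rw [if_neg h5] at h3
    obtain ⟨rfl, -, h7⟩ := h3
    change (i.val % 4 * (R + 2) + if up κ then j' else R + 1 - j') % 4 % 4 =
      ((i.val % 4 * (R + 2) + if up κ then j else R + 1 - j) % 4 + 1) % 4
    generalize i.val % 4 * (R + 2) = m
    cases hu : up κ <;> simp [hu, posB] at h5 h7 ⊢ <;> omega

end Vale.Agent.P330.B
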