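import Vale.Agent.P330B.YRel
import Vale.Agent.P330B.YStB
import Vale.Agent.P330B.YUpd
import Vale.Agent.P330B.KNear

/-! The system of a machine is a robust line system. -/

namespace Vale.Agent.P330.B

lemma YGood_pdZ {p t jj N : ℕ} [Fact p.Prime] [NeZero N] (a : CC t jj N → ZMod p) :
    pdZ.ev a = 0 := by
  funext z
  simp [PD.ev, pdZ, fK, Fac.ev]

theorem ysound (M t jj : ℕ) [Fact M.Prime] (J : Type) [Fintype J] : ∃ κ : ℝ, 0 < κ ∧
    ∀ (p c N d : ℕ) [Fact p.Prime] [NeZero N] [NeZero c] (χ : AddChar (ZMod M) (ZMod p))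
      (cx : Cx M p c t jj N J), cx.Ok χ d → ∀ (τ : Bool) (m : PP M p c t jj N → ZMod p),
      pr (fun z => ¬(rule χ t jj J (DD t d)).tst τ (cx.tab z) ((cx.sys χ).rd m z)) ≤ κ →
      ∃ s : Sta t, ((∃ s', LNx cx.A (RR t jj N) s' s) ∧ ∃ s', LNx cx.A (RR t jj N) s s') ∧
        par (tv (RR t jj N) (toff s.1) s.2.1 : ℕ) = τ ∧
        pr (fun z => m z ≠ cx.wd s z) ≤ 1 / 10 ^ 6 := by
  obtain ⟨n, hn⟩ : ∃ n : ℕ, n = Fintype.card (QQ M t jj J) := ⟨_, rfl⟩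
  obtain ⟨η, hη, hη1, hη2⟩ : ∃ η : ℝ, 0 < η ∧ η ≤ 1 / 10 ^ 6 ∧ n * η ≤ 1 / 200 := by
    refine ⟨min (1 / 10 ^ 6) (1 / (200 * ((n : ℝ) + 1))), lt_min (by norm_num) (by positivity),
      min_le_left _ _, (mul_le_mul_of_nonneg_left (min_le_right _ _) n.cast_nonneg).trans ?_⟩
    rw [mul_one_div, div_le_div_iff₀ (by positivity) (by norm_num)]
    linarith
  obtain ⟨κ, hκ, H⟩ := near_code M hη
  refine ⟨min κ (1 / 200), lt_min hκ (by norm_num), fun p c N d _ _ _ χ cx h τ m hm => ?_⟩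
  have hk := hm.trans (min_le_left _ _)
  have hown : ∀ z, own ((cx.sys χ).rd m z) = m z := fun z => by
    show m (cx.xa xd0 z.1 z.2.2.1, z.2) = m z
    rw [xa_xd0]
  obtain ⟨Θ, S, hS, hΘ, hd⟩ := H p χ (DD t d) (ZMod N) (II N c) (CC t jj N) J (dirs cx.g) cx.sp m
    h.prim (by have := h.hM; omega) h.expd (h.samp.mono (by norm_num))
    (by
      refine le_trans (pr_mono ?_) hk
      intro z hz ht
      refine hz fun j => ?_
      have h1 := ht.1.rep j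
      rw [hown] at h1
      rw [← h1]
      show _ = m (orbF χ (dirs cx.g) 0 _)
      rw [orbF_zero])
    (by
      refine le_trans (pr_mono ?_) hk
      intro z hz ht
      have h1 := ht.1.blr
      rw [hown] at h1
      refine hz (h1.trans ?_)
      show m z + m (cx.xa xd0 z.1 z.2.2.1, pdZ.ev z.2.1 + z.2.2.2.1, z.2.2.1, z.2.1, z.2.2.2.2) = _
      rw [xa_xd0, YGood_pdZ, zero_add])
    (by
      refine le_trans (pr_mono ?_) hk
      intro z hz ht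
      have h1 : LD χ (DD t d) fun α => m (cx.xa (false, 0, α) z.1 z.2.2.1, z.2) := ht.1.line
      simp only [xa_line] at h1
      exact hz h1)
  have h1 : pr (fun z => ∃ q, m ((cx.sys χ).ad q z) ≠ hw Θ ((cx.sys χ).ad q z)) ≤ n * η := by
    rw [hn]
    exact pr_exists_le' fun q =>
      (pr_equiv ((cx.sys χ).ad q) fun z => m z ≠ hw Θ z).le.trans hd
  have h2 : pr (fun z => ¬TstB (cx.tab z) (cx.rh χ Θ z) τ) ≤ 1 / 100 := by
    have h3 := pr_le_add (A := fun z => ¬TstB (cx.tab z) (cx.rh χ Θ z) τ)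
      (B := fun z => ¬(rule χ t jj J (DD t d)).tst τ (cx.tab z) ((cx.sys χ).rd m z))
      (C := fun z => ∃ q, m ((cx.sys χ).ad q z) ≠ hw Θ ((cx.sys χ).ad q z)) fun z hz => by
        by_contra hc
        rw [not_or, not_not, not_exists] at hc
        have e : (cx.sys χ).rd m z = cx.rh χ Θ z := funext fun q => not_not.1 (hc.2 q)
        exact hz (e ▸ hc.1.2)
    have h4 := hm.trans (min_le_right _ _)
    linarith
  obtain ⟨κ', j, r1, r2, r3⟩ := rel_of_tst h (hS.trans (hη1.trans (by norm_num))) hΘ h2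
  obtain ⟨w, w', hv, rfl⟩ := St_of_rel h r1
  exact ⟨(κ', j, w, w'), mid_of_relE h hv r2, r3, hd.trans hη1⟩

section Aux

variable {M p c t jj N : ℕ} [Fact M.Prime] [Fact p.Prime] [NeZero N] [NeZero c] {J : Type}
  [Fintype J] {χ : AddChar (ZMod M) (ZMod p)} {cx : Cx M p c t jj N J} {d : ℕ}

lemma YGood_inj (h : cx.Ok χ d) {s s' : Sta t} (hs : Val cx.A (RR t jj N) s)
    (ht : Val cx.A (RR t jj N) s') (e : cx.wd s = cx.wd s') : s = s' :=
  St_inj h hs ht (hw_inj e)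

omit [Fintype J] [NeZero c] in
lemma YGood_onL {u : PP M p c t jj N → ZMod p} (hu : OnL cx.Nx u) :
    ∃ s, Val cx.A (RR t jj N) s ∧ u = cx.wd s := by
  rcases hu with ⟨_, s, s', h, _, e⟩ | ⟨_, s, s', h, e, _⟩
  exacts [⟨s', h.2.1, e⟩, ⟨s, h.1, e⟩]

lemma YGood_time (h : cx.Ok χ d) {s : Sta t} (hs : Val cx.A (RR t jj N) s) :
    cx.time χ (cx.wd s) = (tv (RR t jj N) (toff s.1) s.2.1 : ℕ) := tm_St h hs 0

omit [NeZero c] in
lemma YGood_s0 (h : cx.Ok χ d) :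
    LNx cx.A (RR t jj N) (s0 t cx.A (RR t jj N) false) (s0 t cx.A (RR t jj N) true) := by
  refine ⟨⟨le_rfl, h.start.2.1⟩, ⟨Nat.le_succ _, h.start.2.1⟩, ?_⟩
  simp [s0, posB, up]

/-- a predecessor of a state in the first position of phase zero -/
lemma YGood_prev {A : Mach} {R : ℕ} {s s' : Sta t} (h : LNx A R s' s) (h0 : s.1.1.2 = 0)
    (h0' : s.1.2 = 0) (hj : s.2.1 = R + 1) : A.Edge (!s.1.1.1) s'.2.2.1 s.2.2.1 := by
  obtain ⟨⟨⟨π, ph⟩, st⟩, j, w, w'⟩ := s'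
  obtain ⟨⟨⟨π', ph'⟩, st'⟩, j', v, v'⟩ := s
  obtain ⟨⟨h1, h2⟩, _, h3⟩ := h
  simp only at h0 h0' hj h1 h2
  subst h0 h0' hj
  by_cases a : j = posB R (up (π, ph))
  · rw [if_pos a] at h3
    obtain ⟨e1, -, e2⟩ := h3
    have hl : st = lastS t := by
      by_contra hl
      simp only [nxS, if_neg hl, Prod.mk.injEq] at e1
      have h5 : st + 1 = 0 := e1.2.symm
      have h6 := congrArg Fin.val h5
      have h7 : st.val ≠ 4 * t + 3 := fun e => hl (Fin.ext e)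
      have h8 := st.2
      rw [Fin.val_add, Fin.val_one, Nat.mod_eq_of_lt (by omega)] at h6
      simp at h6
    subst hl
    simp only [nxS, if_true, Prod.mk.injEq, and_true] at e1
    have hp : ph = 3 := by
      by_contra hp
      simp only [nxC, if_neg hp, Prod.mk.injEq] at e1
      have := e1.2
      revert hp this
      fin_cases ph <;> simp
    subst hp
    simp only [nxC, if_true, Prod.mk.injEq, and_true] at e1 e2
    show A.Edge (!π') w v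
    rw [e1, e2, Bool.not_not]
    exact h2
  · exfalso
    rw [if_neg a] at h3
    obtain ⟨e1, -, e3⟩ := h3
    simp only [Prod.mk.injEq] at e1
    obtain ⟨⟨-, e4⟩, -⟩ := e1
    subst e4
    simp [up] at e3
    omega

end Aux

theorem ygood (M t jj : ℕ) [Fact M.Prime] (J : Type) [Fintype J] :
    ∃ κ : ℝ, 0 < κ ∧ κ ≤ 1 / 10 ^ 6 ∧
    ∀ (p c N d : ℕ) [Fact p.Prime] [NeZero N] [NeZero c] (χ : AddChar (ZMod M) (ZMod p))
      (cx : Cx M p c t jj N J), cx.Ok χ d →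
      Good (rule χ t jj J (DD t d)) (cx.sys χ) κ (1 / 10 ^ 5) cx.Nx (cx.time χ) := by
  obtain ⟨κ, hκ, H⟩ := ysound M t jj J
  refine ⟨min κ (1 / 10 ^ 6), lt_min hκ (by norm_num), min_le_right _ _,
    fun p c N d _ _ _ χ cx h => ?_⟩
  have hM : 10000 * (DD t d + 2) ≤ M := by have := h.hM; omega
  refine ⟨fun u v hu hv hne => ?_, ?_, ?_, fun u hu z => ?_, ?_, ⟨_, _, YGood_s0 h, rfl, rfl⟩,
    ?_, ?_, ?_, fun τ m hm => ?_, fun u hu G hG => ?_⟩
  · obtain ⟨s, -, rfl⟩ := YGood_onL hu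
    obtain ⟨s', -, rfl⟩ := YGood_onL hv
    exact hw_far h.prim hM (by rw [ZMod.card]; have := h.hp; omega) h.expd (St_cd h s)
      (St_cd h s') fun e => hne (congrArg hw e)
  · rintro _ _ ⟨s, s', hst, rfl, rfl⟩ z
    exact suc_St h hst z
  · rintro _ _ ⟨s, s', hst, rfl, rfl⟩ z
    exact prd_St h hst z
  · obtain ⟨s, hs, rfl⟩ := YGood_onL hu
    exact (tm_St h hs z).trans (YGood_time h hs).symm
  · rintro _ _ ⟨s, s', hst, rfl, rfl⟩
    rw [YGood_time h hst.1, YGood_time h hst.2.1]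
    exact tv_next hst
  · refine (YGood_time h (YGood_s0 h).1).trans ?_
    simp [s0, tv, toff, up]
  · rintro _ ⟨s, s', hst, rfl, e⟩
    obtain rfl := YGood_inj h (YGood_s0 h).1 hst.2.1 e
    exact h.start.2.2 ⟨_, YGood_prev hst rfl rfl rfl⟩
  · rintro _ ⟨⟨_, s', s, h1, rfl, rfl⟩, _, s2, s3, h2, e, rfl⟩ z
    obtain rfl := YGood_inj h h1.2.1 h2.1 e
    rw [YGood_time h h2.1]
    exact ⟨tstA_hw (St_cd h s) z, tstB_rel h (St_rel h h2.1) (St_relE h h1 h2) z⟩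
  · obtain ⟨s, ⟨⟨s1, h1⟩, s2, h2⟩, h3, h4⟩ :=
      H p c N d χ cx h τ m (hm.trans (min_le_left _ _))
    refine ⟨cx.wd s, ⟨⟨_, s1, s, h1, rfl, rfl⟩, _, s, s2, h2, rfl, rfl⟩, ?_,
      h4.trans (by norm_num)⟩
    rw [YGood_time h h2.1]
    exact h3
  · obtain ⟨s, -, rfl⟩ := YGood_onL hu
    have h1 := cor_half h.prim hM h.expd h.samp (St_cd h s) G hG
    refine le_trans (pr_mono ?_) h1
    intro z hz hc
    refine hz fun ρ hρ => ?_
    exact hc (fun z => ρ (.inr (.inr (.inr z)))) fun j α hg => hρ (.inr (.inr (.inr (j, α)))) hg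

variable {M p c t jj N : ℕ} [Fact M.Prime] [Fact p.Prime] [NeZero N] [NeZero c] {J : Type}
  [Fintype J] {χ : AddChar (ZMod M) (ZMod p)} {cx : Cx M p c t jj N J} {d : ℕ}

theorem yend (h : cx.Ok χ d) {u : PP M p c t jj N → ZMod p}
    (hu : EndL cx.Nx (zw (rule χ t jj J (DD t d)) (cx.sys χ) false) u) :
    ∃ σ, cx.A.End (cx.extW u σ) := by
  rcases hu with ⟨⟨_, s', s, h1, rfl, rfl⟩, hn⟩ | ⟨⟨_, s, s', h1, rfl, rfl⟩, hn, hne⟩
  · refine ⟨(true, s.1.1.1), ?_⟩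
    rw [extW_wd h h1.2.1]
    refine Or.inl ⟨s.1.1.1, s.2.2.1, h1.2.1.2, fun hw' => hn ?_⟩
    obtain ⟨s2, ht⟩ := has_next h1.2.1 fun _ _ _ => hw'
    exact ⟨_, s, s2, ht, rfl, rfl⟩
  · refine ⟨(false, s.1.1.1), ?_⟩
    rw [extW_wd h h1.1]
    have key : ¬(s.1.1.2 = 0 → s.1.2 = 0 → s.2.1 = RR t jj N + 1 →
        ∃ w, cx.A.Edge (!s.1.1.1) w s.2.2.1) := fun hp => by
      obtain ⟨t', ht⟩ := has_prev h1.1 hp
      exact hn ⟨_, t', s, ht, rfl, rfl⟩
    refine Or.inr ⟨s.1.1.1, s.2.2.2, h1.1.2, fun hw' => key fun _ _ _ => hw', fun e => hne ?_⟩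
    push Not at key
    obtain ⟨⟨⟨π, ph⟩, st⟩, j, w, w'⟩ := s
    obtain ⟨k1, k0, k2, -⟩ := key
    have k3 := h1.1.2.2.2.1
    simp only [Prod.mk.injEq, Bool.false_eq_true, if_false] at e k0 k1 k2 k3
    obtain ⟨rfl, rfl⟩ := e
    subst k0 k1 k2 k3
    rfl

end Vale.Agent.P330.B
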