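import Vale.Agent.P330B.CDec
import Vale.Agent.P330B.CPar
import Vale.Agent.P330B.YGood
import Vale.Agent.P330B.Mach2
import Vale.Agent.P330.Final

/-! The reduction and the decoder with almost linear size. -/

namespace Vale.Agent.P330.B

open Vale.Agent.Lib.TM Vale.Agent.Lib.PCP

lemma bd_k2 : Bd 0 fun I : EoL => I.norm.mach2.k :=
  (CT.bd_length (e := 0) (l := fun I : EoL => I.norm.mach2.2.1) ct_mach2.snd.fst).of_le fun I => by
    simp [EoL.mach2, Mach.k]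

lemma fin_sz {t s n C C' K z : ℕ} (h1 : s ≤ C * n) (h2 : n ^ (t + 1) ≤ C' * (K + 1) ^ (t + 7))
    (h3 : K ≤ 100 * z) (h4 : 0 < z) :
    s ^ (t + 1) ≤ C ^ (t + 1) * (C' * 101 ^ (t + 7)) * z ^ (t + 7) := by
  refine (Nat.pow_le_pow_left h1 _).trans ?_
  rw [mul_assoc, mul_assoc, ← mul_pow 101, mul_pow C]
  have h5 : K + 1 ≤ 101 * z := by omega
  exact Nat.mul_le_mul_left _ (h2.trans (Nat.mul_le_mul_left _ (Nat.pow_le_pow_left h5 _)))

theorem pcp_near (t : ℕ) : ∃ (ε δ : ℝ) (C : ℕ) (p : Polynomial ℕ) (R : EoL → GCirc)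
    (D : EoL × Asg → List Bool),
    0 < ε ∧ ε < 1 ∧ 0 < δ ∧ δ < 1 ∧ CT 0 R ∧ CT 0 D ∧ ∀ I : EoL, I.Valid →
      (R I).WF ∧ sz (R I) ^ (t + 1) ≤ C * sz I ^ (t + 7) ∧ (∃ x, (R I).Acc ε δ p x) ∧
        ∀ x, (R I).Acc ε δ p x → I.Sol (D (I, x)) := by
  classical
  obtain ⟨M, p, c, jj, d, _, _, _, χ, hp⟩ := exists_par t
  obtain ⟨h0, C0, hcx⟩ := exists_cx hp
  obtain ⟨N, _, cx, hC, hA, hO, hsz⟩ := hcx EoL (fun I => I.norm.mach2) ct_mach2 bd_k2
  obtain ⟨κ, hκ, hκ', hgood⟩ := ygood M t jj (Fin h0 → Fin 32)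
  obtain ⟨h, K, β, hβ, heq⟩ := equil (rule χ t jj (Fin h0 → Fin 32) (DD t d)) (η := 1 / 10 ^ 5) hκ
    (hκ'.trans (by norm_num)) (by norm_num)
  obtain ⟨hs, hsp⟩ := exists_sp M p c t jj hβ
  obtain ⟨sp, hsa, hsc⟩ := hsp EoL N hC.hN
  obtain ⟨ε, δ, hε, hε', hδ, heq⟩ := heq hs
  obtain ⟨m, nm, G, hm, -, hG, hE⟩ := exists_gadget slf
    (nodeE (rule χ t jj (Fin h0 → Fin 32) (DD t d)) h hs K) (nodeE_isGate _ _ _ _)
  obtain ⟨K', hK'⟩ := exists_asg hε hε'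
  obtain ⟨C1, hC1⟩ := build_sz slf hG
  let ad : EoL → Rd (QQ M t jj (Fin h0 → Fin 32)) hs → ℕ → ℕ := fun I q n =>
    cP (rdP ((cx I).sys χ) (sp I) q (dP M p c t jj (N I) n))
  let tb : EoL → ℕ → GG p t := fun I n => (cx I).tab (dP M p c t jj (N I) n)
  let u0 : Ver × Bool → ∀ z : EoL × Asg, PP M p c t jj (N z.1) → ZMod p := fun k z y =>
    dcd fun s => z.2.bit (cP y * m + nm (.z k.1 k.2 s))
  let ws : EoL × Asg → List (List Bool) := fun z =>
    (Finset.univ : Finset ((Ver × Bool) × Slot)).toList.flatMap fun k => z.1.norm.cands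
      ((cx z.1).extW ((corStep (rule χ t jj (Fin h0 → Fin 32) (DD t d)) ((cx z.1).sys χ))^[
        (nP M p c t jj (N z.1)).size] (u0 k.1 z)) k.2)
  have hP := ct_nP hC.hN M p c t jj
  have hd : PCT (fun z : EoL × ℕ => N z.1) fun z => dP M p c t jj (N z.1) z.2 :=
    p_dP (hC.hN.comp CT.id.fst) CT.id.snd
  have hm' : (0 : ℝ) < m := by exact_mod_cast hm
  refine ⟨ε, min (δ / m) (1 / 2), C1 ^ (t + 1) * (C0 * 101 ^ (t + 7)),
    Polynomial.C K' * (Polynomial.C m * Polynomial.X + 1),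
    fun I => build m (nP M p c t jj (N I)) slf (ad I) (tb I) G, fun z => z.1.pick (ws z), hε,
    by linarith, lt_min (div_pos hδ hm') (by norm_num), (min_le_right _ _).trans_lt (by norm_num),
    ct_build m slf G hP.1 hP.2 (fun q => ?_) ((hC.comp CT.id.fst).tab hp.hMp hd), ?_,
    fun I hI => ?_⟩
  · rcases q with q | j | _
    · exact ((hC.comp CT.id.fst).adF χ q hd).code (hC.hN.comp CT.id.fst)
    · exact hsc j
    · exact hd.code (hC.hN.comp CT.id.fst)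
  · refine ct_pick.comp (g := fun z : EoL × Asg => (z.1, ws z)) (CT.id.fst.mk ?_)
    refine ct_flatMapC _ _ fun k => ct_cands.comp (CT.id.fst.mk ?_)
    have h1 := hC.comp (f := fun z : EoL × Asg => z.1) CT.id.fst
    have h2 := hP.1.comp (g := fun z : EoL × Asg => z.1) CT.id.fst
    refine h1.extW (h1.iter χ hp.hMp _ (u := u0 k.1) ?_ h2.natSize h2.bd_size) k.2
    have h3 := (p_dP (M := M) (p := p) (c := c) (t := t) (jj := jj)
      (h1.hN.comp (f := fun z : (EoL × Asg) × ℕ => z.1) CT.id.fst) CT.id.snd).code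
        (h1.hN.comp CT.id.fst)
    refine (FinCT.pi fun s => FinCT.bool ?_).comp dcd
    unfold Asg.bit
    fun_prop
  have hO := hO I (hI.norm_eq.symm ▸ EoL.mach2_start hI)
  have hpos := (Nat.zero_le _).trans_lt (cP_lt (0 : PP M p c t jj (N I)))
  have hw : (build m (nP M p c t jj (N I)) slf (ad I) (tb I) G).WF :=
    build_wf hpos hG (fun _ hn => cP_dP hn) fun _ _ _ => cP_lt _
  refine ⟨hw, ?_, ?_, fun x hx => EoL.pick_sol ?_⟩
  · exact fin_sz (hC1 _ (ad I) (tb I) hpos fun _ _ _ => cP_lt _) (hsz I) (EoL.mach2_len I)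
      (sz_pos I)
  · obtain ⟨x, h1, h2, h3⟩ := hK' _ hw
    refine ⟨x, h1, h2.trans ?_, ?_⟩
    · simpa using Nat.mul_le_mul_left K' (Nat.add_le_add_right (build_nodes hG) 1)
    · rw [List.countP_eq_length.2 fun g hg => decide_eq_true (h3 g hg)]
      exact mul_le_of_le_one_left (Nat.cast_nonneg _)
        (sub_le_self _ (lt_min (div_pos hδ hm') (by norm_num)).le)
  have hg := hgood p c (N I) d χ (cx I) hO
  obtain ⟨Gd, h1, h2⟩ := net_cfg _ ((cx I).sys χ) (sp I) (eP M p c t jj (N I)) hG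
    (lt_min (div_pos hδ hm') (by norm_num : (0 : ℝ) < 1 / 2)).le (hE ε) (ad := ad I)
    (fun q z => congrArg (fun y => cP (rdP ((cx I).sys χ) (sp I) q y)) (dP_cP z)) (tb := tb I)
    (fun z => congrArg (cx I).tab (dP_cP z)) hx.1.in01 hx.2.2
  obtain ⟨ν, τ, u, h3, h4⟩ := heq _ _ _ _ _ _ _ hg (hsa I) h1 (h2.trans (by
    rw [← le_div_iff₀ hm']
    exact min_le_left _ _))
  obtain ⟨σ, h5⟩ := yend hO h3
  rw [hA, hI.norm_eq] at h5
  obtain ⟨v, h6, h7⟩ := EoL.mach2_end hI h5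
  refine ⟨v, List.mem_flatMap.2 ⟨((ν, τ), σ), by simp, ?_⟩, h7⟩
  rw [hg.cor_iter (u := u) (by norm_num) (h3.elim (fun a => .inl a.1) fun a => .inr a.1) ?_ ?_,
    hI.norm_eq]
  · exact h6
  · refine le_of_eq_of_le (pr_congr fun z => ?_) h4
    simp only [u0, rnd, hx.1.bit_eq]
    rfl
  · rw [Fintype.card_congr (eP M p c t jj (N I)), Fintype.card_fin]
    exact (Nat.lt_size_self _).le

end Vale.Agent.P330.B
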