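import Vale.Agent.P330.KCor
import Vale.Agent.P330.KNear

/-! Hadamard words with a small replica index. -/

namespace Vale.Agent.P330.B

open scoped BigOperators

variable {M : ℕ} [Fact M.Prime] {F : Type} [Field F]

/-- The positions of a Hadamard word with replicas. -/
abbrev Pos (M : ℕ) (F ι I C : Type) :=
  (ι → ZMod M) × (C → F) × (I × (C → F) × Unit)

/-- The Hadamard word of a vector valued function. -/
def hw {ι I C : Type} [Fintype C] (Θ : (ι → ZMod M) → C → F) (p : Pos M F ι I C) : F :=
  ∑ c, p.2.1 c * Θ p.1 c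

/-- The curves used for error reduction. -/
def orbF (χ : AddChar (ZMod M) F) {ι I C : Type} (s : I → ι → ZMod M) (α : ZMod M)
    (p : Pos M F ι I C) : Pos M F ι I C :=
  (p.1 + α • s p.2.2.1, p.2.1 + (χ α - 1) • p.2.2.2.1, p.2.2.1, χ α • p.2.2.2.1, p.2.2.2.2)

end Vale.Agent.P330.B
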