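import Mathlib

/-! Routing in shift register graphs. -/

namespace Vale.Agent.P330.B

open Finset

/-- The digit `j` of a number with `t + 1` digits, the most significant digit first. -/
def dg (k t q j : ℕ) : ℕ := q / k ^ (t - j) % k

/-- The place of an entry after the broadcast. -/
def rank (src : ℕ → ℕ) (E e : ℕ) : ℕ :=
  ((List.range E).filter fun e' =>
    decide (src e' < src e) || (decide (src e' = src e) && decide (e' < e))).length + src e

/-- Two coloured entries are in conflict. -/
def cfl (k t m c e m' c' e' : ℕ) : Bool :=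
  (List.range (t + 1)).any fun r =>
    (decide (m % k ^ r = m' % k ^ r) && decide (c / (4 * k) ^ r = c' / (4 * k) ^ r)) ||
      (decide (0 < r) && decide (e / k ^ r = e' / k ^ r) &&
        decide (c % (4 * k) ^ r = c' % (4 * k) ^ r))

/-- The word of an entry: source, place after the broadcast, colour, target. -/
def word (k t src m c e s : ℕ) : ℕ :=
  if s < t + 1 then dg k t src s
  else if s < 2 * t + 2 then dg k t m (s - (t + 1))
  else if s < 3 * t + 3 then dg (4 * k) t c (s - (2 * t + 2))
  else dg k t e (s - (3 * t + 3))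

variable {k t E K : ℕ} {src m col : ℕ → ℕ}

lemma dg_lt (hk : 0 < k) (t q j : ℕ) : dg k t q j < k := Nat.mod_lt _ hk

lemma dg_high {q q' r : ℕ} (hq : q < k ^ (t + 1)) (hq' : q' < k ^ (t + 1)) (hr : r ≤ t + 1)
    (h : ∀ j, j + r ≤ t → dg k t q j = dg k t q' j) : q / k ^ r = q' / k ^ r := by
  obtain ⟨d, hd⟩ := Nat.exists_eq_add_of_le hr
  induction d generalizing r with
  | zero =>
    obtain rfl : r = t + 1 := by omega
    rw [Nat.div_eq_of_lt hq, Nat.div_eq_of_lt hq']
  | succ d ih =>
    have h1 := ih (r := r + 1) (by omega) (fun j hj => h j (by omega)) (by omega)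
    have h2 := h (t - r) (by omega)
    unfold dg at h2
    rw [show t - (t - r) = r by omega] at h2
    rw [pow_succ, ← Nat.div_div_eq_div_mul, ← Nat.div_div_eq_div_mul] at h1
    rw [← Nat.div_add_mod (q / k ^ r) k, ← Nat.div_add_mod (q' / k ^ r) k, h1, h2]

lemma dg_low {q q' r : ℕ} (hr : r ≤ t + 1)
    (h : ∀ j ≤ t, t < j + r → dg k t q j = dg k t q' j) : q % k ^ r = q' % k ^ r := by
  induction r with
  | zero => simp [Nat.mod_one]
  | succ r ih =>
    have h1 := ih (by omega) fun j hj hj' => h j hj (by omega)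
    have h2 := h (t - r) (by omega) (by omega)
    unfold dg at h2
    rw [show t - (t - r) = r by omega] at h2
    rw [Nat.mod_pow_succ, Nat.mod_pow_succ, h1, h2]

lemma dg_inj {q q' : ℕ} (hq : q < k ^ (t + 1)) (hq' : q' < k ^ (t + 1))
    (h : ∀ j ≤ t, dg k t q j = dg k t q' j) : q = q' := by
  simpa using dg_high (r := 0) hq hq' (by omega) fun j hj => h j hj

lemma Route_rank (src : ℕ → ℕ) (E e : ℕ) : rank src E e =
    #{e' ∈ range E | src e' < src e ∨ (src e' = src e ∧ e' < e)} + src e := by
  unfold rank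
  rw [card_def, filter_val, range_val, Multiset.range, Multiset.filter_coe, Multiset.coe_card]
  simp

lemma Route_rank_lt {e e' : ℕ} (he : e < E) (h : src e < src e' ∨ (src e = src e' ∧ e < e')) :
    rank src E e < rank src E e' := by
  rw [Route_rank, Route_rank]
  refine Nat.add_lt_add_of_lt_of_le (card_lt_card ⟨fun x => ?_, fun hx => ?_⟩) (by omega)
  · simp only [mem_filter, mem_range]
    omega
  · have := hx (show e ∈ _ from mem_filter.2 ⟨mem_range.2 he, h⟩)
    simp at this


lemma rank_lt (hE : E ≤ K) {e : ℕ} (he : e < E) (hs : src e < K) : rank src E e < 2 * K := by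
  have : rank src E e ≤ #(range E) + src e := by
    rw [Route_rank]
    exact Nat.add_le_add_right (card_filter_le _ _) _
  rw [card_range] at this
  omega

lemma rank_inj {e e' : ℕ} (he : e < E) (he' : e' < E) (h : rank src E e = rank src E e') :
    e = e' := by
  by_contra hne
  by_cases h1 : src e < src e' ∨ (src e = src e' ∧ e < e')
  · exact (Route_rank_lt he h1).ne h
  · exact (Route_rank_lt (src := src) (e' := e) he' (by omega)).ne' h

lemma rank_gap {e e' : ℕ} (h : src e ≤ src e') :
    src e = src e' ∨ rank src E e + src e' ≤ rank src E e' + src e := by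
  refine h.eq_or_lt.imp_right fun h1 => ?_
  rw [Route_rank, Route_rank]
  have : #{x ∈ range E | src x < src e ∨ (src x = src e ∧ x < e)} ≤
      #{x ∈ range E | src x < src e' ∨ (src x = src e' ∧ x < e')} := card_le_card fun x => by
    simp only [mem_filter, mem_range]
    omega
  omega

lemma Route_cm {a b : ℕ} (S : Finset ℕ) (f : ℕ → ℕ) (y : ℕ)
    (hi : ∀ x ∈ S, ∀ z ∈ S, f x = f z → x = z) (hl : ∀ x ∈ S, f x < a * b)
    (hy : ∀ x ∈ S, f x % a = y) : #S ≤ b := by
  rw [← card_range b]
  refine card_le_card_of_injOn (fun x => f x / a) (fun x hx => ?_) fun x hx z hz h => hi x hx z hz ?_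
  · exact mem_coe.2 (mem_range.2 (Nat.div_lt_of_lt_mul (hl x hx)))
  · have h' : f x / a = f z / a := h
    rw [← Nat.div_add_mod (f x) a, ← Nat.div_add_mod (f z) a, h', hy x hx, hy z hz]

lemma Route_cd {a : ℕ} (S : Finset ℕ) (ha : 0 < a) (y : ℕ) (hy : ∀ x ∈ S, x / a = y) : #S ≤ a := by
  rw [← card_range a]
  refine card_le_card_of_injOn (fun x => x % a) (fun x _ => ?_) fun x hx z hz h => ?_
  · exact mem_coe.2 (mem_range.2 (Nat.mod_lt _ ha))
  · have h' : x % a = z % a := h
    rw [← Nat.div_add_mod x a, ← Nat.div_add_mod z a, h', hy x hx, hy z hz]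

lemma Route_geo (n : ℕ) : 3 * ∑ r ∈ range n, 4 ^ r + 1 = 4 ^ n := by
  induction n with
  | zero => simp
  | succ n ih => rw [sum_range_succ, pow_succ]; omega

lemma Route_cfl {m c e m' c' e' : ℕ} : cfl k t m c e m' c' e' = true ↔ ∃ r < t + 1,
    (m % k ^ r = m' % k ^ r ∧ c / (4 * k) ^ r = c' / (4 * k) ^ r) ∨
      (0 < r ∧ e / k ^ r = e' / k ^ r ∧ c % (4 * k) ^ r = c' % (4 * k) ^ r) := by
  simp [cfl, and_assoc]


/-- There is always a free colour. -/
theorem free_col (hk : 0 < k) (hm : ∀ e < E, m e < k ^ (t + 1))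
    (hi : ∀ e < E, ∀ e' < E, m e = m e' → e = e') {e : ℕ} (he : e < E) (col : ℕ → ℕ) :
    ∃ c < (4 * k) ^ (t + 1), ∀ e' < e, cfl k t (m e) c e (m e') (col e') e' = false := by
  by_contra! H
  have h4 : 0 < 4 * k := by omega
  have hsub : range ((4 * k) ^ (t + 1)) ⊆
      (range (t + 1)).biUnion (fun r => ({e' ∈ range e | m e % k ^ r = m e' % k ^ r}).biUnion
        fun e' => {c ∈ range ((4 * k) ^ (t + 1)) | c / (4 * k) ^ r = col e' / (4 * k) ^ r}) ∪
      (range t).biUnion (fun r => ({e' ∈ range e | e / k ^ (r + 1) = e' / k ^ (r + 1)}).biUnion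
        fun e' => {c ∈ range ((4 * k) ^ (t + 1)) |
          c % (4 * k) ^ (r + 1) = col e' % (4 * k) ^ (r + 1)}) := fun c hc => by
    obtain ⟨e', h1, h2⟩ := H c (mem_range.1 hc)
    obtain ⟨r, hr, h3⟩ := Route_cfl.1 (by simpa using h2)
    simp only [mem_union, mem_biUnion, mem_filter, mem_range]
    rcases h3 with h3 | h3
    · exact Or.inl ⟨r, hr, e', ⟨h1, h3.1⟩, mem_range.1 hc, h3.2⟩
    · obtain ⟨r, rfl⟩ : ∃ r', r = r' + 1 := ⟨r - 1, by omega⟩
      exact Or.inr ⟨r, by omega, e', ⟨h1, h3.2.1⟩, mem_range.1 hc, h3.2.2⟩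
  have h1 := (card_le_card hsub).trans ((card_union_le _ _).trans (Nat.add_le_add
    (card_biUnion_le.trans (sum_le_sum (g := fun r => k ^ (t + 1) * 4 ^ r) fun r hr => ?_))
    (card_biUnion_le.trans (sum_le_sum (g := fun r => k ^ (t + 1) * 4 ^ (t - r)) fun r hr => ?_))))
  · have h2 : ∑ r ∈ range t, 4 ^ (t - r) ≤ ∑ r ∈ range (t + 1), 4 ^ r := by
      rw [← sum_range_reflect _ (t + 1), sum_range_succ]
      exact le_self_add
    have h3 := Route_geo (t + 1)
    have h5 : 0 < k ^ (t + 1) := by positivity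
    rw [card_range, ← mul_sum, ← mul_sum, mul_pow, mul_comm, ← mul_add] at h1
    have := Nat.le_of_mul_le_mul_left h1 h5
    omega
  · have hr' := mem_range.1 hr
    have e1 : k ^ (t + 1) = k ^ r * k ^ (t + 1 - r) := by rw [← pow_add]; congr 1; omega
    refine (card_biUnion_le_card_mul _ _ ((4 * k) ^ r) fun e' _ =>
      Route_cd _ (by positivity) _ fun x hx => (mem_filter.1 hx).2).trans ?_
    refine (Nat.mul_le_mul_right _ (Route_cm (a := k ^ r) (b := k ^ (t + 1 - r)) _ m _
      (fun x hx y hy => hi x ?_ y ?_) (fun x hx => e1 ▸ hm x ?_)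
      fun x hx => (mem_filter.1 hx).2.symm)).trans (le_of_eq ?_)
    · exact (mem_range.1 (mem_filter.1 hx).1).trans he
    · exact (mem_range.1 (mem_filter.1 hy).1).trans he
    · exact (mem_range.1 (mem_filter.1 hx).1).trans he
    · rw [e1, mul_pow]; ring
  · have hr' := mem_range.1 hr
    have e1 : ∀ a : ℕ, a ^ (t + 1) = a ^ (r + 1) * a ^ (t - r) := fun a => by
      rw [← pow_add]; congr 1; omega
    refine (card_biUnion_le_card_mul _ _ ((4 * k) ^ (t - r)) fun e' _ =>
      Route_cm (a := (4 * k) ^ (r + 1)) _ id _ (fun x _ y _ h => h)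
        (fun x hx => e1 _ ▸ mem_range.1 (mem_filter.1 hx).1) fun x hx => (mem_filter.1 hx).2).trans ?_
    refine (Nat.mul_le_mul_right _ (Route_cd (a := k ^ (r + 1)) _ (by positivity) _
      fun x hx => (mem_filter.1 hx).2.symm)).trans (le_of_eq ?_)
    rw [e1 k, mul_pow]; ring

lemma Route_eq {n a b x y : ℕ} (hn : 0 < n) (h : a ≤ b) (h1 : a % n = b % n) (h2 : x / n = y / n)
    (h3 : x + b ≤ y + a) : a = b := by
  have h4 := Nat.eq_zero_of_dvd_of_lt ((Nat.modEq_iff_dvd' h).1 h1)
  have h5 := Nat.div_add_mod x n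
  have h6 := Nat.div_add_mod y n
  have h7 := Nat.mod_lt y hn
  rw [h2] at h5
  omega


/-- The next window determines the symbol. -/
theorem word_fun (hE : E ≤ K) (hs : ∀ e < E, src e < K) (hK : 2 * K ≤ k ^ (t + 1))
    (hc : ∀ e < E, col e < (4 * k) ^ (t + 1))
    (hf : ∀ e < E, ∀ e' < e,
      cfl k t (rank src E e) (col e) e (rank src E e') (col e') e' = false)
    {e e' s : ℕ} (he : e < E) (he' : e' < E) (hs' : s < 3 * t + 3)
    (h : ∀ j ≤ t, word k t (src e) (rank src E e) (col e) e (s + 1 + j) =
      word k t (src e') (rank src E e') (col e') e' (s + 1 + j)) :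
    word k t (src e) (rank src E e) (col e) e s =
      word k t (src e') (rank src E e') (col e') e' s := by
  have key : ∀ r < t + 1, (rank src E e % k ^ r = rank src E e' % k ^ r ∧
      col e / (4 * k) ^ r = col e' / (4 * k) ^ r) ∨ (0 < r ∧ e / k ^ r = e' / k ^ r ∧
        col e % (4 * k) ^ r = col e' % (4 * k) ^ r) → e = e' := fun r hr H => by
    rcases lt_trichotomy e e' with h1 | h1 | h1
    · have := hf e' he' e h1
      rw [Route_cfl.2 ⟨r, hr, H.imp (fun a => ⟨a.1.symm, a.2.symm⟩)
        fun a => ⟨a.1, a.2.1.symm, a.2.2.symm⟩⟩] at this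
      exact absurd this (by simp)
    · exact h1
    · have := hf e he e' h1
      rw [Route_cfl.2 ⟨r, hr, H⟩] at this
      exact absurd this (by simp)
  have r1 := (rank_lt hE he (hs e he)).trans_le hK
  have r2 := (rank_lt hE he' (hs e' he')).trans_le hK
  have hk : 0 < k := Nat.pos_of_ne_zero fun h0 => by simp [h0] at r1
  have W : ∀ p, s < p → p ≤ s + 1 + t → word k t (src e) (rank src E e) (col e) e p =
      word k t (src e') (rank src E e') (col e') e' p := fun p h1 h2 => by
    have := h (p - (s + 1)) (by omega)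
    rwa [show s + 1 + (p - (s + 1)) = p by omega] at this
  have W0 : ∀ j ≤ t, s < j → dg k t (src e) j = dg k t (src e') j := fun j h1 h2 => by
    have := W j h2 (by omega)
    unfold word at this
    rwa [if_pos (by omega), if_pos (by omega)] at this
  have W1 : ∀ j ≤ t, s < j + (t + 1) → j ≤ s →
      dg k t (rank src E e) j = dg k t (rank src E e') j := fun j h1 h2 h3 => by
    have := W (j + (t + 1)) h2 (by omega)
    unfold word at this
    rwa [if_neg (by omega), if_pos (by omega), if_neg (by omega), if_pos (by omega),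
      Nat.add_sub_cancel] at this
  have W2 : ∀ j ≤ t, s < j + (2 * t + 2) → j + (t + 1) ≤ s →
      dg (4 * k) t (col e) j = dg (4 * k) t (col e') j := fun j h1 h2 h3 => by
    have := W (j + (2 * t + 2)) h2 (by omega)
    unfold word at this
    rwa [if_neg (by omega), if_neg (by omega), if_pos (by omega), if_neg (by omega),
      if_neg (by omega), if_pos (by omega), Nat.add_sub_cancel] at this
  have W3 : ∀ j, j + (2 * t + 2) ≤ s → dg k t e j = dg k t e' j := fun j h3 => by
    have := W (j + (3 * t + 3)) (by omega) (by omega)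
    unfold word at this
    rwa [if_neg (by omega), if_neg (by omega), if_neg (by omega), if_neg (by omega),
      if_neg (by omega), if_neg (by omega), Nat.add_sub_cancel] at this
  by_cases c1 : s < t + 1
  · have a1 := dg_low (k := k) (t := t) (q := src e) (q' := src e') (r := t - s) (by omega)
      fun j h1 h2 => W0 j h1 (by omega)
    have a2 := dg_high (r := t - s) r1 r2 (by omega) fun j h1 => W1 j (by omega) (by omega) (by omega)
    have hp : 0 < k ^ (t - s) := by positivity
    have : src e = src e' := by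
      rcases le_total (src e) (src e') with h1 | h1
      · exact (rank_gap (E := E) h1).elim id (Route_eq hp h1 a1 a2)
      · exact ((rank_gap (E := E) h1).elim id (Route_eq hp h1 a1.symm a2.symm)).symm
    unfold word
    rw [if_pos c1, if_pos c1, this]
  suffices e = e' by rw [this]
  by_cases c2 : s < 2 * t + 2
  · exact key (2 * t + 1 - s) (by omega) (Or.inl
      ⟨dg_low (t := t) (by omega) fun j h1 h2 => W1 j h1 (by omega) (by omega),
        dg_high (hc e he) (hc e' he') (by omega) fun j h1 => W2 j (by omega) (by omega) (by omega)⟩)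
  · have a1 := dg_high (k := k) (t := t) (q := e) (q' := e') (r := 3 * t + 2 - s) (by omega)
      (by omega) (by omega) fun j h1 => W3 j (by omega)
    rcases Nat.eq_zero_or_pos (3 * t + 2 - s) with h0 | h0
    · simpa [h0] using a1
    · exact key _ (by omega) (Or.inr ⟨h0, a1,
        dg_low (t := t) (by omega) fun j h1 h2 => W2 j h1 (by omega) (by omega)⟩)

end Vale.Agent.P330.B
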