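import Vale.Agent.P330B.YHn

/-! The stages route the inputs, multiply and interpolate. -/

namespace Vale.Agent.P330.B

open Finset
open scoped BigOperators

variable {M p c t jj N : ℕ} [Fact M.Prime] [Fact p.Prime] [NeZero N] {J : Type} [Fintype J]
  {χ : AddChar (ZMod M) (ZMod p)} {cx : Cx M p c t jj N J} {d : ℕ}
  {dir g : Bool} {f : XX M N → ZMod p} {F : Fin 5 → XX M N → ZMod p} {D : ℕ}

lemma YStage_marg {R : Type} [CommRing R] (a : R) (φ : Fin 5 → R) (b : Fin 5) :
    psiL (fun β => if β b then a else 0) (fun _ => 1) φ = a * φ b := by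
  let G : Fin 5 → Bool → R := fun b' v =>
    if v then φ b' else if b' = b then 0 else 1 - φ b'
  have h1 : ∀ β : Fin 5 → Bool, (if β b then a else 0) * ∏ b', (if β b' then φ b' else 1 - φ b') =
      a * ∏ b', G b' (β b') := by
    intro β
    by_cases hb : β b = true
    · rw [if_pos hb]
      refine congrArg _ (prod_congr rfl fun b' _ => ?_)
      by_cases e : b' = b
      · simp only [G, e, hb, if_true]
      · simp only [G, e, if_false]
    · rw [if_neg hb, zero_mul, prod_eq_zero (mem_univ b), mul_zero]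
      simp only [G, hb, if_true, Bool.false_eq_true, if_false]
  have h2 : ∏ b', ∑ v, G b' v = ∑ β : Fin 5 → Bool, ∏ b', G b' (β b') := by
    rw [prod_univ_sum, Fintype.piFinset_univ]
  have h3 : ∀ b', ∑ v, G b' v = if b' = b then φ b' else 1 := by
    intro b'
    rw [Fintype.sum_bool]
    by_cases e : b' = b <;> simp [G, e]
  unfold psiL
  simp only [h1]
  rw [← mul_sum, ← h2]
  simp only [h3]
  rw [prod_ite_eq', if_pos (mem_univ b)]

lemma YStage_lin {T : Type} (s : Finset T) (a : T → ZMod p) (R : ℕ) :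
    ∀ (φ : T → XX M N → ZMod p) (x : XX M N),
      (AJ jj)^[R] (fun y => ∑ i ∈ s, a i * φ i y) x = ∑ i ∈ s, a i * (AJ jj)^[R] (φ i) x := by
  induction R with
  | zero => intro φ x; rfl
  | succ R ih =>
    intro φ x
    have e : AJ jj (fun y => ∑ i ∈ s, a i * φ i y) = fun y => ∑ i ∈ s, a i * AJ jj (φ i) y :=
      funext fun y => AJ_sum s a φ y
    simp only [Function.iterate_succ_apply]
    rw [e, ih]

omit [Fact p.Prime] in
lemma YStage_cut {L a : ℕ} (ha : L ≤ a) {l : ZMod N} (hl : l.val + a < N) (x v : XX M N) :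
    tw (-(a : ZMod N)) (x + cut L v) l = tw (-(a : ZMod N)) x l := by
  have h1 : ((a : ℕ) : ZMod N).val = a := ZMod.val_natCast_of_lt (by omega)
  have h2 : (l + a).val = l.val + a := by
    rw [ZMod.val_add_of_lt (by omega), h1]
  simp only [tw, sub_neg_eq_add, Pi.add_apply, cut]
  rw [if_neg (by omega), add_zero]

lemma YStage_sum {T : Type} {W : Submodule (ZMod p) (XX M N → ZMod p)} (s : Finset T)
    {φ : T → XX M N → ZMod p} (h : ∀ i ∈ s, φ i ∈ W) : (fun x => ∑ i ∈ s, φ i x) ∈ W := by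
  have e : (fun x => ∑ i ∈ s, φ i x) = ∑ i ∈ s, φ i := by
    funext x
    rw [Finset.sum_apply]
  rw [e]
  exact W.sum_mem h

lemma YStage_ite {W : Submodule (ZMod p) (XX M N → ZMod p)} (q : Prop) [Decidable q]
    {φ : XX M N → ZMod p} (h : φ ∈ W) : (fun x => if q then φ x else 0) ∈ W := by
  by_cases hq : q
  · simp only [if_pos hq]
    exact h
  · simp only [if_neg hq]
    exact W.zero_mem

lemma YStage_Dm {s : ℕ} (hs : s ≤ 4 * t + 4) : 7 ^ s * d ≤ Dm t d :=
  Nat.mul_le_mul_right d (Nat.pow_le_pow_right (by norm_num) hs)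

lemma bas_route {s : ℕ} (hs : s < 3 * t + 3) (b : Fin 5) (x : XX M N) :
    cx.bas dir g s b F x = cx.kap dir g b s x * F b x := by
  unfold Cx.bas Cx.Tab
  simp only [if_pos hs]
  exact YStage_marg _ _ b

lemma bas_pure {s : ℕ} (hs : 3 * t + 3 < s) (b : Fin 5) (x : XX M N) :
    cx.bas dir g s b F x = cx.ker x * F b x := by
  unfold Cx.bas Cx.Tab
  simp only [if_neg (show ¬ s < 3 * t + 3 by omega), if_neg (show ¬ s = 3 * t + 3 by omega)]
  exact YStage_marg _ _ b

lemma bas_prod (b : Fin 5) (x : XX M N) : cx.bas dir g (3 * t + 3) b F x =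
    cx.ker x * psiL (fun β => cx.Pt dir g b β x) (fun _ => 1) fun b' => F b' x := by
  unfold Cx.bas Cx.Tab psiL
  simp only [lt_irrefl, if_false, if_true]
  rw [mul_sum]
  exact sum_congr rfl fun β _ => mul_assoc _ _ _

theorem avg_kap (h : cx.Ok χ d) (hf : f ∈ Hn χ cx.g t (LB t jj N) (Dm t d)) (b : Fin 5) (s : ℕ)
    (x : XX M N) : (AJ jj)^[RR t jj N] (fun y => cx.kap dir g b s y * f y) x =
      ∑ e ∈ range (cx.A.ents dir g).length, if cx.fst dir g b s e then
        cx.Phi (fun j => cx.u dir g b e (s + 1 + j)) x *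
          f (setB (LB t jj N) (tw (LB t jj N : ℕ) x) (cx.yy (cx.u dir g b e s))) else 0 := by
  have e : (fun y => cx.kap dir g b s y * f y) = fun y =>
      ∑ e ∈ range (cx.A.ents dir g).length, (if cx.fst dir g b s e then 1 else 0) *
        (cx.ps (cx.u dir g b e s) y *
          cx.Phi (fun j => cx.u dir g b e (s + 1 + j)) (tw (-(LB t jj N : ℕ)) y) * f y) := by
    funext y
    unfold Cx.kap
    rw [sum_mul]
    refine sum_congr rfl fun e _ => ?_
    split_ifs
    · rw [one_mul]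
    · rw [zero_mul, zero_mul]
  rw [e, YStage_lin]
  refine sum_congr rfl fun e _ => ?_
  have hN := h.hN
  rw [avg_rep h hf _ (H := fun y =>
    cx.Phi (fun j => cx.u dir g b e (s + 1 + j)) (tw (-(LB t jj N : ℕ)) y)) fun y v =>
    Hn_dep (Phi_hn h _) fun l hl => YStage_cut le_rfl (by linarith) y v]
  rw [tw_tw, neg_add_cancel, tw_zero]
  split_ifs
  · rw [one_mul]
  · rw [zero_mul]

theorem avg_ker (h : cx.Ok χ d) (hf : f ∈ Hn χ cx.g t (LB t jj N) (Dm t d)) (x : XX M N) :
    (AJ jj)^[RR t jj N] (fun y => cx.ker y * f y) x =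
      ∑ i ∈ range cx.kk, cx.phi i (tw (-(t * LB t jj N : ℕ)) x) *
        f (setB (LB t jj N) (tw (LB t jj N : ℕ) x) (cx.yy i)) := by
  have e : (fun y => cx.ker y * f y) = fun y => ∑ i ∈ range cx.kk, 1 *
      (cx.ps i y * cx.phi i (tw (-((t + 1) * LB t jj N : ℕ)) y) * f y) := by
    funext y
    unfold Cx.ker
    rw [sum_mul]
    exact sum_congr rfl fun e _ => (one_mul _).symm
  rw [e, YStage_lin]
  refine sum_congr rfl fun i _ => ?_
  have hN := h.hN
  rw [avg_rep h hf _ (H := fun y => cx.phi i (tw (-((t + 1) * LB t jj N : ℕ)) y)) fun y v =>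
    Sp0_dep (h.phi_sp i) fun l hl => YStage_cut (Nat.le_mul_of_pos_left _ (Nat.succ_pos t))
      (by linarith) y v]
  have e2 : -(((t + 1) * LB t jj N : ℕ) : ZMod N) + ((LB t jj N : ℕ) : ZMod N) =
      -((t * LB t jj N : ℕ) : ZMod N) := by
    push_cast
    ring
  rw [tw_tw, e2, one_mul]

lemma set_yv (h : cx.Ok χ d) (hf : f ∈ Hn χ cx.g t (LB t jj N) D) (r : ℕ → ℕ) :
    f (setB (LB t jj N) (tw (LB t jj N : ℕ) (cx.yv fun j => r (j + 1))) (cx.yy (r 0))) =
      f (cx.yv r) := by
  refine Hn_dep hf fun l hl => ?_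
  have hN := h.hN
  unfold setB
  by_cases h0 : l.val < LB t jj N
  · rw [if_pos h0, ← yv_blk h r (Nat.zero_le t) h0]
    simp [tw]
  · rw [if_neg h0]
    have hL : 0 < LB t jj N := Nat.pos_of_ne_zero fun e => by simp [e] at hl
    obtain ⟨j, hj⟩ : ∃ j, l.val / LB t jj N = j + 1 :=
      Nat.exists_eq_succ_of_ne_zero (Nat.div_pos (not_lt.1 h0) hL).ne'
    have hjt : j + 1 < t + 1 := by
      rw [← hj]
      exact (Nat.div_lt_iff_lt_mul hL).2 hl
    have hm := Nat.mod_lt l.val hL
    have hv : ((l.val % LB t jj N : ℕ) : ZMod N).val < LB t jj N := by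
      rw [ZMod.val_natCast]
      exact lt_of_le_of_lt (Nat.mod_le _ _) hm
    have e1 := yv_blk h r (j := j + 1) (by omega) hv
    have e2 := yv_blk h (fun j => r (j + 1)) (j := j) (by omega) hv
    have e3 : l = ((l.val % LB t jj N : ℕ) : ZMod N) + (((j + 1) * LB t jj N : ℕ) : ZMod N) := by
      rw [← Nat.cast_add, ← hj, mul_comm, Nat.mod_add_div, ZMod.natCast_zmod_val]
    generalize ((l.val % LB t jj N : ℕ) : ZMod N) = m at e1 e2 e3
    simp only [tw, sub_neg_eq_add] at e1 e2 ⊢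
    rw [e3, e1, ← e2]
    congr 1
    push_cast
    ring

lemma YStage_kap (h : cx.Ok χ d) (hf : f ∈ Hn χ cx.g t (LB t jj N) D) (hD : D ≤ Dm t d)
    (b : Fin 5) (s : ℕ) : (AJ jj)^[RR t jj N] (fun y => cx.kap dir g b s y * f y) ∈
      Hn χ cx.g t (LB t jj N) (d + D) := by
  rw [funext (avg_kap h (Hn_mono hf hD) b s)]
  exact YStage_sum _ fun e _ => YStage_ite _ (Hn_mul (Phi_hn h _) (Hn_set h.hN hf _))

lemma YStage_ker (h : cx.Ok χ d) (hf : f ∈ Hn χ cx.g t (LB t jj N) D) (hD : D ≤ Dm t d) :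
    (AJ jj)^[RR t jj N] (fun y => cx.ker y * f y) ∈ Hn χ cx.g t (LB t jj N) (d + D) := by
  rw [funext (avg_ker h (Hn_mono hf hD))]
  exact YStage_sum _ fun i _ => Hn_mul (Sp0_tw h.hN (h.phi_sp i) le_rfl) (Hn_set h.hN hf _)

theorem stg_hn (h : cx.Ok χ d) (hf : f ∈ Hn χ cx.g t (LB t jj N) d) {s : ℕ} (hs : s ≤ 4 * t + 4)
    (b : Fin 5) : cx.stg dir g f s b ∈ Hn χ cx.g t (LB t jj N) (7 ^ s * d) := by
  induction s generalizing b with
  | zero => simpa [Cx.stg] using hf
  | succ s ih =>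
    have ih' := ih (by omega)
    have h1 : d ≤ 7 ^ s * d := Nat.le_mul_of_pos_left _ (by positivity)
    have h2 : 7 ^ (s + 1) * d = 7 * (7 ^ s * d) := by ring
    have h3 : 7 ^ (s + 1) * d ≤ Dm t d := YStage_Dm hs
    show (AJ jj)^[RR t jj N] (cx.bas dir g s b (cx.stg dir g f s)) ∈ _
    rcases lt_trichotomy s (3 * t + 3) with hlt | heq | hgt
    · rw [funext (bas_route hlt b)]
      exact Hn_mono (YStage_kap h (ih' b) (by omega) b s) (by omega)
    · subst heq
      rw [funext (bas_prod b)]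
      have hG : (fun x => psiL (fun β => cx.Pt dir g b β x) (fun _ => 1)
          fun b' => cx.stg dir g f (3 * t + 3) b' x) ∈
          Hn χ cx.g t (LB t jj N) (d + 5 * (7 ^ (3 * t + 3) * d)) :=
        YStage_sum _ fun β _ => Hn_mul
          (YStage_sum _ fun e _ => YStage_ite _ (Phi_hn h _)) (Hn_psi ih' β)
      exact Hn_mono (YStage_ker h hG (by omega)) (by omega)
    · rw [funext (bas_pure hgt b)]
      exact Hn_mono (YStage_ker h (ih' b) (by omega)) (by omega)

theorem stg_route (h : cx.Ok χ d) (hf : f ∈ Hn χ cx.g t (LB t jj N) d) {s : ℕ}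
    (hs : s ≤ 3 * t + 3) (b : Fin 5) {e : ℕ} (he : e < (cx.A.ents dir g).length) :
    cx.stg dir g f s b (cx.yv fun j => cx.u dir g b e (s + j)) =
      cx.ev f ((cx.A.ent dir g e).ix b) := by
  induction s with
  | zero =>
    show f _ = f _
    congr 1
    refine sum_congr rfl fun j hj => ?_
    simp only [zero_add]
    rw [h.u_src dir g b e he j (Nat.lt_succ_iff.1 (mem_range.1 hj))]
  | succ s ih =>
    have hF := stg_hn (dir := dir) (g := g) h hf (s := s) (by omega) b
    show (AJ jj)^[RR t jj N] (cx.bas dir g s b (cx.stg dir g f s)) _ = _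
    rw [funext (bas_route (by omega) b), avg_kap h (Hn_mono hF (YStage_Dm (by omega))),
      ← ih (by omega)]
    have hex : ∃ e', ∀ j ≤ t, cx.u dir g b e' (s + 1 + j) = cx.u dir g b e (s + 1 + j) :=
      ⟨e, fun _ _ => rfl⟩
    have hle : Nat.find hex ≤ e := Nat.find_min' hex fun _ _ => rfl
    have h0 := Nat.find_spec hex
    have hlt : ∀ e' < (cx.A.ents dir g).length, ∀ j ≤ t, cx.u dir g b e' (s + 1 + j) < cx.kk :=
      fun e' he' j hj => h.u_lt dir g b e' he' _ (by omega)
    have hfst : ∀ e', cx.fst dir g b s e' = true ↔ ∀ e'' < e', ∃ j ≤ t,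
        cx.u dir g b e'' (s + 1 + j) ≠ cx.u dir g b e' (s + 1 + j) := by
      intro e'
      simp only [Cx.fst, List.all_eq_true, List.any_eq_true, List.mem_range, bne_iff_ne,
        Nat.lt_succ_iff]
    rw [sum_eq_single (Nat.find hex)]
    · have h1 : cx.fst dir g b s (Nat.find hex) = true := by
        refine (hfst _).2 fun e'' he'' => ?_
        by_contra hc
        refine Nat.find_min hex he'' fun j hj => ?_
        by_contra hne
        exact hc ⟨j, hj, fun h2 => hne (h2.trans (h0 j hj))⟩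
      rw [if_pos h1, Phi_yv h (hlt _ (by omega)) (hlt e he), if_pos h0, one_mul,
        h.u_fun dir g b _ (by omega) e he s (by omega) h0,
        ← set_yv h hF fun j => cx.u dir g b e (s + j)]
      simp only [add_zero, Nat.add_right_comm s 1, add_assoc]
    · intro e' he' hne
      by_cases h1 : cx.fst dir g b s e' = true
      · rw [if_pos h1, Phi_yv h (hlt _ (mem_range.1 he')) (hlt e he), if_neg, zero_mul]
        intro h2
        obtain ⟨j, hj, h3⟩ := (hfst _).1 h1 _ (lt_of_le_of_ne (Nat.find_min' hex h2) hne.symm)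
        exact h3 ((h0 j hj).trans (h2 j hj).symm)
      · rw [if_neg h1]
    · intro hn
      exact absurd (mem_range.2 (by omega)) hn

end Vale.Agent.P330.B
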