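import Vale.Agent.P330B.YSys
import Vale.Agent.P330B.YStage

/-! States are codewords. -/

namespace Vale.Agent.P330.B

open Finset
open scoped BigOperators

variable {M p c t jj N : ℕ} [Fact M.Prime] [Fact p.Prime] [NeZero N] [NeZero c] {J : Type}
  [Fintype J] {χ : AddChar (ZMod M) (ZMod p)} {cx : Cx M p c t jj N J} {d : ℕ}

lemma cd_aj {g : Fin c → XX M N} {D : ℕ} {S : II N c → Prop} {f : XX M N → ZMod p}
    (hM : (M : ZMod p) ≠ 0) (hj : jj ≤ N) (hf : Cd χ D (dirs g) S f) :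
    Cd χ D (dirs g) (fun i => S (i.1 + jj, i.2)) (AJ jj f) := by
  intro i hi x
  refine KDefs_congr (LD.smul ((M : ZMod p) ^ jj)⁻¹ (LD.sum univ fun (a : Fin jj → ZMod M) _ =>
    ((hf.shift (extJ a)).tw (jj : ZMod N)) i hi x)) fun α => ?_
  rw [AJ_eq hM hj, smul_eq_mul]

lemma cd_ext {g : Fin c → XX M N} {D : ℕ} {S : II N c → Prop} {Θ : XX M N → CC t jj N → ZMod p}
    (hΘ : Cd χ D (dirs g) S Θ) (r : Row t) (n : ℕ) :
    Cd χ D (dirs g) S fun x => ext (Θ x) r n := by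
  by_cases h : n < RR t jj N + 2
  · simp only [ext, dif_pos h]
    exact Cd.pi_iff.1 hΘ _
  · simp only [ext, dif_neg h]
    exact Cd.const 0

section Aux

variable {g : Fin c → XX M N} {D D' : ℕ} {S : II N c → Prop} {f f' : XX M N → ZMod p}

lemma YCd_mul (hf : Cd χ D (dirs g) S f) (hf' : Cd χ D' (dirs g) S f') :
    Cd χ (D + D') (dirs g) S fun x => f x * f' x := fun i hi x => (hf i hi x).mul (hf' i hi x)

lemma YCd_sum {T : Type} (s : Finset T) {F : T → XX M N → ZMod p}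
    (hF : ∀ j ∈ s, Cd χ D (dirs g) S (F j)) : Cd χ D (dirs g) S fun x => ∑ j ∈ s, F j x :=
  fun i hi x => LD.sum s fun j hj => hF j hj i hi x

lemma YCd_prod {T : Type} (s : Finset T) {F : T → XX M N → ZMod p}
    (hF : ∀ j ∈ s, Cd χ D (dirs g) S (F j)) :
    Cd χ (s.card * D) (dirs g) S fun x => ∏ j ∈ s, F j x :=
  fun i hi x => LD.prod s fun j hj => hF j hj i hi x

lemma YCd_ite (P : Prop) [Decidable P] (hf : Cd χ D (dirs g) S f) (hf' : Cd χ D (dirs g) S f') :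
    Cd χ D (dirs g) S fun x => if P then f x else f' x := by
  split_ifs
  · exact hf
  · exact hf'

lemma YCd_dm (t d : ℕ) : d ≤ Dm t d := Nat.le_mul_of_pos_left _ (by positivity)

end Aux

lemma YCd_kap (h : cx.Ok χ d) (dir g : Bool) (b : Fin 5) (s : ℕ) :
    Cd χ (3 * (t + 1) * Dm t d) (dirs cx.g) (fun _ => True) (cx.kap dir g b s) := by
  refine YCd_sum _ fun e _ => YCd_ite _ ?_ (Cd.const 0)
  refine (YCd_mul (Sp0_cd (h.ps_sp _) fun _ => True)
    ((Hn_cd (Phi_hn h _) fun _ => True).tw _)).mono ?_ fun _ _ => trivial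
  have := Nat.mul_le_mul_left (t + 1) (YCd_dm t d)
  nlinarith

lemma YCd_ker (h : cx.Ok χ d) : Cd χ (2 * Dm t d) (dirs cx.g) (fun _ => True) cx.ker := by
  refine YCd_sum _ fun e _ => ?_
  refine (YCd_mul (Sp0_cd (h.ps_sp _) fun _ => True)
    ((Sp0_cd (h.phi_sp _) fun _ => True).tw _)).mono ?_ fun _ _ => trivial
  have := YCd_dm t d
  omega

lemma YCd_Pt (h : cx.Ok χ d) (dir g : Bool) (b : Fin 5) (β : Fin 5 → Bool) :
    Cd χ ((t + 1) * Dm t d) (dirs cx.g) (fun _ => True) (cx.Pt dir g b β) :=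
  YCd_sum _ fun _ _ => YCd_ite _ ((Hn_cd (Phi_hn h _) fun _ => True).mono
    (Nat.mul_le_mul_left (t + 1) (YCd_dm t d)) fun _ _ => trivial) (Cd.const 0)

theorem Tab_cd (h : cx.Ok χ d) (S : II N c → Prop) (dir g : Bool) (s : ℕ) (β : Fin 5 → Bool)
    (b : Fin 5) : Cd χ (3 * (t + 1) * Dm t d) (dirs cx.g) S (cx.Tab dir g s β b) := by
  have h1 : Cd χ (3 * (t + 1) * Dm t d) (dirs cx.g) (fun _ => True) cx.ker :=
    (YCd_ker h).mono (by nlinarith) fun _ _ => trivial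
  have h2 : Cd χ (3 * (t + 1) * Dm t d) (dirs cx.g) (fun _ => True)
      fun x => cx.ker x * cx.Pt dir g b β x :=
    (YCd_mul (YCd_ker h) (YCd_Pt h dir g b β)).mono (by nlinarith) fun _ _ => trivial
  exact (YCd_ite _ (YCd_ite _ (YCd_kap h dir g b s) (Cd.const 0))
    (YCd_ite _ h2 (YCd_ite _ h1 (Cd.const 0)))).mono le_rfl fun _ _ => trivial

theorem bas_cd (h : cx.Ok χ d) {S : II N c → Prop} {D : ℕ} (dir g : Bool) (s : ℕ) (b : Fin 5)
    {f : Fin 5 → XX M N → ZMod p} (hf : ∀ b', Cd χ D (dirs cx.g) S (f b')) :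
    Cd χ (3 * (t + 1) * Dm t d + 5 * D) (dirs cx.g) S (cx.bas dir g s b f) := by
  have h2 := fun β : Fin 5 → Bool => YCd_prod univ fun (b' : Fin 5) _ =>
    YCd_ite (β b' = true) (hf b') ((Cd.const 1).sub (hf b'))
  simp only [card_univ, Fintype.card_fin] at h2
  exact YCd_sum univ fun β _ => YCd_mul (Tab_cd h S dir g s β b) (h2 β)

theorem baseT_cd (h : cx.Ok χ d) {S : II N c → Prop} {Θ : XX M N → CC t jj N → ZMod p}
    (hΘ : Cd χ (DD t d) (dirs cx.g) S Θ) (κ : Ct t) (y : SS t) (b : Fin 5) :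
    Cd χ (6 * DD t d) (dirs cx.g) S (cx.baseT Θ κ y b) := by
  refine (bas_cd h y.1.1 (ing y.1) y.2 b fun b' =>
    Cd.pi_iff.1 hΘ (.inl (inp κ y b'), 0)).mono ?_ fun _ hi => hi
  unfold DD
  nlinarith [Nat.zero_le ((t + 1) * Dm t d)]

lemma YCd_iter {g : Fin c → XX M N} {D : ℕ} {f : XX M N → ZMod p} (hM : (M : ZMod p) ≠ 0)
    (hj : jj ≤ N) (hf : Cd χ D (dirs g) (fun _ => True) f) (n : ℕ) :
    Cd χ D (dirs g) (fun _ => True) ((AJ jj)^[n] f) := by
  induction n with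
  | zero => exact hf
  | succ n ih =>
    rw [Function.iterate_succ_apply']
    exact cd_aj hM hj ih

theorem St_cd (h : cx.Ok χ d) (s : Sta t) :
    Cd χ (DD t d) (dirs cx.g) (fun _ => True) (cx.St s) := by
  refine Cd.pi_iff.2 fun z => ?_
  obtain ⟨r, n⟩ := z
  rcases r with ⟨y, b⟩ | r
  · have h0 : 7 ^ (y.2 : ℕ) * d ≤ Dm t d :=
      Nat.mul_le_mul_right d (Nat.pow_le_pow_right (by norm_num) y.2.2.le)
    have h1 : Cd χ (DD t d) (dirs cx.g) (fun _ => True) (cx.base y b (msg cx.A s y.1)) :=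
      (bas_cd h y.1.1 (ing y.1) y.2 b fun b' =>
        Hn_cd (Hn_mono (stg_hn h (encC_hn h _) y.2.2.le b') h0) _).mono
        (le_of_eq (by unfold DD; ring)) fun _ _ => trivial
    simp only [Cx.St, Cx.StR, stk]
    split_ifs
    · exact YCd_iter h.hMp h.jj_le h1 _
    · exact Cd.const 0
  · cases r
    · exact Cd.const _
    · exact Cd.const _

end Vale.Agent.P330.B
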