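import Vale.Agent.P330B.KPos
import Vale.Agent.P330.YPair
import Vale.Agent.P330.YSys

/-! Arrays in evaluation form and the stages of one machine step. -/

namespace Vale.Agent.P330.B

open Finset
open scoped BigOperators

/-- The length of a chain. -/
def RR (t jj N : ℕ) : ℕ := N / ((t + 2) * jj)

/-- The length of a block. -/
def LB (t jj N : ℕ) : ℕ := jj * RR t jj N

/-- A slot and a stage. -/
abbrev SS (t : ℕ) := Slot × Fin (4 * t + 4)

/-- Rows: five for each slot and stage, the counter (`false`) and the control (`true`). -/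
abbrev Row (t : ℕ) := (SS t × Fin 5) ⊕ Bool

/-- The coordinates of a symbol. -/
abbrev CC (t jj N : ℕ) := Row t × Fin (RR t jj N + 2)

instance instDecCC (t jj N : ℕ) : DecidableEq (CC t jj N) := inferInstance

instance instFinCC (t jj N : ℕ) : Fintype (CC t jj N) := inferInstance

/-- The replica index. -/
abbrev WW (p c t jj N : ℕ) := II N c × (CC t jj N → ZMod p) × Unit

/-- The positions. -/
abbrev PP (M p c t jj N : ℕ) := Pos M (ZMod p) (ZMod N) (II N c) (CC t jj N)

/-- The data that depend on the instance. -/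
structure Cx (M p c t jj N : ℕ) (J : Type) where
  g : Fin c → XX M N
  phi : ℕ → XX M N → ZMod p
  ps : ℕ → XX M N → ZMod p
  yy : ℕ → XX M N
  kk : ℕ
  cp : ℕ → ℕ → ℕ
  u : Bool → Bool → Fin 5 → ℕ → ℕ → ℕ
  A : Mach
  sp : J → Equiv.Perm (WW p c t jj N)

/-- The largest block degree. -/
def Dm (t d : ℕ) : ℕ := 7 ^ (4 * t + 4) * d

/-- The degree on lines. -/
def DD (t d : ℕ) : ℕ := 8 * (t + 1) * Dm t d

/-- The entries of a row: rules in the first row, checks in the other rows. -/
def rowc (A : Mach) (b : Fin 5) (e : ℕ) : Bool := if b = 0 then decide (e < A.k) else decide (A.k ≤ e)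

variable {M p c t jj N : ℕ} [Fact M.Prime] [Fact p.Prime] [NeZero N] {J : Type}
  (χ : AddChar (ZMod M) (ZMod p))

/-- The part of a vector in the block `j` of length `L`. -/
def cutB (L j : ℕ) (β : XX M N) : XX M N :=
  fun l => if j * L ≤ l.val ∧ l.val < (j + 1) * L then β l else 0

/-- The first block is replaced. -/
def setB (L : ℕ) (x y : XX M N) : XX M N := fun l => if l.val < L then y l else x l

/-- A frequency that is small in all directions. -/
def SmV (g : Fin c → XX M N) (D : ℕ) (β : XX M N) : Prop := ∀ i, Small D (ip β (dirs g i))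

/-- Functions of the first block with small frequencies. -/
def Sp0 (g : Fin c → XX M N) (L D : ℕ) : Submodule (ZMod p) (XX M N → ZMod p) :=
  Submodule.span _ {f | ∃ β : XX M N, (∀ l, L ≤ l.val → β l = 0) ∧ SmV g D β ∧
    f = fun x => χ (ip β x)}

/-- Functions of the first `t + 1` blocks with small frequencies in each block. -/
def Hn (g : Fin c → XX M N) (t L D : ℕ) : Submodule (ZMod p) (XX M N → ZMod p) :=
  Submodule.span _ {f | ∃ β : XX M N, (∀ l, (t + 1) * L ≤ l.val → β l = 0) ∧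
    (∀ j ≤ t, SmV g D (cutB L j β)) ∧ f = fun x => χ (ip β x)}

/-- The average over `jj` coordinates. -/
def AJ (jj : ℕ) (φ : XX M N → ZMod p) : XX M N → ZMod p := Aop^[jj] φ

/-- The vector with the given first coordinates. -/
def extJ (α : Fin jj → ZMod M) : XX M N := fun l => if h : l.val < jj then α ⟨l.val, h⟩ else 0

namespace Cx

variable (cx : Cx M p c t jj N J)

/-- The interpolation basis of the grid. -/
def Phi (r : ℕ → ℕ) (x : XX M N) : ZMod p :=
  ∏ j ∈ range (t + 1), cx.phi (r j) (tw (-(j * LB t jj N : ℕ)) x)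

/-- The points of the grid. -/
def yv (r : ℕ → ℕ) : XX M N := ∑ j ∈ range (t + 1), tw (j * LB t jj N : ℕ) (cx.yy (r j))

/-- The encoding of an array. -/
def encC (z : ℕ → ZMod p) (x : XX M N) : ZMod p :=
  ∑ q ∈ range cx.A.K, z q * cx.Phi (cx.cp q) x

/-- The value at a cell. -/
def ev (f : XX M N → ZMod p) (q : ℕ) : ZMod p := f (cx.yv (cx.cp q))

/-- The entry is the first with its window. -/
def fst (dir g : Bool) (b : Fin 5) (s e : ℕ) : Bool :=
  (List.range e).all fun e' => (List.range (t + 1)).any fun j =>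
    cx.u dir g b e' (s + 1 + j) != cx.u dir g b e (s + 1 + j)

/-- The table of a routing stage. -/
def kap (dir g : Bool) (b : Fin 5) (s : ℕ) (x : XX M N) : ZMod p :=
  ∑ e ∈ range (cx.A.ents dir g).length, if cx.fst dir g b s e then
    cx.ps (cx.u dir g b e s) x *
      cx.Phi (fun j => cx.u dir g b e (s + 1 + j)) (tw (-(LB t jj N : ℕ)) x) else 0

/-- The table of an interpolation stage. -/
def ker (x : XX M N) : ZMod p :=
  ∑ i ∈ range cx.kk, cx.ps i x * cx.phi i (tw (-((t + 1) * LB t jj N : ℕ)) x)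

/-- The truth tables. -/
def Pt (dir g : Bool) (b : Fin 5) (β : Fin 5 → Bool) (x : XX M N) : ZMod p :=
  ∑ e ∈ range (cx.A.ents dir g).length,
    if rowc cx.A b e && (cx.A.ent dir g e).tt β then cx.Phi (cx.cp e) x else 0

/-- The table of a stage. -/
def Tab (dir g : Bool) (s : ℕ) (β : Fin 5 → Bool) (b : Fin 5) (x : XX M N) : ZMod p :=
  if s < 3 * t + 3 then (if β b then cx.kap dir g b s x else 0)
  else if s = 3 * t + 3 then cx.ker x * cx.Pt dir g b β x
  else if β b then cx.ker x else 0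

/-- The bottom of the chain of a stage. -/
def bas (dir g : Bool) (s : ℕ) (b : Fin 5) (f : Fin 5 → XX M N → ZMod p) (x : XX M N) : ZMod p :=
  psiL (fun β => cx.Tab dir g s β b x) (fun _ => 1) fun b' => f b' x

/-- The inputs of the stages. -/
def stg (dir g : Bool) (f : XX M N → ZMod p) : ℕ → Fin 5 → XX M N → ZMod p
  | 0 => fun _ => f
  | s + 1 => fun b => (AJ jj)^[RR t jj N] (cx.bas dir g s b (stg dir g f s))

/-- The result of all stages. -/
def outC (dir g : Bool) (b : Fin 5) (z : ℕ → ZMod p) : XX M N → ZMod p :=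
  cx.encC fun e => if e < (cx.A.ents dir g).length ∧ rowc cx.A b e then
    mle (cx.A.ent dir g e) fun _ => z else 0

/-- The requirements on the data. -/
structure Ok [Fintype J] (d : ℕ) : Prop where
  prim : χ.IsPrimitive
  hM : 20000 * (DD t d + 2) ≤ M
  hp : 1000 + 64 * t ≤ p
  hMp : (M : ZMod p) ≠ 0
  hN : (t + 2) * LB t jj N = N
  expd : Expd (dirs cx.g) lam0
  samp : Samp (1 / 256) cx.sp
  phi_sp : ∀ i, cx.phi i ∈ Sp0 χ cx.g (LB t jj N) d
  phi_yy : ∀ i < cx.kk, ∀ j < cx.kk, cx.phi i (cx.yy j) = if i = j then 1 else 0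
  yy_supp : ∀ i l, LB t jj N ≤ l.val → cx.yy i l = 0
  ps_sp : ∀ i, cx.ps i ∈ Sp0 χ cx.g (LB t jj N) (Dm t d)
  ps_rep : ∀ i (β : XX M N), (∀ l, LB t jj N ≤ l.val → β l = 0) → SmV cx.g (Dm t d) β →
    ((M : ZMod p) ^ N)⁻¹ * ∑ v, cx.ps i v * χ (ip β v) = χ (ip β (cx.yy i))
  cp_lt : ∀ q < cx.A.K, ∀ j ≤ t, cx.cp q j < cx.kk
  cp_inj : ∀ q < cx.A.K, ∀ q' < cx.A.K, (∀ j ≤ t, cx.cp q j = cx.cp q' j) → q = q'
  u_lt : ∀ dir g b, ∀ e < (cx.A.ents dir g).length, ∀ s < 4 * t + 4, cx.u dir g b e s < cx.kk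
  u_src : ∀ dir g b, ∀ e < (cx.A.ents dir g).length, ∀ j ≤ t,
    cx.u dir g b e j = cx.cp ((cx.A.ent dir g e).ix b) j
  u_dst : ∀ dir g b, ∀ e < (cx.A.ents dir g).length, ∀ j ≤ t,
    cx.u dir g b e (3 * t + 3 + j) = cx.cp e j
  u_fun : ∀ dir g b, ∀ e < (cx.A.ents dir g).length, ∀ e' < (cx.A.ents dir g).length,
    ∀ s < 3 * t + 3, (∀ j ≤ t, cx.u dir g b e (s + 1 + j) = cx.u dir g b e' (s + 1 + j)) →
      cx.u dir g b e s = cx.u dir g b e' s
  start : cx.A.Start

end Cx

end Vale.Agent.P330.B
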