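import Vale.Agent.P330B.YHnA

/-! The interpolation basis and the averaging tables. -/

namespace Vale.Agent.P330.B

open Finset
open scoped BigOperators

variable {M p c t jj N : ℕ} [Fact M.Prime] [Fact p.Prime] [NeZero N] {J : Type} [Fintype J]
  {χ : AddChar (ZMod M) (ZMod p)} {cx : Cx M p c t jj N J} {d : ℕ}
  {g : Fin c → XX M N} {L D D' : ℕ} {f f' : XX M N → ZMod p}

lemma YHn_val (l : ZMod N) {m : ℕ} (hm : m < N) :
    (l + m).val = l.val + m ∨ (l + m).val + N = l.val + m := by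
  have h1 := ZMod.val_lt l
  rw [ZMod.val_add, ZMod.val_cast_of_lt hm]
  rcases lt_or_ge (l.val + m) N with h | h
  · exact Or.inl (Nat.mod_eq_of_lt h)
  · rw [Nat.mod_eq_sub_mod h, Nat.mod_eq_of_lt (by omega)]
    omega

lemma YHn_ip (β x : XX M N) (m : ZMod N) : ip β (tw m x) = ip (tw (-m) β) x := by
  simp only [ip, tw, sub_neg_eq_add]
  rw [← Equiv.sum_comp (Equiv.addRight m)]
  simp

lemma YHn_sm {β : XX M N} (h : SmV g D β) (m : ZMod N) : SmV g D (tw m β) := fun i => by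
  have h1 := h (-m + i.1, i.2)
  rwa [dirs, ← tw_tw, YHn_ip, neg_neg] at h1

lemma YHn_zero : SmV g D 0 := fun _ => ⟨0, by simp, by simp [ip]⟩

lemma YHn_split (β x y : XX M N) :
    ip β (setB L x y) = ip (cutB L 0 β) y + ip (β - cutB L 0 β) x := by
  simp only [ip, ← sum_add_distrib]
  refine sum_congr rfl fun l _ => ?_
  by_cases hl : l.val < L <;> simp [setB, cutB, hl]

omit [Fact M.Prime] [NeZero N] in
lemma YHn_ind {S : Set (XX M N → ZMod p)} {P : Submodule (ZMod p) (XX M N → ZMod p)}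
    (w : XX M N → ZMod p) (e : XX M N → XX M N) (hS : ∀ s ∈ S, (fun x => w x * s (e x)) ∈ P)
    (hf : f ∈ Submodule.span (ZMod p) S) : (fun x => w x * f (e x)) ∈ P := by
  induction hf using Submodule.span_induction with
  | mem s hs => exact hS s hs
  | zero => simp only [Pi.zero_apply, mul_zero]; exact P.zero_mem
  | add a b _ _ ha hb => simp only [Pi.add_apply, mul_add]; exact P.add_mem ha hb
  | smul a b _ hb =>
    simp only [Pi.smul_apply, smul_eq_mul, mul_left_comm _ a]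
    exact P.smul_mem a hb

lemma YHn_base (hf : f ∈ Sp0 χ g L D) : f ∈ Hn χ g 0 L D := by
  refine Submodule.span_mono ?_ hf
  rintro _ ⟨β, h1, h2, rfl⟩
  refine ⟨β, fun l hl => h1 l (by omega), fun j hj => ?_, rfl⟩
  have h3 : cutB L j β = β := funext fun l => by
    obtain rfl : j = 0 := by omega
    by_cases hl : l.val < L
    · simp [cutB, hl]
    · simp [cutB, h1 l (not_lt.1 hl)]
  rwa [h3]

lemma YHn_step {n : ℕ} (hN : (n + 2) * L ≤ N) (hf : f ∈ Hn χ g n L D) (hf' : f' ∈ Sp0 χ g L D) :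
    (fun x => f x * f' (tw (-(((n + 1) * L : ℕ) : ZMod N)) x)) ∈ Hn χ g (n + 1) L D := by
  refine YHn_ind f _ ?_ hf'
  rintro _ ⟨β', h1, h2, rfl⟩
  simp only [mul_comm (f _)]
  refine YHn_ind _ id ?_ hf
  rintro _ ⟨β, h3, h4, rfl⟩
  have h5 : ∀ l : ZMod N, ¬((n + 1) * L ≤ l.val ∧ l.val < (n + 2) * L) →
      tw (((n + 1) * L : ℕ) : ZMod N) β' l = 0 := fun l hl => h1 _ (by
    rcases Nat.eq_zero_or_pos L with h | h
    · omega
    have h6 := YHn_val (l - (((n + 1) * L : ℕ) : ZMod N)) (m := (n + 1) * L) (by nlinarith)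
    have h7 := ZMod.val_lt l
    rw [sub_add_cancel] at h6
    simp only [add_mul] at *
    omega)
  refine Submodule.subset_span ⟨tw (((n + 1) * L : ℕ) : ZMod N) β' + β, fun l hl => ?_,
    fun j hj => ?_, funext fun x => ?_⟩
  · rw [Pi.add_apply, h5 l fun h => h.2.not_ge hl, h3 l (by simp only [add_mul] at *; omega),
      add_zero]
  · rcases Nat.of_le_succ hj with h | rfl
    · have h6 : (j + 1) * L ≤ (n + 1) * L := Nat.mul_le_mul_right _ (by omega)
      have h7 : cutB L j (tw (((n + 1) * L : ℕ) : ZMod N) β' + β) = cutB L j β := funext fun l => by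
        unfold cutB
        split_ifs with h8
        · rw [Pi.add_apply, h5 l (by omega), zero_add]
        · rfl
      exact h7 ▸ h4 j h
    · have h7 : cutB L (n + 1) (tw (((n + 1) * L : ℕ) : ZMod N) β' + β) =
          tw (((n + 1) * L : ℕ) : ZMod N) β' := funext fun l => by
        unfold cutB
        split_ifs with h8
        · rw [Pi.add_apply, h3 l h8.1, add_zero]
        · exact (h5 l h8).symm
      exact h7.symm ▸ YHn_sm h2 _
  · rw [YHn_ip, neg_neg, ← AddChar.map_add_eq_mul]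
    simp [ip, add_mul, sum_add_distrib]

lemma YHn_blk (h : cx.Ok χ d) (r : ℕ → ℕ) {j : ℕ} (hj : j ≤ t) {l : ZMod N}
    (hl : l.val < LB t jj N) :
    tw (-((j * LB t jj N : ℕ) : ZMod N)) (cx.yv r) l = cx.yy (r j) l := by
  have hN := h.hN
  have h0 : ∀ i ≤ t, i * LB t jj N ≤ t * LB t jj N := fun i hi => Nat.mul_le_mul_right _ hi
  rw [add_mul] at hN
  rw [tw, sub_neg_eq_add, Cx.yv, Finset.sum_apply,
    sum_eq_single_of_mem j (mem_range.2 (by omega)) fun i hi hij => ?_, tw,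
    add_sub_cancel_right]
  refine h.yy_supp _ _ ?_
  have h1 := h0 j hj
  have h2 := h0 i (by rw [mem_range] at hi; omega)
  have h3 := YHn_val l (m := j * LB t jj N) (by omega)
  have h4 := YHn_val (l + ((j * LB t jj N : ℕ) : ZMod N) - ((i * LB t jj N : ℕ) : ZMod N))
    (m := i * LB t jj N) (by omega)
  rw [sub_add_cancel] at h4
  rcases lt_or_gt_of_ne hij with h5 | h5 <;>
  · have h6 := Nat.mul_le_mul_right (LB t jj N) (Nat.succ_le_of_lt h5)
    rw [Nat.succ_mul] at h6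
    omega

lemma YHn_rep (h : cx.Ok χ d) (hf : f ∈ Hn χ cx.g t (LB t jj N) (Dm t d)) (i : ℕ) (x : XX M N) :
    ((M : ZMod p) ^ N)⁻¹ * ∑ v, cx.ps i v * f (setB (LB t jj N) x v) =
      f (setB (LB t jj N) x (cx.yy i)) := by
  induction hf using Submodule.span_induction with
  | mem s hs =>
    obtain ⟨β, -, h2, rfl⟩ := hs
    simp only [YHn_split, AddChar.map_add_eq_mul, ← mul_assoc, ← sum_mul]
    rw [h.ps_rep i (cutB _ 0 β) (fun l hl => if_neg (by omega)) (h2 0 (Nat.zero_le _))]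
  | zero => simp
  | add a b _ _ ha hb => simp only [Pi.add_apply, mul_add, sum_add_distrib, ha, hb]
  | smul a b _ hb =>
    simp only [Pi.smul_apply, smul_eq_mul, mul_left_comm _ a, ← mul_sum, hb]

lemma Phi_hn (h : cx.Ok χ d) (r : ℕ → ℕ) : cx.Phi r ∈ Hn χ cx.g t (LB t jj N) d := by
  have h1 : ∀ n ≤ t, (fun x => ∏ j ∈ range (n + 1),
      cx.phi (r j) (tw (-(j * LB t jj N : ℕ)) x)) ∈ Hn χ cx.g n (LB t jj N) d := fun n hn => by
    induction n with
    | zero => simpa [tw_zero] using YHn_base (h.phi_sp (r 0))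
    | succ n ih =>
      simp only [prod_range_succ _ (n + 1)]
      exact YHn_step ((Nat.mul_le_mul_right _ (by omega)).trans h.hN.le) (ih (by omega))
        (h.phi_sp _)
  exact h1 t le_rfl

lemma Phi_yv (h : cx.Ok χ d) {r r' : ℕ → ℕ} (hr : ∀ j ≤ t, r j < cx.kk)
    (hr' : ∀ j ≤ t, r' j < cx.kk) :
    cx.Phi r (cx.yv r') = if ∀ j ≤ t, r j = r' j then 1 else 0 := by
  rw [Cx.Phi, prod_congr rfl fun j hj => (Sp0_dep (h.phi_sp _) fun l hl =>
    YHn_blk h r' (Nat.lt_succ_iff.1 (mem_range.1 hj)) hl).trans (h.phi_yy _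
      (hr j (Nat.lt_succ_iff.1 (mem_range.1 hj))) _ (hr' j (Nat.lt_succ_iff.1 (mem_range.1 hj)))),
    prod_boole]
  simp only [mem_range, Nat.lt_succ_iff]

lemma yv_blk (h : cx.Ok χ d) (r : ℕ → ℕ) {j : ℕ} (hj : j ≤ t) {l : ZMod N}
    (hl : l.val < LB t jj N) : tw (-((j * LB t jj N : ℕ) : ZMod N)) (cx.yv r) l = cx.yy (r j) l := by
  exact YHn_blk h r hj hl

lemma encC_hn (h : cx.Ok χ d) (z : ℕ → ZMod p) : cx.encC z ∈ Hn χ cx.g t (LB t jj N) d := by
  have h1 : cx.encC z = ∑ q ∈ range cx.A.K, z q • cx.Phi (cx.cp q) := funext fun x => by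
    simp [Cx.encC]
  exact h1 ▸ Submodule.sum_mem _ fun q _ => Submodule.smul_mem _ _ (Phi_hn h _)

lemma ev_encC (h : cx.Ok χ d) (z : ℕ → ZMod p) {q : ℕ} (hq : q < cx.A.K) :
    cx.ev (cx.encC z) q = z q := by
  rw [Cx.ev, Cx.encC, sum_eq_single_of_mem q (mem_range.2 hq) fun q' hq' hne => by
    rw [Phi_yv h (h.cp_lt _ (mem_range.1 hq')) (h.cp_lt _ hq),
      if_neg fun h1 => hne (h.cp_inj _ (mem_range.1 hq') _ hq h1), mul_zero],
    Phi_yv h (h.cp_lt _ hq) (h.cp_lt _ hq), if_pos fun _ _ => rfl, mul_one]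

/-- The reproducing property of the averaging tables. -/
theorem avg_rep (h : cx.Ok χ d) (hf : f ∈ Hn χ cx.g t (LB t jj N) (Dm t d)) (i : ℕ)
    {H : XX M N → ZMod p} (hH : ∀ x v, H (x + cut (LB t jj N) v) = H x) (x : XX M N) :
    (AJ jj)^[RR t jj N] (fun y => cx.ps i y * H y * f y) x =
      H (tw (LB t jj N : ℕ) x) * f (setB (LB t jj N) (tw (LB t jj N : ℕ) x) (cx.yy i)) := by
  have h1 : LB t jj N ≤ N := by
    have := h.hN
    rw [add_mul] at this
    omega
  have h2 : ∀ y v : XX M N, y + cut (LB t jj N) v = setB (LB t jj N) y (y + v) := fun y v =>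
    funext fun l => by by_cases hl : l.val < LB t jj N <;> simp [cut, setB, hl]
  have h3 : ∀ y v : XX M N, cx.ps i (setB (LB t jj N) y v) = cx.ps i v := fun y v =>
    Sp0_dep (h.ps_sp i) fun l hl => if_pos hl
  rw [AJ_iter, ← LB, Aop_iter h.hMp h1, ← YHn_rep h hf, mul_left_comm, mul_sum (a := H _)]
  refine congrArg _ (Fintype.sum_equiv (Equiv.addLeft (tw (LB t jj N : ℕ) x)) _ _ fun v => ?_)
  rw [hH, h2, h3, Equiv.coe_addLeft]
  ring

/-- Substituting the first block and shifting. -/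
theorem Hn_set (hN : (t + 2) * L = N) (hf : f ∈ Hn χ g t L D) (y : XX M N) :
    (fun x => f (setB L (tw (L : ℕ) x) y)) ∈ Hn χ g t L D := by
  have h0 := NeZero.pos N
  have hN' := hN
  rw [add_mul] at hN'
  have h1 : ∀ l : ZMod N, _ := fun l => YHn_val l (m := L) (by omega)
  have h2 := YHn_ind (fun _ => 1) (fun x => setB L (tw (L : ℕ) x) y) (P := Hn χ g t L D) ?_ hf
  · simpa using h2
  rintro _ ⟨β, h3, h4, rfl⟩
  simp only [one_mul, YHn_split, AddChar.map_add_eq_mul, YHn_ip]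
  refine Submodule.smul_mem _ (χ (ip (cutB L 0 β) y)) (Submodule.subset_span
    ⟨tw (-(L : ℕ)) (β - cutB L 0 β), fun l hl => ?_, fun j hj => ?_, rfl⟩)
  · have h5 := h1 l
    have h6 := ZMod.val_lt l
    have h7 := ZMod.val_lt (l + (L : ZMod N))
    rw [add_mul] at hl
    simp only [tw, sub_neg_eq_add, Pi.sub_apply, cutB]
    rw [if_pos (by omega), sub_self]
  · have h5 : cutB L j (tw (-(L : ZMod N)) (β - cutB L 0 β)) =
        tw (-(L : ZMod N)) (cutB L (j + 1) β) :=
      funext fun l => by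
        have h5 := h1 l
        have h6 := ZMod.val_lt l
        have h7 := ZMod.val_lt (l + (L : ZMod N))
        have h8 := Nat.mul_le_mul_right L hj
        simp only [tw, sub_neg_eq_add, Pi.sub_apply, cutB, add_mul]
        split_ifs <;> first | omega | simp
    rw [h5]
    refine YHn_sm ?_ _
    rcases hj.lt_or_eq with h | rfl
    · exact h4 _ h
    · have h6 : cutB L (j + 1) β = 0 := funext fun l => ite_eq_right_iff.2 fun h => h3 l h.1
      exact h6 ▸ YHn_zero

end Vale.Agent.P330.B
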