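import Vale.Agent.P330B.YPure

/-! Results of all stages and edges of the machine. -/

namespace Vale.Agent.P330.B

open Finset
open scoped BigOperators

variable {M p c t jj N : ℕ} [Fact M.Prime] [Fact p.Prime] [NeZero N] {J : Type} [Fintype J]
  {χ : AddChar (ZMod M) (ZMod p)} {cx : Cx M p c t jj N J} {d : ℕ}

lemma outC_congr (h : cx.Ok χ d) (dir g : Bool) (b : Fin 5) {z z' : ℕ → ZMod p}
    (hz : ∀ i < cx.A.k, z i = z' i) : cx.outC dir g b z = cx.outC dir g b z' := by
  refine congrArg cx.encC (funext fun e => ?_)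
  split_ifs with he
  · have h1 : (fun b' => z ((cx.A.ent dir g e).ix b')) = fun b' => z' ((cx.A.ent dir g e).ix b') :=
      funext fun b' => hz _ (h.start.1.ent_ix he.1 b')
    rw [mle, mle, h1]
  · rfl

lemma YPair_kK (h : cx.Ok χ d) {i : ℕ} (hi : i < cx.A.k) : i < cx.A.K := by
  have := h.start.1.ents_len true true
  omega

theorem chain_enc (h : cx.Ok χ d) (dir g : Bool) (b : Fin 5) (z : ℕ → ZMod p) :
    cx.stg dir g (cx.encC z) (4 * t + 4) b = cx.outC dir g b z := by
  rw [chain2 h (encC_hn h z) b]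
  exact outC_congr h dir g b fun i hi => ev_encC h z (YPair_kK h hi)

theorem outC_ok (h : cx.Ok χ d) (dir : Bool) {g : Bool} (b : Fin 5) {w : List Bool}
    (hw : cx.A.ok g w) : cx.outC dir g b (bitv p w) =
      if b = 0 then cx.encC (bitv p (cx.A.step dir w)) else 0 := by
  have hL := (h.start.1.ents_len dir g).1
  unfold Cx.outC
  split_ifs with hb
  · subst hb
    refine congrArg cx.encC (funext fun e => ?_)
    have e1 : rowc cx.A 0 e = decide (e < cx.A.k) := rfl
    rw [e1, bitv]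
    by_cases he : e < cx.A.k
    · rw [if_pos ⟨by omega, decide_eq_true he⟩, mle_bitv, YPair_step h.start.1 dir g w he]
    · rw [if_neg fun h1 => he (of_decide_eq_true h1.2),
        List.getD_eq_default _ _ (by rw [YPair_len h.start.1]; omega), if_neg (by simp)]
  · funext x
    refine sum_eq_zero fun e _ => mul_eq_zero_of_left ?_ _
    refine ite_eq_right_iff.2 fun he => ?_
    have h0 := he.2
    rw [rowc, if_neg hb, decide_eq_true_eq] at h0
    have h1 : (cx.A.ent dir g e).ev w = false := by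
      rcases YPair_ge h.start.1 h0 he.1 with h2 | ⟨i, h2⟩
      · exact hw.2 _ h2
      · rw [h2]
        exact YPair_boolD i w
    rw [mle_bitv, h1]
    simp

theorem encC_inj (h : cx.Ok χ d) {w v : List Bool} (hw : w.length = cx.A.k)
    (hv : v.length = cx.A.k) (e : cx.encC (bitv p w) = cx.encC (bitv p v)) : w = v := by
  refine YPair_bitv (p := p) hw hv fun i hi => ?_
  rw [← ev_encC h (bitv p w) (YPair_kK h hi), e, ev_encC h _ (YPair_kK h hi)]

lemma YPair_chk (h : cx.Ok χ d) {dir g : Bool} {z : ℕ → ZMod p} (e : cx.outC dir g 1 z = 0)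
    {j : ℕ} (hk : cx.A.k ≤ j) (hj : j < (cx.A.ents dir g).length) :
    (mle (cx.A.ent dir g j) fun _ => z) = 0 := by
  have h1 := congrArg (cx.ev · j) e
  have e1 : rowc cx.A 1 j = decide (cx.A.k ≤ j) := rfl
  simp only [Cx.outC] at h1
  rw [ev_encC h _ (hj.trans_le (h.start.1.ents_len dir g).2), e1,
    if_pos ⟨hj, decide_eq_true hk⟩] at h1
  exact h1

lemma YPair_okC (h : cx.Ok χ d) {dir g : Bool} {w : List Bool} (hw : w.length = cx.A.k)
    (e : cx.outC dir g 1 (bitv p w) = 0) : cx.A.ok g w := by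
  refine ⟨hw, fun D hD => ?_⟩
  obtain ⟨j, h1, h2, rfl⟩ := YPair_mem h.start.1 dir (List.mem_append_left _ hD)
  have h3 := YPair_chk h e h1 h2
  rw [mle_bitv] at h3
  simpa using h3

lemma YPair_halfC (h : cx.Ok χ d) {dir g : Bool} {z : ℕ → ZMod p} (e : cx.outC dir g 1 z = 0) :
    ∃ w, cx.A.ok g w ∧ (∀ i < cx.A.k, z i = bitv p w i) ∧
      cx.outC dir g 0 z = cx.encC (bitv p (cx.A.step dir w)) := by
  have h2 : ∀ i < cx.A.k,
      z i = bitv p ((List.range cx.A.k).map fun i => decide (z i = 1)) i := by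
    intro i hi
    obtain ⟨j, a1, a2, a3⟩ := YPair_mem h.start.1 dir (g := g) (D := boolD i)
      (List.mem_append_right _ (List.mem_map_of_mem (List.mem_range.2 hi)))
    have a4 := YPair_chk h e a1 a2
    rw [a3, mle_boolD] at a4
    rw [bitv, List.getD_eq_getElem _ _ (by simpa using hi)]
    simp only [List.getElem_map, List.getElem_range, decide_eq_true_eq]
    split_ifs with a5
    · exact a5
    · exact (mul_eq_zero.1 a4).resolve_right fun a6 => a5 (sub_eq_zero.1 a6).symm
  have h4 := YPair_okC h (by simp) ((outC_congr h dir g 1 h2).symm.trans e)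
  exact ⟨_, h4, h2, by rw [outC_congr h dir g 0 h2, outC_ok h dir 0 h4, if_pos rfl]⟩

theorem ok_of_outC (h : cx.Ok χ d) {dir g : Bool} {w v : List Bool}
    (hw : w.length = cx.A.k) (hv : v.length = cx.A.k)
    (e : cx.outC dir g 0 (bitv p w) = cx.encC (bitv p v)) (e' : cx.outC dir g 1 (bitv p w) = 0) :
    cx.A.ok g w ∧ cx.A.step dir w = v := by
  have h1 := YPair_okC h hw e'
  refine ⟨h1, encC_inj h (YPair_len h.start.1 dir w) hv ?_⟩
  rw [← e, outC_ok h dir 0 h1, if_pos rfl]

/-- Two functions that compute each other encode an edge. -/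
theorem pair_edge (h : cx.Ok χ d) {g : Bool} {f f' : XX M N → ZMod p}
    (h1 : f' = cx.stg true g f (4 * t + 4) 0) (h1' : cx.stg true g f (4 * t + 4) 1 = 0)
    (h2 : f = cx.stg false (!g) f' (4 * t + 4) 0) (h2' : cx.stg false (!g) f' (4 * t + 4) 1 = 0) :
    ∃ w w', cx.A.Edge g w w' ∧ f = cx.encC (bitv p w) ∧ f' = cx.encC (bitv p w') := by
  have n1 : f' ∈ Hn χ cx.g t (LB t jj N) d := Pu_hn h (h1 ▸ stg_pu h f 0)
  have n2 : f ∈ Hn χ cx.g t (LB t jj N) d := Pu_hn h (h2 ▸ stg_pu h f' 0)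
  rw [chain2 h n2] at h1 h1'
  rw [chain2 h n1] at h2 h2'
  obtain ⟨w, a1, a2, a3⟩ := YPair_halfC h h1'
  obtain ⟨w', b1, b2, b3⟩ := YPair_halfC h h2'
  rw [← h1] at a3
  rw [← h2] at b3
  have c1 : cx.A.step true w = w' := by
    refine YPair_bitv (p := p) (YPair_len h.start.1 _ _) b1.1 fun i hi => ?_
    rw [← b2 i hi, a3, ev_encC h _ (YPair_kK h hi)]
  have c2 : cx.A.step false w' = w := by
    refine YPair_bitv (p := p) (YPair_len h.start.1 _ _) a1.1 fun i hi => ?_
    rw [← a2 i hi, b3, ev_encC h _ (YPair_kK h hi)]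
  exact ⟨w, w', ⟨a1, b1, c1, c2⟩, by rw [b3, c2], by rw [a3, c1]⟩

end Vale.Agent.P330.B
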