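import Vale.Agent.P330B.YStage

/-! The last stages interpolate on the grid. -/

namespace Vale.Agent.P330.B

open Finset
open scoped BigOperators

variable {M p c t jj N : ℕ} [Fact M.Prime] [Fact p.Prime] [NeZero N] {J : Type} [Fintype J]
  {χ : AddChar (ZMod M) (ZMod p)} {cx : Cx M p c t jj N J} {d : ℕ}
  {dir g : Bool} {f : XX M N → ZMod p}

/-- The span of the interpolation basis. -/
def Cx.Pu (cx : Cx M p c t jj N J) : Submodule (ZMod p) (XX M N → ZMod p) :=
  Submodule.span _ {f | ∃ r : ℕ → ℕ, (∀ j ≤ t, r j < cx.kk) ∧ f = cx.Phi r}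

/-- One interpolation stage. -/
def Cx.pst (cx : Cx M p c t jj N J) (f : XX M N → ZMod p) : XX M N → ZMod p :=
  (AJ jj)^[RR t jj N] fun y => cx.ker y * f y

theorem Pu_hn (h : cx.Ok χ d) (hf : f ∈ cx.Pu) : f ∈ Hn χ cx.g t (LB t jj N) d := by
  refine Submodule.span_le.2 ?_ hf
  rintro _ ⟨r, -, rfl⟩
  exact Phi_hn h r

omit [NeZero N] [Fintype J] in
lemma YPure_yv {r r' : ℕ → ℕ} (e : ∀ j ≤ t, r j = r' j) : cx.yv r = cx.yv r' :=
  sum_congr rfl fun j hj => by rw [e j (Nat.lt_succ_iff.1 (mem_range.1 hj))]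

omit [NeZero N] [Fintype J] in
lemma YPure_Phi {r r' : ℕ → ℕ} (e : ∀ j ≤ t, r j = r' j) : cx.Phi r = cx.Phi r' :=
  funext fun _ => prod_congr rfl fun j hj => by rw [e j (Nat.lt_succ_iff.1 (mem_range.1 hj))]

/-- The interpolation formula. -/
lemma YPure_rep (h : cx.Ok χ d) (hf : f ∈ cx.Pu) (x : XX M N) :
    f x = ∑ ρ : Fin (t + 1) → Fin cx.kk,
      f (cx.yv fun j => ρ (Fin.ofNat _ j)) * cx.Phi (fun j => ρ (Fin.ofNat _ j)) x := by
  induction hf using Submodule.span_induction with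
  | mem f hf =>
    obtain ⟨r, hr, rfl⟩ := hf
    have h1 : ∀ j ≤ t, r j = r (Fin.ofNat (t + 1) j) := fun j hj => by
      rw [Fin.val_ofNat, Nat.mod_eq_of_lt (Nat.lt_succ_of_le hj)]
    rw [sum_eq_single fun j : Fin (t + 1) => ⟨r j, hr j (Nat.lt_succ_iff.1 j.2)⟩,
      Phi_yv h hr fun j _ => Fin.is_lt _, if_pos h1, one_mul, ← YPure_Phi h1]
    · intro ρ _ hρ
      rw [Phi_yv h hr fun j _ => Fin.is_lt _, if_neg, zero_mul]
      refine fun e => hρ (funext fun j => Fin.ext ?_)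
      have h2 := e j (Nat.lt_succ_iff.1 j.2)
      rw [Fin.ofNat_val_eq_self] at h2
      exact h2.symm
    · exact fun e => (e (mem_univ _)).elim
  | zero => simp
  | add f f' _ _ h1 h2 => simp only [Pi.add_apply, add_mul, sum_add_distrib, ← h1, ← h2]
  | smul a f _ h1 => simp only [Pi.smul_apply, smul_eq_mul, mul_assoc, ← mul_sum, ← h1]

theorem Pu_ext (h : cx.Ok χ d) {f' : XX M N → ZMod p} (hf : f ∈ cx.Pu) (hf' : f' ∈ cx.Pu)
    (e : ∀ r : ℕ → ℕ, (∀ j ≤ t, r j < cx.kk) → f (cx.yv r) = f' (cx.yv r)) : f = f' := by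
  funext x
  rw [YPure_rep h hf, YPure_rep h hf']
  exact sum_congr rfl fun ρ _ => by rw [e _ fun j _ => Fin.is_lt _]

/-- A chain of averages replaces the first block after a rotation. -/
lemma YPure_avg (h : cx.Ok χ d) (φ : XX M N → ZMod p) (x : XX M N) :
    (AJ jj)^[RR t jj N] φ x = ((M : ZMod p) ^ N)⁻¹ *
      ∑ v, φ (setB (LB t jj N) (tw (LB t jj N : ℕ) x) v) := by
  rw [AJ_iter, ← LB, Aop_iter h.hMp (by nlinarith [h.hN])]
  refine congrArg _ (Fintype.sum_equiv (Equiv.addLeft (tw (LB t jj N : ℕ) x)) _ _ fun v =>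
    congrArg φ (funext fun l => ?_))
  simp only [Equiv.coe_addLeft, Pi.add_apply, cut, setB]
  split_ifs
  · rfl
  · exact add_zero _

omit [Fact M.Prime] in
lemma YPure_set {L m : ℕ} (hN : (t + 2) * L = N) {x x' : XX M N}
    (e : ∀ l, l.val < m * L → x l = x' l) (v : XX M N) (l : ZMod N) (hl : l.val < (m + 1) * L) :
    setB L (tw (L : ℕ) x) v l = setB L (tw (L : ℕ) x') v l := by
  simp only [setB, tw]
  split_ifs with h1
  · rfl
  · have h2 : (L : ZMod N).val = L := ZMod.val_cast_of_lt ((not_lt.1 h1).trans_lt l.val_lt)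
    refine e _ ?_
    rw [ZMod.val_sub (by omega), h2]
    rw [add_mul] at hl
    omega

omit [Fact M.Prime] in
lemma YPure_blk {L m : ℕ} (hN : (t + 2) * L = N) (hm : m ≤ t) (x v : XX M N) (l : ZMod N)
    (hl : l.val < L) : tw (-(((m + 1) * L : ℕ) : ZMod N)) (setB L (tw (L : ℕ) x) v) l =
      tw (-((m * L : ℕ) : ZMod N)) x l := by
  have h1 : l.val + (m + 1) * L < N := by nlinarith
  have h2 : (((m + 1) * L : ℕ) : ZMod N).val = (m + 1) * L := ZMod.val_cast_of_lt (by omega)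
  simp only [setB, tw, sub_neg_eq_add]
  rw [if_neg (by rw [ZMod.val_add_of_lt (by omega), h2, add_mul]; omega)]
  refine congrArg x ?_
  push_cast
  ring

/-- Products of basis functions of the last blocks with functions of the first `m` blocks. -/
def YPureT (cx : Cx M p c t jj N J) (m : ℕ) : Submodule (ZMod p) (XX M N → ZMod p) :=
  Submodule.span _ {f | ∃ (r : ℕ → ℕ) (G : XX M N → ZMod p), (∀ j ≤ t, m ≤ j → r j < cx.kk) ∧
    (∀ x x', (∀ l, l.val < m * LB t jj N → x l = x' l) → G x = G x') ∧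
    f = fun x => (∏ j ∈ Ico m (t + 1), cx.phi (r j) (tw (-(j * LB t jj N : ℕ)) x)) * G x}

lemma YPure_step (h : cx.Ok χ d) {m : ℕ} (hm : m ≤ t) (hf : f ∈ YPureT cx (m + 1)) :
    cx.pst f ∈ YPureT cx m := by
  induction hf using Submodule.span_induction with
  | mem f hf =>
    obtain ⟨r, G, hr, hG, rfl⟩ := hf
    obtain ⟨y, hy⟩ : ∃ y : XX M N → XX M N → XX M N,
        ∀ x v, setB (LB t jj N) (tw (LB t jj N : ℕ) x) v = y x v := ⟨_, fun _ _ => rfl⟩
    have h1 : ∀ i, ∀ j ≤ t, ∀ x v, cx.phi i (tw (-((j + 1) * LB t jj N : ℕ)) (y x v)) =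
        cx.phi i (tw (-(j * LB t jj N : ℕ)) x) := fun i j hj x v =>
      Sp0_dep (h.phi_sp i) fun l hl => by rw [← hy, YPure_blk h.hN hj x v l hl]
    have h2 : (cx.pst fun x => (∏ j ∈ Ico (m + 1) (t + 1),
        cx.phi (r j) (tw (-(j * LB t jj N : ℕ)) x)) * G x) = ∑ i ∈ range cx.kk, fun x =>
        (∏ j ∈ Ico m (t + 1), cx.phi (if j = t then i else r (j + 1))
          (tw (-(j * LB t jj N : ℕ)) x)) *
          (((M : ZMod p) ^ N)⁻¹ * ∑ v, cx.ps i (y x v) * G (y x v)) := by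
      funext x
      rw [Cx.pst, YPure_avg h, Finset.sum_apply]
      simp only [hy, Cx.ker, sum_mul (range cx.kk), h1 _ t le_rfl]
      rw [sum_comm, mul_sum]
      refine sum_congr rfl fun i _ => ?_
      rw [prod_Ico_succ_top hm, if_pos rfl, mul_sum, mul_sum, mul_sum]
      refine sum_congr rfl fun v _ => ?_
      have h3 : ∏ j ∈ Ico (m + 1) (t + 1), cx.phi (r j) (tw (-(j * LB t jj N : ℕ)) (y x v)) =
          ∏ j ∈ Ico m t, cx.phi (if j = t then i else r (j + 1))
            (tw (-(j * LB t jj N : ℕ)) x) := by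
        rw [← prod_Ico_add' _ m t 1]
        exact prod_congr rfl fun j hj => by
          rw [h1 _ j (mem_Ico.1 hj).2.le x v, if_neg (mem_Ico.1 hj).2.ne]
      rw [h3]
      ring
    rw [h2]
    refine Submodule.sum_mem _ fun i hi => Submodule.subset_span
      ⟨_, _, fun j hj hj' => ?_, fun x x' e => ?_, rfl⟩
    · split_ifs with h3
      · exact mem_range.1 hi
      · exact hr _ (by omega) (by omega)
    · refine congrArg _ (sum_congr rfl fun v _ => ?_)
      have h3 := YPure_set h.hN e v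
      simp only [hy] at h3
      rw [hG _ _ h3, Sp0_dep (h.ps_sp i) fun l hl => h3 l (by rw [add_mul]; omega)]
  | zero =>
    have h1 : cx.pst 0 = 0 := funext fun x => by simp [Cx.pst, YPure_avg h]
    rw [h1]
    exact zero_mem _
  | add f f' _ _ h1 h2 =>
    have h3 : cx.pst (f + f') = cx.pst f + cx.pst f' := funext fun x => by
      simp only [Cx.pst, YPure_avg h, Pi.add_apply, mul_add, sum_add_distrib]
    rw [h3]
    exact add_mem h1 h2
  | smul a f _ h1 =>
    have h3 : cx.pst (a • f) = a • cx.pst f := funext fun x => by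
      simp only [Cx.pst, YPure_avg h, Pi.smul_apply, smul_eq_mul, mul_left_comm _ a, ← mul_sum]
    rw [h3]
    exact Submodule.smul_mem _ a h1

/-- After all interpolation stages the function is in the span of the basis. -/
theorem pst_pu (h : cx.Ok χ d)
    (hf : ∀ x x', (∀ l, l.val < (t + 1) * LB t jj N → x l = x' l) → f x = f x') :
    cx.pst^[t + 1] f ∈ cx.Pu := by
  have h1 : ∀ n m, n + m = t + 1 → cx.pst^[n] f ∈ YPureT cx m := fun n => by
    induction n with
    | zero =>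
      intro m hm
      rw [zero_add] at hm
      subst hm
      exact Submodule.subset_span ⟨fun _ => 0, f, fun j _ _ => by omega, hf, by simp⟩
    | succ n ih =>
      intro m hm
      rw [Function.iterate_succ_apply']
      exact YPure_step h (by omega) (ih _ (by omega))
  refine Submodule.span_le.2 ?_ (h1 (t + 1) 0 rfl)
  rintro _ ⟨r, G, hr, hG, rfl⟩
  have h2 : (fun x => (∏ j ∈ Ico 0 (t + 1), cx.phi (r j) (tw (-(j * LB t jj N : ℕ)) x)) * G x) =
      G 0 • cx.Phi r := funext fun x => by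
    rw [hG x 0 fun l hl => by omega, mul_comm, ← range_eq_Ico]
    rfl
  rw [h2]
  exact Submodule.smul_mem _ _ (Submodule.subset_span ⟨r, fun j hj => hr j hj j.zero_le, rfl⟩)

lemma YPure_hn (h : cx.Ok χ d) {D : ℕ} (hD : D ≤ Dm t d) (hf : f ∈ Hn χ cx.g t (LB t jj N) D) :
    cx.pst f ∈ Hn χ cx.g t (LB t jj N) (d + D) := by
  have h1 : cx.pst f = ∑ i ∈ range cx.kk, fun x => cx.phi i (tw (-(t * LB t jj N : ℕ)) x) *
      f (setB (LB t jj N) (tw (LB t jj N : ℕ) x) (cx.yy i)) := funext fun x => by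
    rw [Cx.pst, avg_ker h (Hn_mono hf hD), Finset.sum_apply]
  rw [h1]
  exact Submodule.sum_mem _ fun i _ =>
    Hn_mul (Sp0_tw h.hN (h.phi_sp i) le_rfl) (Hn_set h.hN hf _)

lemma YPure_one (h : cx.Ok χ d) (hf : f ∈ Hn χ cx.g t (LB t jj N) (Dm t d)) {r : ℕ → ℕ}
    (hr : r 0 < cx.kk) (e : r (t + 1) = r 0) :
    cx.pst f (cx.yv fun j => r (j + 1)) = f (cx.yv r) := by
  have h1 : ∀ i < cx.kk, cx.phi i (tw (-(t * LB t jj N : ℕ)) (cx.yv fun j => r (j + 1))) =
      if i = r 0 then 1 else 0 := fun i hi => by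
    rw [Sp0_dep (h.phi_sp i) fun l hl => yv_blk h _ le_rfl hl, e, h.phi_yy i hi _ hr]
  rw [Cx.pst, avg_ker h hf, sum_eq_single_of_mem (r 0) (mem_range.2 hr), h1 _ hr, if_pos rfl,
    one_mul, set_yv h hf]
  intro i hi h2
  rw [h1 i (mem_range.1 hi), if_neg h2, zero_mul]

lemma YPure_val (h : cx.Ok χ d) (n : ℕ) : ∀ {D : ℕ} {f : XX M N → ZMod p} {r : ℕ → ℕ},
    D + n * d ≤ Dm t d → f ∈ Hn χ cx.g t (LB t jj N) D → (∀ j, r j < cx.kk) →
    (∀ j, r (j + (t + 1)) = r j) → cx.pst^[n] f (cx.yv fun j => r (j + n)) = f (cx.yv r) := by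
  induction n with
  | zero => exact fun _ _ _ _ => rfl
  | succ n ih =>
    intro D f r hD hf hr e
    rw [add_mul] at hD
    rw [Function.iterate_succ_apply, ← YPure_one h (Hn_mono hf (by omega)) (hr 0)
      (by rw [← e 0, zero_add])]
    exact ih (r := fun j => r (j + 1)) (by omega) (YPure_hn h (by omega) hf) (fun j => hr _)
      fun j => by rw [← e (j + 1), add_right_comm]

theorem pst_val (h : cx.Ok χ d) {D : ℕ} (hD : D + (t + 1) * d ≤ Dm t d)
    (hf : f ∈ Hn χ cx.g t (LB t jj N) D) {r : ℕ → ℕ} (hr : ∀ j ≤ t, r j < cx.kk) :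
    cx.pst^[t + 1] f (cx.yv r) = f (cx.yv r) := by
  have h1 := YPure_val h (t + 1) (r := fun j => r (j % (t + 1))) hD hf
    (fun j => hr _ (Nat.lt_succ_iff.1 (Nat.mod_lt _ t.succ_pos))) fun j => by
      rw [Nat.add_mod_right]
  simp only [Nat.add_mod_right] at h1
  rwa [YPure_yv (r' := r) fun j hj => by rw [Nat.mod_eq_of_lt (Nat.lt_succ_of_le hj)]] at h1

lemma stg_last (f : XX M N → ZMod p) (b : Fin 5) : cx.stg dir g f (4 * t + 4) b =
    cx.pst^[t + 1] fun x => psiL (fun β => cx.Pt dir g b β x) (fun _ => 1)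
      fun b' => cx.stg dir g f (3 * t + 3) b' x := by
  have h1 : ∀ n, cx.stg dir g f (3 * t + 3 + n + 1) b = cx.pst^[n + 1] fun x =>
      psiL (fun β => cx.Pt dir g b β x) (fun _ => 1) fun b' =>
        cx.stg dir g f (3 * t + 3) b' x := fun n => by
    induction n with
    | zero => exact congrArg _ (funext fun x => bas_prod b x)
    | succ n ih =>
      rw [Function.iterate_succ_apply', ← ih]
      exact congrArg _ (funext fun x => bas_pure (by omega) b x)
  rw [← h1 t, show 3 * t + 3 + t + 1 = 4 * t + 4 by omega]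

lemma YPure_Pt (h : cx.Ok χ d) (b : Fin 5) (β : Fin 5 → Bool) :
    cx.Pt dir g b β ∈ Hn χ cx.g t (LB t jj N) d := by
  have h1 : cx.Pt dir g b β = ∑ e ∈ range (cx.A.ents dir g).length,
      if rowc cx.A b e && (cx.A.ent dir g e).tt β then cx.Phi (cx.cp e) else 0 :=
    funext fun x => by simp only [Cx.Pt, Finset.sum_apply, ite_apply, Pi.zero_apply]
  rw [h1]
  exact Submodule.sum_mem _ fun e _ => ite_mem.2 ⟨fun _ => Phi_hn h _, fun _ => zero_mem _⟩

theorem stg_pu (h : cx.Ok χ d) (f : XX M N → ZMod p) (b : Fin 5) :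
    cx.stg dir g f (4 * t + 4) b ∈ cx.Pu := by
  rw [stg_last]
  refine pst_pu h fun x x' e => ?_
  have h1 : ∀ b', cx.stg dir g f (3 * t + 3) b' x = cx.stg dir g f (3 * t + 3) b' x' := fun b' => by
    refine (YPure_avg h _ x).trans (Eq.trans ?_ (YPure_avg h _ x').symm)
    refine congrArg _ (sum_congr rfl fun v _ => congrArg _ (funext fun l => ?_))
    exact YPure_set h.hN e v l (l.val_lt.trans_eq h.hN.symm)
  simp only [h1, fun β => Hn_dep (YPure_Pt (dir := dir) (g := g) h b β) e]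

/-- The stages compute one machine step. -/
theorem chain2 (h : cx.Ok χ d) (hf : f ∈ Hn χ cx.g t (LB t jj N) d) (b : Fin 5) :
    cx.stg dir g f (4 * t + 4) b = cx.outC dir g b (cx.ev f) := by
  have hK := (h.start.1.ents_len dir g).2
  have h1 : cx.outC dir g b (cx.ev f) = ∑ e ∈ range cx.A.K,
      (if e < (cx.A.ents dir g).length ∧ rowc cx.A b e then
        mle (cx.A.ent dir g e) fun _ => cx.ev f else 0) • cx.Phi (cx.cp e) :=
    funext fun x => by simp only [Cx.outC, Cx.encC, Finset.sum_apply, Pi.smul_apply, smul_eq_mul]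
  refine Pu_ext h (stg_pu h f b) ?_ fun r hr => ?_
  · rw [h1]
    exact Submodule.sum_mem _ fun e he => Submodule.smul_mem _ _
      (Submodule.subset_span ⟨_, h.cp_lt e (mem_range.1 he), rfl⟩)
  have h2 : (fun x => psiL (fun β => cx.Pt dir g b β x) (fun _ => 1) fun b' =>
      cx.stg dir g f (3 * t + 3) b' x) = ∑ β : Fin 5 → Bool, fun x => cx.Pt dir g b β x *
        ∏ b', if β b' then cx.stg dir g f (3 * t + 3) b' x
          else 1 - cx.stg dir g f (3 * t + 3) b' x :=
    funext fun x => by rw [Finset.sum_apply, psiL]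
  have h3 : d + 5 * (7 ^ (3 * t + 3) * d) + (t + 1) * d ≤ Dm t d := by
    have h4 : 3 * t + 3 < 7 ^ (3 * t + 3) := Nat.lt_pow_self (by norm_num)
    have h5 : 7 ^ (3 * t + 3 + 1) ≤ 7 ^ (4 * t + 4) := Nat.pow_le_pow_right (by norm_num) (by omega)
    refine le_trans (le_of_eq (by ring)) (Nat.mul_le_mul_right d
      (show 1 + 5 * 7 ^ (3 * t + 3) + (t + 1) ≤ _ by omega))
  rw [stg_last, pst_val h h3 _ hr]
  swap
  · rw [h2]
    exact Submodule.sum_mem _ fun β _ =>
      Hn_mul (YPure_Pt h b β) (Hn_psi (fun b' => stg_hn h hf (by omega) b') β)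
  rw [Cx.outC, Cx.encC, ← sum_subset (range_subset_range.2 hK) fun e _ he => by
    rw [if_neg fun h4 => he (mem_range.2 h4.1), zero_mul]]
  simp only [psiL, Cx.Pt, sum_mul]
  rw [sum_comm]
  refine sum_congr rfl fun e he => ?_
  rw [mem_range] at he
  rw [Phi_yv h (h.cp_lt e (he.trans_le hK)) hr]
  by_cases h4 : ∀ j ≤ t, cx.cp e j = r j
  · have h5 : ∀ b', cx.stg dir g f (3 * t + 3) b' (cx.yv r) = cx.ev f ((cx.A.ent dir g e).ix b') :=
      fun b' => by
        rw [← stg_route h hf le_rfl b' he]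
        exact congrArg _ (YPure_yv fun j hj => by rw [h.u_dst dir g b' e he j hj, h4 j hj])
    cases h6 : rowc cx.A b e
    · simp
    · simp only [if_pos h4, h5, he, mle, psiL, Bool.true_and, and_self, if_true, mul_one]
  · simp [if_neg h4]

end Vale.Agent.P330.B
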