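import Vale.Agent.P330B.YSys
import Vale.Agent.P330B.YHn

/-! The values read in a Hadamard word. -/

namespace Vale.Agent.P330.B

open Finset
open scoped BigOperators

variable {M p c t jj N : ℕ} [Fact M.Prime] [Fact p.Prime] [NeZero N] [NeZero c] {J : Type}
  [Fintype J] {χ : AddChar (ZMod M) (ZMod p)} {cx : Cx M p c t jj N J} {d : ℕ}
  {Θ : XX M N → CC t jj N → ZMod p} {z : PP M p c t jj N} {κ : Ct t} {j : ℕ}

lemma code_inj (hp : 1000 + 64 * t ≤ p) : Function.Injective (code (t := t) p) := by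
  rintro ⟨⟨a, i⟩, u⟩ ⟨⟨b, k⟩, v⟩ h
  have h1 := i.2
  have h2 := k.2
  have h3 := a.toNat_le
  have h4 := b.toNat_le
  have b1 : ∀ m : ℕ, m ≤ 7 → ∀ w : Fin (4 * t + 4), m * (4 * t + 4) + w.val < p := fun m hm w => by
    have := Nat.mul_le_mul_right (4 * t + 4) hm
    have := w.2
    omega
  simp only [code] at h
  rw [ZMod.natCast_eq_natCast_iff', Nat.mod_eq_of_lt (b1 _ (by omega) u),
    Nat.mod_eq_of_lt (b1 _ (by omega) v)] at h
  have h7 := congrArg (· % (4 * t + 4)) h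
  simp only [Nat.mul_add_mod_self_right, Nat.mod_eq_of_lt u.2, Nat.mod_eq_of_lt v.2] at h7
  rw [h7, Nat.add_right_cancel_iff, Nat.mul_left_inj (by omega)] at h
  have h5 : i = k := Fin.ext (by omega)
  have h6 : a.toNat = b.toNat := by omega
  rw [h5, Fin.ext h7]
  congr 2
  revert h6
  cases a <;> cases b <;> simp

lemma ext_val (a : CC t jj N → ZMod p) (r : Row t) (s : Fin (RR t jj N + 2)) :
    ext a r s = a (r, s) := by
  simp [ext]

lemma YRd_k0 (a : CC t jj N → ZMod p) (s : ℕ) : Fac.ev a s (fK 0) = 0 := by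
  simp [Fac.ev, fK]

lemma YRd_k1 (a : CC t jj N → ZMod p) (s : ℕ) : Fac.ev a s (fK 1) = 1 := by
  simp [Fac.ev, fK]

lemma YRd_k2 (a : CC t jj N → ZMod p) (s : ℕ) : Fac.ev a s (fK 2) = if s = 0 then 1 else 0 := by
  simp [Fac.ev, fK, posB]

lemma YRd_k3 (a : CC t jj N → ZMod p) (s : ℕ) :
    Fac.ev a s (fK 3) = if s = RR t jj N + 1 then 1 else 0 := by
  simp [Fac.ev, fK, posB]

lemma YRd_a0 (a : CC t jj N → ZMod p) (s : ℕ) (r : Row t) :
    Fac.ev a s (fA r 0) = if s = 0 then 0 else ext a r (s - 1) := by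
  simp [Fac.ev, fA]

lemma YRd_a1 (a : CC t jj N → ZMod p) (s : ℕ) (r : Row t) :
    Fac.ev a s (fA r 1) = ext a r s := by
  simp [Fac.ev, fA]

lemma YRd_a2 (a : CC t jj N → ZMod p) (s : ℕ) (r : Row t) :
    Fac.ev a s (fA r 2) = ext a r (s + 1) := by
  simp [Fac.ev, fA]

lemma YRd_top (a : CC t jj N → ZMod p) (r : Row t) : ext a r (RR t jj N + 2) = 0 := by
  simp [ext]

lemma YRd_pick (a : CC t jj N → ZMod p) (r : Row t) (n : ℕ) :
    ∑ s : Fin (RR t jj N + 2), (if s.val = n then 1 else 0) * a (r, s) = ext a r n := by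
  unfold ext
  split_ifs with h
  · rw [Fintype.sum_eq_single (⟨n, h⟩ : Fin (RR t jj N + 2))]
    · rw [if_pos rfl, one_mul]
    · intro s hs
      rw [if_neg fun h => hs (Fin.ext h), zero_mul]
  · exact sum_eq_zero fun s _ => by rw [if_neg (by have := s.2; omega), zero_mul]

lemma YRd_mu {a : CC t jj N → ZMod p} (hj : j ≤ RR t jj N + 1)
    (hμ : ∀ s, a (.inr false, s) = if s.val = j then 1 else 0) (n : ℕ) :
    ext a (.inr false) n = if n = j then 1 else 0 := by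
  unfold ext
  by_cases h : n < RR t jj N + 2
  · rw [dif_pos h, hμ]
  · rw [dif_neg h, if_neg (by omega)]

lemma YRd_shift {n : ℕ} (u v : ℕ → ZMod p) (h : v (n + 1) = 0) :
    ∑ s : Fin (n + 1), (if s.val = 0 then 0 else u (s - 1)) * v s =
      ∑ s : Fin (n + 1), u s * v (s + 1) := by
  rw [Fin.sum_univ_eq_sum_range (fun s => (if s = 0 then 0 else u (s - 1)) * v s),
    Fin.sum_univ_eq_sum_range (fun s => u s * v (s + 1)), sum_range_succ', sum_range_succ, h]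
  simp

lemma YRd_ext0 : extJ (0 : Fin jj → ZMod M) = (0 : XX M N) := by
  funext l
  simp [extJ]

lemma YRd_xa (α : Fin jj → ZMod M) (x : XX M N) (i : II N c) :
    cx.xa (true, α, 0) x i = tw (jj : ZMod N) x + extJ α := by
  simp [Cx.xa]

lemma rh_eq (q : QQ M t jj J) : cx.rh χ Θ z q = hw Θ (cx.adF χ q z) := rfl

lemma xa_xd0 (x : XX M N) (i : II N c) : cx.xa xd0 x i = x := by
  simp [Cx.xa, xd0, tw_zero, YRd_ext0]

lemma xa_line (α : ZMod M) (x : XX M N) (i : II N c) :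
    cx.xa (false, 0, α) x i = x + α • dirs cx.g i := by
  simp [Cx.xa, tw_zero, YRd_ext0]

lemma own_rh : own (cx.rh χ Θ z) = hw Θ z := by
  show hw Θ (cx.xa xd0 z.1 z.2.2.1, z.2) = hw Θ z
  rw [xa_xd0]

lemma val_rh (xd : XD M jj) (pd : PD t) :
    val (cx.rh χ Θ z) xd pd = ∑ y, pd.ev z.2.1 y * Θ (cx.xa xd z.1 z.2.2.1) y := by
  show ∑ y, (pd.ev z.2.1 y + z.2.2.2.1 y) * Θ (cx.xa xd z.1 z.2.2.1) y -
    ∑ y, (pdZ.ev z.2.1 y + z.2.2.2.1 y) * Θ (cx.xa xd z.1 z.2.2.1) y = _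
  rw [← sum_sub_distrib]
  refine sum_congr rfl fun y _ => ?_
  rw [show pdZ.ev z.2.1 y = 0 from (congrArg (· * _) (YRd_k0 _ _)).trans (zero_mul _)]
  ring

lemma val_pd1 (xd : XD M jj) (r : Row t) (f f' : Fac t) : val (cx.rh χ Θ z) xd (pd1 r f f') =
    ∑ s : Fin (RR t jj N + 2),
      Fac.ev z.2.1 s f * Fac.ev z.2.1 s f' * Θ (cx.xa xd z.1 z.2.2.1) (r, s) := by
  rw [val_rh, Fintype.sum_prod_type, Fintype.sum_eq_single r]
  · simp only [PD.ev, pd1, if_true]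
  · intro r' hr
    simp only [PD.ev, pd1, if_neg hr, YRd_k0, zero_mul, sum_const_zero]

lemma val_row (xd : XD M jj) (r r' : Row t) : val (cx.rh χ Θ z) xd (pd1 r (fA r' 1) (fK 1)) =
    ∑ s, z.2.1 (r', s) * Θ (cx.xa xd z.1 z.2.2.1) (r, s) := by
  simp only [val_pd1, YRd_a1, YRd_k1, mul_one, ext_val]

lemma val_row2 (xd : XD M jj) (r r' r'' : Row t) :
    val (cx.rh χ Θ z) xd (pd1 r (fA r' 1) (fA r'' 1)) =
      ∑ s, z.2.1 (r', s) * z.2.1 (r'', s) * Θ (cx.xa xd z.1 z.2.2.1) (r, s) := by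
  simp only [val_pd1, YRd_a1, ext_val]

lemma val_dn (xd : XD M jj) (r r' : Row t) : val (cx.rh χ Θ z) xd (pd1 r (fA r' 0) (fK 1)) =
    ∑ s : Fin (RR t jj N + 2), z.2.1 (r', s) * ext (Θ (cx.xa xd z.1 z.2.2.1)) r (s + 1) := by
  simp only [val_pd1, YRd_a0, YRd_k1, mul_one, ← ext_val]
  exact YRd_shift _ _ (YRd_top _ _)

lemma val_one (xd : XD M jj) (r : Row t) :
    val (cx.rh χ Θ z) xd (pd1 r (fK 1) (fK 1)) = ∑ s, Θ (cx.xa xd z.1 z.2.2.1) (r, s) := by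
  simp only [val_pd1, YRd_k1, one_mul]

lemma at0_rh (r : Row t) : at0 (cx.rh χ Θ z) r = Θ z.1 (r, 0) := by
  simp only [at0, val_pd1, YRd_k2, YRd_k1, mul_one, YRd_pick, xa_xd0]
  exact ext_val _ r 0

lemma muB_rh' (top : Bool) :
    muB (cx.rh χ Θ z) top = ext (Θ z.1) (.inr false) (posB (RR t jj N) top) := by
  cases top
  · simp only [muB, val_pd1, Bool.false_eq_true, if_false, YRd_k2, YRd_k1, mul_one, YRd_pick,
      xa_xd0, posB]
  · simp only [muB, val_pd1, if_true, YRd_k3, YRd_k1, mul_one, YRd_pick, xa_xd0, posB]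

lemma basev_rh (κ : Ct t) (y : SS t) (b : Fin 5) :
    basev (cx.tab z) (cx.rh χ Θ z) κ y b = cx.baseT Θ κ y b z.1 := by
  simp only [basev, at0_rh]
  rfl

lemma Aval_dn (hM : (M : ZMod p) ≠ 0) (hj : jj ≤ N) (r : Row t) :
    Aval (cx.rh χ Θ z) (pd1 r (fA r 0) (fK 1)) =
      ∑ s : Fin (RR t jj N + 2), z.2.1 (r, s) * AJ jj (fun y => ext (Θ y) r (s + 1)) z.1 := by
  simp only [Aval, val_dn, YRd_xa, AJ_eq hM hj, mul_sum]
  rw [sum_comm]
  exact sum_congr rfl fun s _ => sum_congr rfl fun α _ => mul_left_comm _ _ _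

lemma Aval_at0 (hM : (M : ZMod p) ≠ 0) (hj : jj ≤ N) (r : Row t) :
    Aval (cx.rh χ Θ z) (pd1 r (fK 2) (fK 1)) = AJ jj (fun y => Θ y (r, 0)) z.1 := by
  have e : ∀ xd, val (cx.rh χ Θ z) xd (pd1 r (fK 2) (fK 1)) =
      Θ (cx.xa xd z.1 z.2.2.1) (r, 0) := fun xd => by
    simp only [val_pd1, YRd_k2, YRd_k1, mul_one, YRd_pick]
    exact ext_val _ r 0
  simp only [Aval, e, YRd_xa, AJ_eq hM hj]

lemma val_push (σ : SS t) : val (cx.rh χ Θ z) xd0 (pdS σ 2) =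
    ∑ y : CC t jj N, z.2.1 y * if mov σ y.1 then
      (if y.2.val = 0 then 0 else ext (Θ z.1) y.1 (y.2 - 1)) else Θ z.1 y := by
  rw [val_rh, xa_xd0, Fintype.sum_prod_type, Fintype.sum_prod_type]
  refine sum_congr rfl fun r _ => ?_
  cases h : mov σ r
  · simp only [PD.ev, pdS, h, Bool.false_eq_true, if_false, YRd_a1, YRd_k1, mul_one, ext_val]
  · simp only [PD.ev, pdS, h, if_true, YRd_a2, YRd_k1, mul_one, ← ext_val]
    simp only [mul_comm (ext z.2.1 r _)]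
    exact (YRd_shift _ _ (YRd_top _ _)).symm

lemma val_pop (σ : SS t) : val (cx.rh χ Θ z) xd0 (pdS σ 0) =
    ∑ y : CC t jj N, z.2.1 y * if mov σ y.1 then ext (Θ z.1) y.1 (y.2 + 1) else Θ z.1 y := by
  rw [val_rh, xa_xd0, Fintype.sum_prod_type, Fintype.sum_prod_type]
  refine sum_congr rfl fun r _ => ?_
  cases h : mov σ r
  · simp only [PD.ev, pdS, h, Bool.false_eq_true, if_false, YRd_a1, YRd_k1, mul_one, ext_val]
  · simp only [PD.ev, pdS, h, if_true, YRd_a0, YRd_k1, mul_one, ← ext_val]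
    exact YRd_shift _ _ (YRd_top _ _)

lemma gam_rh (hp : 1000 + 64 * t ≤ p) (hc : Θ z.1 (.inr true, 0) = code p κ) :
    gam (cx.rh χ Θ z) = κ := by
  have e : at0 (cx.rh χ Θ z) (.inr true) = code p κ := by rw [at0_rh, hc]
  have h : ∃ κ' : Ct t, code p κ' = at0 (cx.rh χ Θ z) (.inr true) := ⟨κ, e.symm⟩
  rw [gam, dif_pos h]
  exact code_inj hp (h.choose_spec.trans e)

lemma muB_rh (hj : j ≤ RR t jj N + 1)
    (hμ : ∀ s, Θ z.1 (.inr false, s) = if s.val = j then 1 else 0) (top : Bool) :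
    muB (cx.rh χ Θ z) top = if j = posB (RR t jj N) top then 1 else 0 := by
  rw [muB_rh', YRd_mu hj hμ]
  simp only [eq_comm]

lemma tmF_rh (hp : 1000 + 64 * t ≤ p) (hc : Θ z.1 (.inr true, 0) = code p κ)
    (hj : j ≤ RR t jj N + 1) (hμ : ∀ s, Θ z.1 (.inr false, s) = if s.val = j then 1 else 0) :
    tmF (cx.rh χ Θ z) = (tv (RR t jj N) (toff κ) j : ℕ) := by
  have e : ∑ s : Fin (RR t jj N + 2), ((tv (RR t jj N) (toff κ) s : ℕ) : ZMod p) *
      Θ z.1 (.inr false, s) = (tv (RR t jj N) (toff κ) j : ℕ) := by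
    rw [Fintype.sum_eq_single (⟨j, by omega⟩ : Fin (RR t jj N + 2))]
    · rw [hμ, if_pos rfl, mul_one]
    · intro s hs
      rw [hμ, if_neg fun h => hs (Fin.ext h), mul_zero]
  have h4 : tv (RR t jj N) (toff κ) j < 4 := Nat.mod_lt _ (by norm_num)
  rw [tmF, gam_rh hp hc, val_pd1, xa_xd0]
  simp only [YRd_k1, mul_one]
  simp only [Fac.ev]
  rw [e, ZMod.val_cast_of_lt (by omega)]

lemma Jv_rh (hj : j ≤ RR t jj N + 1)
    (hμ : ∀ s, Θ z.1 (.inr false, s) = if s.val = j then 1 else 0) (κ : Ct t) (y : SS t)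
    (b : Fin 5) : Jv (cx.tab z) (cx.rh χ Θ z) κ y b = ∑ s : Fin (RR t jj N + 2),
      z.2.1 (.inl (y, b), s) * if s + 1 = hgt (RR t jj N) κ j y then 1 else 0 := by
  unfold Jv hgt
  by_cases h1 : y = actS κ
  · rw [if_pos h1, if_pos h1, val_dn, xa_xd0]
    simp only [YRd_mu hj hμ]
  rw [if_neg h1, if_neg h1]
  by_cases h2 : fullS κ y = true
  · rw [if_pos h2, if_pos h2]
    simp only [Nat.add_right_cancel_iff, mul_comm (z.2.1 _), YRd_pick]
    rfl
  · rw [if_neg h2, if_neg h2]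
    simp

end Vale.Agent.P330.B
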