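import Vale.Agent.P330B.YCd
import Vale.Agent.P330.YTest

/-! Tests on codewords that pass often pass always. -/

namespace Vale.Agent.P330.B

open Finset
open scoped BigOperators

variable {M p c t jj N : ℕ} [Fact M.Prime] [Fact p.Prime] [NeZero N] [NeZero c] {J : Type}
  [Fintype J] {χ : AddChar (ZMod M) (ZMod p)} {cx : Cx M p c t jj N J} {d : ℕ}
  {D : ℕ} {S : II N c → Prop}

omit [NeZero c] in
lemma ytest_zero (h : cx.Ok χ d) (hD : D ≤ 6 * DD t d) (hS : 1 / 2 ≤ pr S) {V : Type}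
    [AddCommGroup V] [Module (ZMod p) V] {f : XX M N → V} (hf : Cd χ D (dirs cx.g) S f)
    (h0 : f ≠ 0) : pr (fun x => f x = 0) ≤ 1 / 10 := by
  have h1 : (20000 * (DD t d + 2) : ℝ) ≤ M := by exact_mod_cast h.hM
  have h2 : (D : ℝ) ≤ 6 * DD t d := by exact_mod_cast hD
  have h3 : (0 : ℝ) ≤ DD t d := Nat.cast_nonneg _
  have h4 : (2 * D / M : ℝ) ≤ 1 / 20 := by
    rw [div_le_iff₀ (by linarith)]
    linarith
  refine (Cd.zeros h.prim h.expd (by unfold lam0; positivity) hS hf h0).trans ?_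
  unfold lam0
  linarith [show (2 * (1 / 10 ^ 30) : ℝ) ≤ 1 / 20 by norm_num]

omit [NeZero c] in
lemma ytest_lin (h : cx.Ok χ d) (hD : D ≤ 6 * DD t d) (hS : 1 / 2 ≤ pr S)
    {E : XX M N → Fin (RR t jj N + 2) → ZMod p} (hE : Cd χ D (dirs cx.g) S E) (h0 : E ≠ 0) :
    pr (fun q : XX M N × (Fin (RR t jj N + 2) → ZMod p) => ∑ s, q.2 s * E q.1 s = 0) ≤ 3 / 5 := by
  have h1 := ytest_zero h hD hS hE h0
  rw [pr_prod]
  refine (ex_mono (g := fun x => ind (E x = 0) + 1 / 2) fun x => ?_).trans ?_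
  · by_cases hx : E x = 0
    · rw [ind_pos hx]
      exact (pr_le_one _).trans (by norm_num)
    · rw [ind_neg hx, zero_add]
      exact lin_half (v := E x) hx
  · rw [ex_add, ex_const]
    unfold pr at h1
    linarith

lemma ytest_sub {V I : Type} [Fintype I] {s : I → XX M N} {lam : ℝ} (hs : Expd s lam)
    {E : XX M N → V} (h : lam < pr fun i => ∀ x, E (x + s i) = E x) (x x' : XX M N) :
    E x = E x' := by
  let W : AddSubgroup (XX M N) :=
    { carrier := {v | ∀ x, E (x + v) = E x}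
      add_mem' := fun {a b} ha hb x => by rw [← add_assoc, hb, ha]
      zero_mem' := fun x => by rw [add_zero]
      neg_mem' := fun {a} ha x => by rw [← ha, neg_add_cancel_right] }
  by_contra hn
  have h1 : AddSubgroup.toZModSubmodule M W < ⊤ := lt_top_iff_ne_top.2 fun e => hn (by
    have h2 : x - x' ∈ AddSubgroup.toZModSubmodule M W := e ▸ Submodule.mem_top
    have h3 := h2 x'
    rwa [add_sub_cancel] at h3)
  obtain ⟨f, h2, h3⟩ := Submodule.exists_le_ker_of_lt_top _ h1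
  have h4 : ∀ v, ip (fun l => f fun j => if l = j then 1 else 0) v = f v := fun v => by
    rw [LinearMap.pi_apply_eq_sum_univ f v, ip]
    exact sum_congr rfl fun l _ => mul_comm _ _
  refine absurd h (not_lt.2 (le_trans (pr_mono fun i hi => ?_)
    (hs (fun l => f fun j => if l = j then 1 else 0) fun e => h2 ?_)))
  · exact (h4 _).trans (h3 hi)
  · refine LinearMap.ext fun v => ?_
    rw [← h4, e]
    simp [ip]

theorem pt_test (h : cx.Ok χ d) (hD : D ≤ 6 * DD t d) (hS : 1 / 2 ≤ pr S) {f : XX M N → ZMod p}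
    (hf : Cd χ D (dirs cx.g) S f) (ht : 9 / 10 ≤ pr fun z : PP M p c t jj N => f z.1 = 0) :
    ∀ x, f x = 0 := by
  by_contra h0
  have h1 := ytest_zero h hD hS hf fun e => h0 (congrFun e)
  rw [pr_fst fun x => f x = 0] at ht
  linarith

theorem lin_test (h : cx.Ok χ d) (hD : D ≤ 6 * DD t d) (hS : 1 / 2 ≤ pr S) (r : Row t)
    {E : XX M N → Fin (RR t jj N + 2) → ZMod p} (hE : Cd χ D (dirs cx.g) S E)
    (ht : 9 / 10 ≤ pr fun z : PP M p c t jj N => ∑ s, z.2.1 (r, s) * E z.1 s = 0) :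
    ∀ x s, E x s = 0 := by
  by_contra h0
  have h1 := ytest_lin h hD hS hE fun e => h0 fun x s => congrFun (congrFun e x) s
  rw [← yt_marg (fun z : PP M p c t jj N => (z.1, fun s => z.2.1 (r, s))) (fun _ _ => rfl)
    fun y => ⟨(y.1, fun z => y.2 z.2, 0), rfl⟩] at h1
  linarith

theorem dir_test (h : cx.Ok χ d) (hD : D ≤ 6 * DD t d) (hS : 1 / 2 ≤ pr S) (r : Row t)
    {E : XX M N → Fin (RR t jj N + 2) → ZMod p} (hE : Cd χ D (dirs cx.g) S E)
    (ht : 9 / 10 ≤ pr fun z : PP M p c t jj N =>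
      ∑ s, z.2.1 (r, s) * E (z.1 + dirs cx.g z.2.2.1) s = ∑ s, z.2.1 (r, s) * E z.1 s) :
    ∀ x x', E x = E x' := by
  refine ytest_sub h.expd ?_
  have h1 : 9 / 10 ≤ pr fun q : II N c × XX M N × (Fin (RR t jj N + 2) → ZMod p) =>
      ∑ s, q.2.2 s * E (q.2.1 + dirs cx.g q.1) s = ∑ s, q.2.2 s * E q.2.1 s := by
    rw [← yt_marg (fun z : PP M p c t jj N => (z.2.2.1, z.1, fun s => z.2.1 (r, s)))
      (fun _ _ => rfl) fun y => ⟨(y.2.1, fun z => y.2.2 z.2, y.1, 0), rfl⟩]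
    exact ht
  rw [pr_prod] at h1
  have h2 := h1.trans (ex_mono
    (g := fun i => 2 / 5 * ind (∀ x, E (x + dirs cx.g i) = E x) + 3 / 5) fun i => by
      by_cases hx : ∀ x, E (x + dirs cx.g i) = E x
      · rw [ind_pos hx]
        exact (pr_le_one _).trans (by norm_num)
      · rw [ind_neg hx, mul_zero, zero_add]
        refine le_trans (pr_mono fun q hq => ?_) (ytest_lin h hD hS
          ((hE.shift (dirs cx.g i)).sub hE) fun e => hx fun x => sub_eq_zero.1 (congrFun e x))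
        simp only [Pi.sub_apply, mul_sub, sum_sub_distrib]
        exact sub_eq_zero.2 hq)
  rw [ex_add, ex_mul, ex_const] at h2
  unfold pr lam0
  linarith [show (1 / 10 ^ 30 : ℝ) ≤ 1 / 20 by norm_num]

theorem hot_test {μ : Fin (RR t jj N + 2) → ZMod p}
    (ht : 9 / 10 ≤ pr fun z : PP M p c t jj N =>
      ∑ s, z.2.1 (.inr false, s) * z.2.1 (.inr true, s) * μ s =
        (∑ s, z.2.1 (.inr false, s) * μ s) * ∑ s, z.2.1 (.inr true, s) * μ s)
    (h1 : ∑ s, μ s = 1) : ∃ j ≤ RR t jj N + 1, ∀ s, μ s = if s.val = j then 1 else 0 := by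
  obtain ⟨j, hj⟩ := one_hot (μ := μ) (by
    rw [← yt_marg (fun z : PP M p c t jj N =>
      ((fun s => z.2.1 (.inr false, s)), fun s => z.2.1 (.inr true, s))) (fun _ _ => rfl)
      fun y => ⟨(0, fun z => if z.1 = .inr false then y.1 z.2 else y.2 z.2, 0), by simp⟩]
    exact lt_of_lt_of_le (by norm_num) ht) h1
  exact ⟨j, Nat.lt_succ_iff.1 j.2, fun s => by simp only [hj s, Fin.ext_iff]⟩

end Vale.Agent.P330.B
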