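import Vale.Agent.P330B.YRd
import Vale.Agent.P330B.YTest

/-! Completeness and soundness of the tests on Hadamard words. -/

namespace Vale.Agent.P330.B

variable {M p c t jj N : ℕ} [Fact M.Prime] [Fact p.Prime] [NeZero N] [NeZero c] {J : Type}
  [Fintype J] {χ : AddChar (ZMod M) (ZMod p)} {cx : Cx M p c t jj N J} {d : ℕ}
  {Θ : XX M N → CC t jj N → ZMod p} {κ : Ct t} {j : ℕ} {S : II N c → Prop} {τ : Bool}

omit [Fact M.Prime] [NeZero N] in
lemma YRel_hot (hj : j ≤ RR t jj N + 1) (a : Fin (RR t jj N + 2) → ZMod p) :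
    ∑ s : Fin (RR t jj N + 2), a s * (if s.val = j then 1 else 0) = a ⟨j, by omega⟩ := by
  rw [Finset.sum_eq_single ⟨j, by omega⟩]
  · simp
  · intro s _ hs
    rw [if_neg fun e => hs (Fin.ext e), mul_zero]
  · simp

lemma YRel_hgt {R : ℕ} (hj : j ≤ R + 1) (y : SS t) : hgt R κ j y ≤ R + 1 := by
  unfold hgt
  split_ifs <;> omega

theorem tstA_hw {D : ℕ} (hΘ : Cd χ D (dirs cx.g) (fun _ => True) Θ) (z : PP M p c t jj N) :
    TstA χ (cx.rh χ Θ z) D := by
  refine ⟨fun j => ?_, ?_, ?_⟩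
  · rw [own_rh, rh_eq]
    simp only [Cx.adF, orbF_zero]
    rfl
  · rw [own_rh, rh_eq, rh_eq]
    simp only [Cx.adF, hw, xa_xd0, ← Finset.sum_add_distrib]
    refine Finset.sum_congr rfl fun y _ => ?_
    have : PD.ev pdZ z.2.1 y = 0 := by simp [PD.ev, pdZ, fK, Fac.ev]
    rw [Pi.add_apply, Pi.add_apply, this]
    ring
  · refine KDefs_congr (LD.sum Finset.univ fun y _ =>
      (LD.pi_iff.1 (hΘ z.2.2.1 trivial z.1) y).smul (z.2.1 y)) fun α => ?_
    rw [rh_eq]
    simp only [Cx.adF, hw, xa_line, smul_eq_mul]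

theorem tstB_rel (h : cx.Ok χ d) (h1 : cx.Rel κ j Θ) (h2 : Cx.RelE κ j Θ) (z : PP M p c t jj N) :
    TstB (cx.tab z) (cx.rh χ Θ z) (par (tv (RR t jj N) (toff κ) j : ℕ)) := by
  have hc : Θ z.1 (.inr true, 0) = code p κ := by rw [h1.ctl]; simp
  have hg := gam_rh (cx := cx) (χ := χ) h.hp hc
  refine ⟨fun b => ?_, ?_, ?_, ?_, ?_, ?_, fun σ b => ?_, fun dir => ?_,
    fun hm dir b hd hd' => ?_⟩
  · rw [val_row, val_row]
    cases b
    · simp only [h1.mu]
    · simp only [h1.ctl]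
  · rw [hg, at0_rh, hc]
  · rw [val_row, at0_rh, xa_xd0, hc, Finset.sum_eq_single 0]
    · rw [hc]
      exact congrArg (· * code p κ) (ext_val z.2.1 (.inr true) 0).symm
    · intro s _ hs
      rw [h1.ctl, if_neg fun e : s.val = 0 => hs (Fin.ext e), mul_zero]
    · simp
  · rw [tmF_rh h.hp hc h1.le (h1.mu _)]
  · rw [val_row2, val_row, val_row]
    simp only [h1.mu, YRel_hot h1.le]
  · rw [val_one]
    have := YRel_hot (p := p) h1.le fun _ => 1
    simpa only [h1.mu, one_mul] using this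
  · rw [val_row, Aval_dn h.hMp h.jj_le, hg, Jv_rh h1.le (h1.mu _), basev_rh, xa_xd0,
      Finset.sum_mul, ← Finset.sum_add_distrib]
    refine Finset.sum_congr rfl fun s _ => ?_
    rw [← ext_val (Θ z.1), h1.stk]
    split_ifs <;> ring
  · rw [hg, at0_rh]
    exact h1.zero dir _
  · rw [hg] at hd hd' ⊢
    rw [at0_rh, at0_rh]
    rw [muB_rh h1.le (h1.mu _)] at hm
    refine h2 ?_ dir b hd hd' _
    by_contra hj
    rw [if_neg (by simpa [posB] using hj)] at hm
    exact zero_ne_one hm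

lemma YRel_pr {P : Type} [Fintype P] [Nonempty P] {T A : P → Prop}
    (ht : pr (fun z => ¬T z) ≤ 1 / 100) (h : ∀ z, T z → A z) : 9 / 10 ≤ pr A := by
  rw [pr_not] at ht
  linarith [pr_mono h]

omit [Fact M.Prime] [Fact p.Prime] in
lemma YRel_three (hS : pr (fun i => ¬S i) ≤ 1 / 100) (m m' : ZMod N) :
    1 / 2 ≤ pr fun i : II N c => S i ∧ S (i.1 + m, i.2) ∧ S (i.1 + m', i.2) := by
  have h1 := pr_le_add3 (A := fun i : II N c => ¬(S i ∧ S (i.1 + m, i.2) ∧ S (i.1 + m', i.2)))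
    (B := fun i => ¬S i) (C := fun i => ¬S (i.1 + m, i.2)) (D := fun i => ¬S (i.1 + m', i.2))
    fun i hi => by tauto
  rw [pr_shift (fun i => ¬S i) m, pr_shift (fun i => ¬S i) m', pr_not] at h1
  linarith

theorem ctl_of_tst (h : cx.Ok χ d) (hS : pr (fun i => ¬S i) ≤ 1 / 100)
    (hΘ : Cd χ (DD t d) (dirs cx.g) S Θ)
    (ht : pr (fun z => ¬TstB (cx.tab z) (cx.rh χ Θ z) τ) ≤ 1 / 100) :
    ∃ (κ : Ct t) (j : ℕ), j ≤ RR t jj N + 1 ∧
      (∀ x s, Θ x (.inr false, s) = if s.val = j then 1 else 0) ∧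
      (∀ x s, Θ x (.inr true, s) = if s.val = 0 then code p κ else 0) ∧
      par (tv (RR t jj N) (toff κ) j : ℕ) = τ := by
  have hS' : 1 / 2 ≤ pr S := by linarith [YRel_pr hS fun _ h => h]
  have hc : ∀ b x s, Θ x (.inr b, s) = Θ 0 (.inr b, s) := fun b x s => by
    have := dir_test h (D := DD t d) (by omega) hS' (.inr b)
      (E := fun x s => Θ x (.inr b, s)) (Cd.pi_iff.2 fun s => Cd.pi_iff.1 hΘ (.inr b, s))
      (YRel_pr ht fun z hz => by
        have := hz.cst b
        rwa [val_row, val_row, xa_line, xa_xd0, one_smul] at this) x 0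
    exact congrFun this s
  obtain ⟨z0, h0⟩ := exists_of_pr_pos (lt_of_lt_of_le (by norm_num) (YRel_pr ht fun _ h => h))
  have hκ := h0.ctl
  have hpar := h0.par
  have hone := h0.one
  rw [at0_rh] at hκ
  generalize gam (cx.rh χ Θ z0) = κ at hκ
  have h1 := lin_test h (D := 0) (by omega) hS' (.inr true)
    (E := fun _ s => Θ 0 (.inr true, s) - if s.val = 0 then code p κ else 0) (Cd.const _)
    (YRel_pr ht fun z hz => by
      have e := hz.rest
      rw [val_row, at0_rh, xa_xd0, hc true z.1, ← hc true z0.1, ← hκ] at e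
      simp only [hc true z.1] at e
      simp only [mul_sub, Finset.sum_sub_distrib, e]
      rw [Finset.sum_eq_single 0 (fun s _ hs => by
        rw [if_neg fun e : s.val = 0 => hs (Fin.ext e), mul_zero]) (by simp), sub_eq_zero]
      exact congrArg (· * code p κ) (ext_val z.2.1 (.inr true) 0))
  obtain ⟨j, hj, h2⟩ := hot_test (M := M) (c := c) (μ := fun s => Θ 0 (.inr false, s))
    (YRel_pr ht fun z hz => by
      have e := hz.hot
      rw [val_row2, val_row, val_row] at e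
      simpa only [xa_xd0, hc false z.1] using e)
    (by
      rw [val_one] at hone
      simpa only [xa_xd0, hc false z0.1] using hone)
  refine ⟨κ, j, hj, fun x s => (hc false x s).trans (h2 s),
    fun x s => (hc true x s).trans (sub_eq_zero.1 (h1 0 s)), ?_⟩
  rw [← tmF_rh (cx := cx) (χ := χ) h.hp hκ.symm hj fun s => (hc false _ s).trans (h2 s)]
  exact hpar

theorem rel_of_tst (h : cx.Ok χ d) (hS : pr (fun i => ¬S i) ≤ 1 / 100)
    (hΘ : Cd χ (DD t d) (dirs cx.g) S Θ)
    (ht : pr (fun z => ¬TstB (cx.tab z) (cx.rh χ Θ z) τ) ≤ 1 / 100) :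
    ∃ κ j, cx.Rel κ j Θ ∧ Cx.RelE κ j Θ ∧ par (tv (RR t jj N) (toff κ) j : ℕ) = τ := by
  have hS' : 1 / 2 ≤ pr S := by linarith [YRel_pr hS fun _ h => h]
  obtain ⟨κ, j, hj, hμ, hc, hτ⟩ := ctl_of_tst h hS hΘ ht
  have hg : ∀ z : PP M p c t jj N, gam (cx.rh χ Θ z) = κ := fun z =>
    gam_rh h.hp (by rw [hc]; simp)
  refine ⟨κ, j, ⟨hj, hμ, hc, fun σ b x s => ?_, fun dir x => ?_⟩,
    fun hj' dir b hd hd' x => ?_, hτ⟩
  · by_cases hs : s < RR t jj N + 2
    · have := lin_test h (D := 6 * DD t d) le_rfl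
        (YRel_three hS (jj : ZMod N) 0) (.inl (σ, b))
        (E := fun x s => ext (Θ x) (.inl (σ, b)) s -
          AJ jj (fun y => ext (Θ y) (.inl (σ, b)) (s + 1)) x -
          if s.val + 1 = hgt (RR t jj N) κ j σ then cx.baseT Θ κ σ b x else 0)
        (Cd.pi_iff.2 fun s => by
          refine (((cd_ext hΘ _ _).mono (by omega) fun i hi => hi.1).sub
            ((cd_aj h.hMp h.jj_le (cd_ext hΘ _ _)).mono (by omega) fun i hi => hi.2.1)).sub ?_
          split_ifs
          · exact (baseT_cd h hΘ κ σ b).mono le_rfl fun i hi => hi.1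
          · exact Cd.const _)
        (YRel_pr ht fun z hz => by
          have e := hz.stk σ b
          rw [val_row, Aval_dn h.hMp h.jj_le, hg, Jv_rh hj (hμ _), basev_rh, xa_xd0,
            Finset.sum_mul, ← Finset.sum_add_distrib, ← sub_eq_zero,
            ← Finset.sum_sub_distrib] at e
          refine Eq.trans (Finset.sum_congr rfl fun s _ => ?_) e
          rw [ext_val]
          split_ifs <;> ring) x ⟨s, hs⟩
      rw [sub_sub, sub_eq_zero] at this
      exact this
    · have e : (fun y => ext (Θ y) (.inl (σ, b)) (s + 1)) = 0 :=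
        funext fun y => dif_neg (by omega)
      have := YRel_hgt (κ := κ) hj σ
      rw [e, AJ_zero, if_neg (by omega), ext, dif_neg hs]
      simp
  · refine pt_test h (D := DD t d) (by omega) hS'
      (f := fun x => Θ x (.inl (((dir, κ.1.1), lastS t), 1), 0)) (Cd.pi_iff.1 hΘ _)
      (YRel_pr ht fun z hz => ?_) x
    have e := hz.zero dir
    rwa [hg, at0_rh] at e
  · refine sub_eq_zero.1 (pt_test h (D := DD t d) (by omega) hS'
      (f := fun x => Θ x (.inl (((dir, !κ.1.1), lastS t), b), 0) -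
        Θ x (.inl (((!dir, κ.1.1), lastS t), b), 0))
      ((Cd.pi_iff.1 hΘ _).sub (Cd.pi_iff.1 hΘ _)) (YRel_pr ht fun z hz => ?_) x)
    have e := hz.eq (by rw [muB_rh hj (hμ _), if_pos (by simpa [posB] using hj')]) dir b
      (by rw [hg]; exact hd) (by rw [hg]; exact hd')
    rw [hg, at0_rh, at0_rh] at e
    exact sub_eq_zero.2 e

end Vale.Agent.P330.B
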