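import Vale.Agent.P330B.YPair
import Vale.Agent.P330B.YRd

/-! States satisfy the relations. -/

namespace Vale.Agent.P330.B

variable {M p c t jj N : ℕ} [Fact M.Prime] [Fact p.Prime] [NeZero N] [NeZero c] {J : Type}
  [Fintype J] {χ : AddChar (ZMod M) (ZMod p)} {cx : Cx M p c t jj N J} {d : ℕ}
  {s s' : Sta t}

lemma ysta_hgt {R : ℕ} {κ : Ct t} {j : ℕ} (hj : j ≤ R + 1) (y : SS t) :
    hgt R κ j y ≤ R + 1 := by
  unfold hgt
  split_ifs <;> omega

lemma ext_St (hs : s.2.1 ≤ RR t jj N + 1) (x : XX M N) (r : Row t) (n : ℕ) :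
    ext (cx.St s x) r n = cx.StR s x r n := by
  unfold ext
  split_ifs with h
  · rfl
  · rcases r with z | _ | _
    · have h1 := ysta_hgt (κ := s.1) hs z.1
      simp only [Cx.StR, stk, if_neg (show ¬n < hgt (RR t jj N) s.1 s.2.1 z.1 by omega),
        Pi.zero_apply]
    · simp only [Cx.StR, if_neg (show ¬n = s.2.1 by omega)]
    · simp only [Cx.StR, if_neg (show ¬n = 0 by omega)]

lemma top_full {y : SS t} (hy : hgt (RR t jj N) s.1 s.2.1 y = RR t jj N + 1) (b : Fin 5) :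
    Cx.top (cx.St s) (y, b) =
      cx.stg y.1.1 (ing y.1) (cx.encC (bitv p (msg cx.A s y.1))) (y.2 + 1) b := by
  funext x
  show stk jj (cx.base y b (msg cx.A s y.1)) (hgt (RR t jj N) s.1 s.2.1 y) 0 x = _
  rw [hy, stk, if_pos (Nat.succ_pos _)]
  rfl

lemma ysta_src (κ : Ctl) (σ : Slot) : src κ σ ≠ act κ ∧ full κ (src κ σ) = true := by
  revert κ σ
  decide

lemma ysta_act (κ : Ctl) : full κ (act κ) = false := by
  revert κ
  decide

lemma ysta_msg {A : Mach} (hs : A.Edge s.1.1.1 s.2.2.1 s.2.2.2) (σ : Slot) :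
    A.ok (ing (src s.1.1 σ)) (msg A s (src s.1.1 σ)) ∧
      A.step (src s.1.1 σ).1 (msg A s (src s.1.1 σ)) = msg A s σ := by
  obtain ⟨⟨⟨π, ph⟩, q⟩, j, w, w'⟩ := s
  obtain ⟨dir, g⟩ := σ
  obtain ⟨h1, h2, h3, h4⟩ := hs
  fin_cases ph <;> cases π <;> cases dir <;> cases g <;>
    simp_all [src, ing, msg, Mach.msg]

lemma ysta_out (h : cx.Ok χ d) {σ : Slot}
    (hσ : hgt (RR t jj N) s.1 s.2.1 (σ, lastS t) = RR t jj N + 1) (b : Fin 5) :
    Cx.top (cx.St s) ((σ, lastS t), b) = cx.outC σ.1 (ing σ) b (bitv p (msg cx.A s σ)) := by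
  rw [top_full hσ, ← chain_enc h]
  rfl

lemma ysta_last (h : cx.Ok χ d) {σ : Slot} (h1 : σ ≠ act s.1.1) (h2 : full s.1.1 σ = true)
    (b : Fin 5) :
    Cx.top (cx.St s) ((σ, lastS t), b) = cx.outC σ.1 (ing σ) b (bitv p (msg cx.A s σ)) := by
  refine ysta_out h ?_ b
  rw [hgt, if_neg fun e => h1 (congrArg Prod.fst e), if_pos]
  simp only [fullS, h2, Bool.true_or]

theorem top_inp (h : cx.Ok χ d) (hs : Val cx.A (RR t jj N) s) {y : SS t}
    (hy : y = actS s.1 ∨ fullS s.1 y = true) (b : Fin 5) :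
    Cx.top (cx.St s) (inp s.1 y b) =
      cx.stg y.1.1 (ing y.1) (cx.encC (bitv p (msg cx.A s y.1))) y.2 b := by
  unfold inp
  split_ifs with h0
  · obtain ⟨h1, h2⟩ := ysta_msg hs.2 y.1
    rw [ysta_last h (ysta_src s.1.1 y.1).1 (ysta_src s.1.1 y.1).2, outC_ok h _ 0 h1, if_pos rfl,
      h2, h0]
    rfl
  · have h1 : y.2.val ≠ 0 := fun e => h0 (Fin.ext e)
    rw [top_full]
    · show cx.stg _ _ _ (y.2.val - 1 + 1) b = _
      rw [Nat.sub_add_cancel (by omega)]
    · have h2 : (full s.1.1 y.1 = true) ∨ (y.1 = act s.1.1 ∧ y.2 ≤ stage s.1) := by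
        rcases hy with hy | hy
        · exact Or.inr ⟨by rw [hy]; rfl, by rw [hy]; exact le_rfl⟩
        · simp only [fullS, Bool.or_eq_true, Bool.and_eq_true, decide_eq_true_eq] at hy
          exact hy.imp id fun hy => ⟨hy.1, hy.2.le⟩
      rcases h2 with h2 | h2
      · rw [hgt, if_neg, if_pos]
        · simp only [fullS, h2, Bool.true_or]
        · intro e
          have e1 : y.1 = act s.1.1 := congrArg Prod.fst e
          rw [e1, ysta_act] at h2
          exact Bool.false_ne_true h2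
      · have h3 : (⟨y.2.val - 1, lt_of_le_of_lt (Nat.sub_le _ _) y.2.2⟩ : Fin (4 * t + 4)) <
            stage s.1 := lt_of_lt_of_le (Fin.lt_def.2 (by simp only; omega)) h2.2
        rw [hgt, if_neg, if_pos]
        · simp only [fullS, h2.1, h3, decide_true, Bool.and_self, Bool.or_true]
        · intro e
          exact h3.ne (congrArg Prod.snd e)

theorem baseT_St (h : cx.Ok χ d) (hs : Val cx.A (RR t jj N) s) {y : SS t}
    (hy : y = actS s.1 ∨ fullS s.1 y = true) (b : Fin 5) :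
    cx.baseT (cx.St s) s.1 y b = cx.base y b (msg cx.A s y.1) := by
  rw [Cx.baseT, funext (top_inp h hs hy), Cx.base]

theorem top_pair (h : cx.Ok χ d) (hs : Val cx.A (RR t jj N) s) (dir : Bool) (b : Fin 5) :
    Cx.top (cx.St s) (((dir, s.1.1.1), lastS t), b) =
      if b = 0 then cx.encC (bitv p (if dir then s.2.2.2 else s.2.2.1)) else 0 := by
  obtain ⟨h1, h2⟩ := ysta_msg hs.2 (!dir, s.1.1.1)
  obtain ⟨h3, h4⟩ := ysta_src s.1.1 (!dir, s.1.1.1)
  have e : src s.1.1 (!dir, s.1.1.1) = (dir, s.1.1.1) := by simp [src]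
  rw [e] at h1 h2 h3 h4
  rw [ysta_last h h3 h4, outC_ok h _ b h1, h2]
  cases dir <;> simp [msg, Mach.msg]

theorem St_rel (h : cx.Ok χ d) (hs : Val cx.A (RR t jj N) s) : cx.Rel s.1 s.2.1 (cx.St s) := by
  refine ⟨hs.1, fun _ _ => rfl, fun _ _ => rfl, fun σ b x n => ?_, fun dir x => ?_⟩
  · simp only [ext_St hs.1]
    show stk jj _ (hgt (RR t jj N) s.1 s.2.1 σ) n x = AJ jj (stk jj
      (cx.base σ b (msg cx.A s σ.1)) (hgt (RR t jj N) s.1 s.2.1 σ) (n + 1)) x + _
    rcases lt_trichotomy (n + 1) (hgt (RR t jj N) s.1 s.2.1 σ) with h1 | h1 | h1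
    · rw [if_neg h1.ne, add_zero, stk, stk, if_pos h1, if_pos (by omega),
        show hgt (RR t jj N) s.1 s.2.1 σ - 1 - n =
          hgt (RR t jj N) s.1 s.2.1 σ - 1 - (n + 1) + 1 by omega,
        Function.iterate_succ_apply']
    · have h2 : σ = actS s.1 ∨ fullS s.1 σ = true := by
        by_contra h2
        rw [not_or] at h2
        rw [hgt, if_neg h2.1, if_neg h2.2] at h1
        omega
      rw [if_pos h1, baseT_St h hs h2, stk, stk, if_neg h1.not_lt, if_pos (by omega), AJ_zero,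
        show hgt (RR t jj N) s.1 s.2.1 σ - 1 - n = 0 by omega, Pi.zero_apply, zero_add]
      rfl
    · rw [if_neg h1.ne', add_zero, stk, stk, if_neg (by omega), if_neg (by omega), AJ_zero]
  · have h1 := congrFun (top_pair h hs dir 1) x
    rw [if_neg (by decide)] at h1
    exact h1

theorem St_inj (h : cx.Ok χ d) (hs : Val cx.A (RR t jj N) s) (hs' : Val cx.A (RR t jj N) s')
    (e : cx.St s = cx.St s') : s = s' := by
  have h1 : s.1 = s'.1 := code_inj h.hp (congrFun (congrFun e 0) (.inr true, 0))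
  have h2 : s.2.1 = s'.2.1 := by
    have h3 : (if s.2.1 = s.2.1 then (1 : ZMod p) else 0) = if s.2.1 = s'.2.1 then 1 else 0 :=
      congrFun (congrFun e 0) (.inr false, ⟨s.2.1, Nat.lt_succ_of_le hs.1⟩)
    by_contra h4
    rw [if_pos rfl, if_neg h4] at h3
    exact one_ne_zero h3
  have h3 := fun dir => top_pair h hs dir 0
  simp only [e, h1, top_pair h hs', if_true] at h3
  exact Prod.ext h1 (Prod.ext h2 (Prod.ext (encC_inj h hs'.2.1.1 hs.2.1.1 (h3 false)).symm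
    (encC_inj h hs'.2.2.1.1 hs.2.2.1.1 (h3 true)).symm))

lemma ysta_prev {A : Mach} {R : ℕ} (h1 : LNx A R s' s) (h0 : s.1.1.2 = 0) (h0' : s.1.2 = 0)
    (hj : s.2.1 = R + 1) : ∃ w, A.Edge (!s.1.1.1) w s.2.2.1 := by
  obtain ⟨⟨a1, a2⟩, -, a3⟩ := h1
  split_ifs at a3 with b1 b2 b3
  · refine ⟨s'.2.2.1, ?_⟩
    rw [a3.1, a3.2.2, nxS, if_pos b2.2, nxC, if_pos b2.1, Bool.not_not]
    exact a2
  · exfalso
    by_cases b4 : s'.1.2 = lastS t
    · have b5 : s'.1.1.2 ≠ 3 := fun e => b2 ⟨e, b4⟩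
      rw [a3.1, nxS, if_pos b4, nxC, if_neg b5] at h0
      exact absurd h0 ((by decide : ∀ ph : Fin 4, ph ≠ 3 → ph + 1 ≠ 0) _ b5)
    · rw [a3.1, nxS, if_neg b4] at h0'
      have h5 : s'.1.2 + 1 = 0 := h0'
      have h6 := congrArg Fin.val h5
      rw [Fin.val_add_one_of_lt (Fin.lt_last_iff_ne_last.2 b4)] at h6
      exact Nat.succ_ne_zero _ h6
  · rw [← a3.1, up, h0] at b3
    exact absurd b3 (by decide)
  · omega

lemma ysta_next {A : Mach} {R : ℕ} (h2 : LNx A R s s') (h3 : s.1.1.2 = 3) (h3' : s.1.2 = lastS t)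
    (hj : s.2.1 = R + 1) : ∃ w, A.Edge (!s.1.1.1) s.2.2.2 w := by
  obtain ⟨-, ⟨-, a2⟩, a3⟩ := h2
  rw [if_pos (by rw [up, h3, hj]; rfl), if_pos ⟨h3, h3'⟩, nxS, if_pos h3', nxC, if_pos h3] at a3
  rw [a3.1, a3.2.2] at a2
  exact ⟨_, a2⟩

theorem St_relE (h : cx.Ok χ d) {s'' : Sta t} (h1 : LNx cx.A (RR t jj N) s'' s)
    (h2 : LNx cx.A (RR t jj N) s s') : Cx.RelE s.1 s.2.1 (cx.St s) := by
  intro hj dir b hp hq x
  have a1 : ((dir, !s.1.1.1), lastS t) = actS s.1 := by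
    rw [actS, act, stage, up, hp, hq]
    cases dir
    · rfl
    · simp [lastS]
  show Cx.top (cx.St s) (((dir, !s.1.1.1), lastS t), b) x =
    Cx.top (cx.St s) (((!dir, s.1.1.1), lastS t), b) x
  rw [top_pair h h2.1, ysta_out h (by rw [hgt, if_pos a1, hj])]
  cases dir
  · obtain ⟨w, b1, b2, b3, b4⟩ := ysta_next h2 hp hq hj
    have a3 : msg cx.A s (false, !s.1.1.1) = w := by
      have hp' : s.1.1.2 = 3 := hp
      simp [msg, Mach.msg, hp', b3]
    rw [a3, outC_ok h _ b (by simpa [ing] using b2), b4]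
    rfl
  · obtain ⟨w, b1, b2, b3, b4⟩ := ysta_prev h1 hp hq hj
    have a3 : msg cx.A s (true, !s.1.1.1) = w := by
      have hp' : s.1.1.2 = 0 := hp
      simp [msg, Mach.msg, hp', b4]
    rw [a3, outC_ok h _ b (by simpa [ing] using b1), b3]
    rfl

theorem extW_wd (h : cx.Ok χ d) (hs : Val cx.A (RR t jj N) s) (dir : Bool) :
    cx.extW (cx.wd s) (dir, s.1.1.1) = if dir then s.2.2.2 else s.2.2.1 := by
  have h1 : ∀ y, cx.wd s (y, Pi.single (.inl (((dir, s.1.1.1), lastS t), 0), 0) 1, 0) =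
      Cx.top (cx.St s) (((dir, s.1.1.1), lastS t), 0) y := by
    intro y
    simp only [Cx.wd, hw, Cx.top, Pi.single_apply, ite_mul, one_mul, zero_mul, Finset.sum_ite_eq',
      Finset.mem_univ, if_true]
  have h2 : (if dir then s.2.2.2 else s.2.2.1).length = cx.A.k := by
    cases dir
    exacts [hs.2.1.1, hs.2.2.1.1]
  simp only [Cx.extW, h1, top_pair h hs, if_true]
  generalize (if dir then s.2.2.2 else s.2.2.1) = v at h2
  refine List.ext_getElem (by simp [h2]) fun i hi hv => ?_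
  have h3 := ev_encC h (bitv p v) (q := i) (by rw [Mach.K]; omega)
  rw [Cx.ev] at h3
  rw [List.getElem_map, List.getElem_range, h3, bitv, List.getD_eq_getElem _ _ hv]
  cases v[i] <;> simp

end Vale.Agent.P330.B
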