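import Vale.Agent.P330B.YEnc
import Vale.Agent.P330B.KCor

/-! The robust line system of a machine: states, reads and rules. -/

namespace Vale.Agent.P330.B

open Finset
open scoped BigOperators

/-- The control: parity of the current pair, phase and step inside the phase. -/
abbrev Ct (t : ℕ) := Ctl × Fin (4 * t + 4)

/-- A state: control, counter and the current edge. -/
abbrev Sta (t : ℕ) := Ct t × ℕ × List Bool × List Bool

section Ctrl

variable {t : ℕ}

/-- The last stage. -/
def lastS (t : ℕ) : Fin (4 * t + 4) := Fin.last (4 * t + 3)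

/-- The active stage. -/
def stage (κ : Ct t) : Fin (4 * t + 4) := if up κ.1 then κ.2 else κ.2.rev

/-- The active stack. -/
def actS (κ : Ct t) : SS t := (act κ.1, stage κ)

/-- The full stacks. -/
def fullS (κ : Ct t) (y : SS t) : Bool :=
  full κ.1 y.1 || (decide (y.1 = act κ.1) && decide (y.2 < stage κ))

/-- The row whose top is an input of a stack. -/
def inp (κ : Ct t) (y : SS t) (b : Fin 5) : SS t × Fin 5 :=
  if y.2 = 0 then ((src κ.1 y.1, lastS t), 0)
  else ((y.1, ⟨y.2.val - 1, lt_of_le_of_lt (Nat.sub_le _ _) y.2.2⟩), b)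

/-- The next control. -/
def nxS (κ : Ct t) : Ct t := if κ.2 = lastS t then (nxC κ.1, 0) else (κ.1, κ.2 + 1)

/-- The previous control. -/
def pvS (κ : Ct t) : Ct t := if κ.2 = 0 then (pvC κ.1, lastS t) else (κ.1, κ.2 - 1)

/-- The code of a control. -/
def code (p : ℕ) (κ : Ct t) : ZMod p :=
  ((4 * κ.1.1.toNat + κ.1.2.val) * (4 * t + 4) + κ.2.val : ℕ)

/-- The height of a stack. -/
def hgt (R : ℕ) (κ : Ct t) (j : ℕ) (y : SS t) : ℕ :=
  if y = actS κ then j else if fullS κ y then R + 1 else 0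

/-- The position `0` or the last position. -/
def posB (R : ℕ) (top : Bool) : ℕ := if top then R + 1 else 0

/-- The time of a position. -/
def tv (R : ℕ) (o : Fin 4 × Bool) (s : ℕ) : ℕ :=
  (o.1.val * (R + 2) + if o.2 then s else R + 1 - s) % 4

/-- The time offset of a control. -/
def toff (κ : Ct t) : Fin 4 × Bool := (Fin.ofNat 4 κ.2.val, up κ.1)

/-- The input word of a slot. -/
def msg (A : Mach) (s : Sta t) (σ : Slot) : List Bool := A.msg (s.1.1, s.2) σ

/-- A valid state. -/
def Val (A : Mach) (R : ℕ) (s : Sta t) : Prop := s.2.1 ≤ R + 1 ∧ A.Edge s.1.1.1 s.2.2.1 s.2.2.2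

/-- The successor relation on states. -/
def LNx (A : Mach) (R : ℕ) (s s' : Sta t) : Prop :=
  Val A R s ∧ Val A R s' ∧
    if s.2.1 = posB R (up s.1.1) then
      s'.1 = nxS s.1 ∧ s'.2.1 = posB R (!up s'.1.1) ∧
        if s.1.1.2 = 3 ∧ s.1.2 = lastS t then s'.2.2.1 = s.2.2.2 else s'.2.2 = s.2.2
    else s'.1 = s.1 ∧ s'.2.2 = s.2.2 ∧ s'.2.1 = if up s.1.1 then s.2.1 + 1 else s.2.1 - 1

/-- The two first states. -/
def s0 (t : ℕ) (A : Mach) (R : ℕ) (τ : Bool) : Sta t :=
  (((A.g0, 0), 0), if τ then R else R + 1, A.w0, A.step true A.w0)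

end Ctrl

/-- Factors: an entry of the vector near the position, a constant or indicator, a time. -/
abbrev Fac (t : ℕ) := (Row t × Fin 3) ⊕ Fin 4 ⊕ (Fin 4 × Bool)

/-- Descriptors of linear forms. -/
abbrev PD (t : ℕ) := Row t → Fac t × Fac t

/-- Descriptors of points: shift, first coordinates, line. -/
abbrev XD (M jj : ℕ) := Bool × (Fin jj → ZMod M) × ZMod M

/-- The reads. -/
abbrev QQ (M t jj : ℕ) (J : Type) := (XD M jj × PD t) ⊕ XD M jj ⊕ Unit ⊕ (J × ZMod M)

/-- The constant of a cell. -/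
abbrev GG (p t : ℕ) :=
  (Row t → Fin 3 → ZMod p) ×
    (Bool → Bool → Fin (4 * t + 4) → (Fin 5 → Bool) → Fin 5 → ZMod p) × (Bool → ZMod p)

instance finRow (t : ℕ) : Fintype (Row t) := inferInstance

instance decRow (t : ℕ) : DecidableEq (Row t) := inferInstance

instance finFac (t : ℕ) : Fintype (Fac t) := inferInstance

instance finPD (t : ℕ) : Fintype (PD t) := inferInstance

instance finXD (M jj : ℕ) [NeZero M] : Fintype (XD M jj) := inferInstance

instance finQQ (M t jj : ℕ) [NeZero M] (J : Type) [Fintype J] : Fintype (QQ M t jj J) :=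
  inferInstance

instance finTb (p t : ℕ) [NeZero p] :
    Fintype (Fin (4 * t + 4) → (Fin 5 → Bool) → Fin 5 → ZMod p) := inferInstance

instance finGG (p t : ℕ) [NeZero p] : Fintype (GG p t) :=
  @instFintypeProd _ _ inferInstance (@instFintypeProd _ _ inferInstance inferInstance)

variable {M p c t jj N : ℕ} [Fact M.Prime] [Fact p.Prime] [NeZero N] {J : Type}

/-- The constant factor or indicator: `0`, `1`, first position, last position. -/
def fK (i : Fin 4) : Fac t := .inr (.inl i)

/-- The entry of row `r` at the previous, the same or the next position. -/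
def fA (r : Row t) (i : Fin 3) : Fac t := .inl (r, i)

/-- The zero form. -/
def pdZ : PD t := fun _ => (fK 0, fK 0)

/-- A form on one row. -/
def pd1 (r : Row t) (f f' : Fac t) : PD t := fun r' => if r' = r then (f, f') else (fK 0, fK 0)

/-- The rows that move with a stack. -/
def mov (y : SS t) : Row t → Bool
  | .inl z => decide (z.1 = y)
  | .inr b => !b

/-- The form that shifts the rows of a stack and the counter. -/
def pdS (y : SS t) (i : Fin 3) : PD t := fun r => (fA r (if mov y r then i else 1), fK 1)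

/-- The extension by zero. -/
def ext (a : CC t jj N → ZMod p) (r : Row t) (n : ℕ) : ZMod p :=
  if h : n < RR t jj N + 2 then a (r, ⟨n, h⟩) else 0

/-- The value of a factor. -/
def Fac.ev (a : CC t jj N → ZMod p) (s : ℕ) : Fac t → ZMod p
  | .inl z => if s + z.2 = 0 then 0 else ext a z.1 (s + z.2 - 1)
  | .inr (.inl i) => if i = 0 then 0 else if i = 1 then 1
      else if s = posB (RR t jj N) (decide (i = 3)) then 1 else 0
  | .inr (.inr o) => (tv (RR t jj N) o s : ℕ)

/-- The vector of a form. -/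
def PD.ev (pd : PD t) (a : CC t jj N → ZMod p) : CC t jj N → ZMod p :=
  fun z => Fac.ev a z.2 (pd z.1).1 * Fac.ev a z.2 (pd z.1).2

/-- A stack of height `h`. -/
def stk (jj : ℕ) (φ : XX M N → ZMod p) (h s : ℕ) : XX M N → ZMod p :=
  if s < h then (AJ jj)^[h - 1 - s] φ else 0

section Rules

variable (χ : AddChar (ZMod M) (ZMod p)) (γ : GG p t) (ρ : QQ M t jj J → ZMod p)

/-- The own point. -/
def xd0 : XD M jj := (false, 0, 0)

/-- The value of a form at a point. -/
def val (xd : XD M jj) (pd : PD t) : ZMod p := ρ (.inl (xd, pd)) - ρ (.inl (xd, pdZ))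

/-- The own symbol. -/
def own : ZMod p := ρ (.inr (.inl xd0))

/-- The first entry of a row. -/
def at0 (r : Row t) : ZMod p := val ρ xd0 (pd1 r (fK 2) (fK 1))

open Classical in
/-- The control that is read. -/
noncomputable def gam : Ct t :=
  if h : ∃ κ : Ct t, code p κ = at0 ρ (.inr true) then h.choose else default

/-- The counter is at the first or the last position. -/
def muB (top : Bool) : ZMod p := val ρ xd0 (pd1 (.inr false) (fK (if top then 3 else 2)) (fK 1))

/-- The bottom of a stack. -/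
def basev (κ : Ct t) (y : SS t) (b : Fin 5) : ZMod p :=
  psiL (fun β => γ.2.1 y.1.1 (ing y.1) y.2 β b) (fun _ => 1) fun b' => at0 ρ (.inl (inp κ y b'))

/-- The average of a form. -/
def Aval (pd : PD t) : ZMod p :=
  ((M : ZMod p) ^ jj)⁻¹ * ∑ α : Fin jj → ZMod M, val ρ (true, α, 0) pd

/-- The symbol after a push. -/
def pushv (κ : Ct t) : ZMod p :=
  val ρ xd0 (pdS (actS κ) 2) + ∑ b, γ.1 (.inl (actS κ, b)) 0 *
    (Aval ρ (pd1 (.inl (actS κ, b)) (fK 2) (fK 1)) + muB ρ false * basev γ ρ κ (actS κ) b)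

/-- The symbol after a pop. -/
def popv (κ : Ct t) : ZMod p := val ρ xd0 (pdS (actS κ) 0)

/-- The symbol after a change of control and counter. -/
def chg (κ κ' : Ct t) (top top' : Bool) : ZMod p :=
  own ρ + γ.1 (.inr false) (if top' then 2 else 0) - γ.1 (.inr false) (if top then 2 else 0) +
    γ.1 (.inr true) 0 * (code p κ' - code p κ)

/-- The successor rule. -/
noncomputable def sucF : ZMod p :=
  if muB ρ (up (gam ρ).1) = 1 then
    chg γ ρ (gam ρ) (nxS (gam ρ)) (up (gam ρ).1) (!up (nxS (gam ρ)).1)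
  else if up (gam ρ).1 then pushv γ ρ (gam ρ) else popv ρ (gam ρ)

/-- The predecessor rule. -/
noncomputable def prdF : ZMod p :=
  if muB ρ (!up (gam ρ).1) = 1 then
    chg γ ρ (gam ρ) (pvS (gam ρ)) (!up (gam ρ).1) (up (pvS (gam ρ)).1)
  else if up (gam ρ).1 then popv ρ (gam ρ) else pushv γ ρ (gam ρ)

/-- The time rule. -/
noncomputable def tmF : ZMod 4 :=
  ((val ρ xd0 (pd1 (.inr false) (.inr (.inr (toff (gam ρ)))) (fK 1))).val : ℕ)

/-- The coefficient of the bottom of a stack. -/
def Jv (κ : Ct t) (y : SS t) (b : Fin 5) : ZMod p :=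
  if y = actS κ then val ρ xd0 (pd1 (.inr false) (fA (.inl (y, b)) 0) (fK 1))
  else if fullS κ y then γ.1 (.inl (y, b)) 1 else 0

/-- The tests for being a Hadamard codeword. -/
structure TstA (D : ℕ) : Prop where
  rep : ∀ j, ρ (.inr (.inr (.inr (j, 0)))) = own ρ
  blr : ρ (.inr (.inr (.inl ()))) = own ρ + ρ (.inl (xd0, pdZ))
  line : LD χ D fun α => ρ (.inr (.inl (false, 0, α)))

/-- The tests for being a state. -/
structure TstB (τ : Bool) : Prop where
  cst : ∀ b, val ρ (false, 0, 1) (pd1 (.inr b) (fA (.inr b) 1) (fK 1)) =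
    val ρ xd0 (pd1 (.inr b) (fA (.inr b) 1) (fK 1))
  ctl : code p (gam ρ) = at0 ρ (.inr true)
  rest : val ρ xd0 (pd1 (.inr true) (fA (.inr true) 1) (fK 1)) =
    γ.1 (.inr true) 0 * at0 ρ (.inr true)
  par : par (tmF ρ) = τ
  hot : val ρ xd0 (pd1 (.inr false) (fA (.inr false) 1) (fA (.inr true) 1)) =
    val ρ xd0 (pd1 (.inr false) (fA (.inr false) 1) (fK 1)) *
      val ρ xd0 (pd1 (.inr false) (fA (.inr true) 1) (fK 1))
  one : val ρ xd0 (pd1 (.inr false) (fK 1) (fK 1)) = 1
  stk : ∀ y b, val ρ xd0 (pd1 (.inl (y, b)) (fA (.inl (y, b)) 1) (fK 1)) =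
    Aval ρ (pd1 (.inl (y, b)) (fA (.inl (y, b)) 0) (fK 1)) +
      Jv γ ρ (gam ρ) y b * basev γ ρ (gam ρ) y b
  zero : ∀ dir, at0 ρ (.inl (((dir, (gam ρ).1.1), lastS t), 1)) = 0
  eq : muB ρ true = 1 → ∀ dir b, (gam ρ).1.2 = (if dir then 0 else 3) →
    (gam ρ).2 = (if dir then 0 else lastS t) →
    at0 ρ (.inl (((dir, !(gam ρ).1.1), lastS t), b)) =
      at0 ρ (.inl (((!dir, (gam ρ).1.1), lastS t), b))

end Rules

/-- The rules. -/
noncomputable def rule (χ : AddChar (ZMod M) (ZMod p)) (t jj : ℕ) (J : Type) [Fintype J] (D : ℕ) :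
    Rule (QQ M t jj J) (GG p t) (ZMod p) where
  tst τ γ ρ := TstA χ ρ D ∧ TstB γ ρ τ
  cor _ ρ := corF χ D fun z => ρ (.inr (.inr (.inr z)))
  suc := sucF
  prd := prdF
  tm _ ρ := tmF ρ
  z0 γ := γ.2.2

namespace Cx

variable [NeZero c] (χ : AddChar (ZMod M) (ZMod p)) (cx : Cx M p c t jj N J)

/-- The bottom of a stack of a slot with input word `w`. -/
def base (y : SS t) (b : Fin 5) (w : List Bool) : XX M N → ZMod p :=
  cx.bas y.1.1 (ing y.1) y.2 b (cx.stg y.1.1 (ing y.1) (cx.encC (bitv p w)) y.2)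

/-- The entries of the vector valued function of a state. -/
def StR (s : Sta t) (x : XX M N) : Row t → ℕ → ZMod p
  | .inl z, n =>
    stk jj (cx.base z.1 z.2 (msg cx.A s z.1.1)) (hgt (RR t jj N) s.1 s.2.1 z.1) n x
  | .inr false, n => if n = s.2.1 then 1 else 0
  | .inr true, n => if n = 0 then code p s.1 else 0

/-- The vector valued function of a state. -/
def St (s : Sta t) (x : XX M N) (z : CC t jj N) : ZMod p := cx.StR s x z.1 z.2

/-- The word of a state. -/
def wd (s : Sta t) : PP M p c t jj N → ZMod p := hw (cx.St s)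

/-- The successor relation on words. -/
def Nx (u v : PP M p c t jj N → ZMod p) : Prop :=
  ∃ s s', LNx cx.A (RR t jj N) s s' ∧ u = cx.wd s ∧ v = cx.wd s'

/-- The point of a descriptor. -/
def xa (xd : XD M jj) (x : XX M N) (i : II N c) : XX M N :=
  tw (if xd.1 then (jj : ZMod N) else 0) x + (extJ xd.2.1 + xd.2.2 • dirs cx.g i)

omit [Fact p.Prime] [NeZero N] [NeZero c] in
lemma xa_inj (xd : XD M jj) (i : II N c) {x x' : XX M N} (h : cx.xa xd x i = cx.xa xd x' i) :
    x = x' := by
  have h1 := congrArg (tw (-(if xd.1 then (jj : ZMod N) else 0))) (add_right_cancel h)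
  simpa only [tw_tw, neg_add_cancel, tw_zero] using h1

/-- The read addresses as functions. -/
def adF : QQ M t jj J → PP M p c t jj N → PP M p c t jj N
  | .inl q, z => (cx.xa q.1 z.1 z.2.2.1, q.2.ev z.2.1 + z.2.2.2.1, z.2.2.1, z.2.1, z.2.2.2.2)
  | .inr (.inl xd), z => (cx.xa xd z.1 z.2.2.1, z.2)
  | .inr (.inr (.inl _)), z => (z.1, z.2.1 + z.2.2.2.1, z.2.2)
  | .inr (.inr (.inr q)), z => orbF χ (dirs cx.g) q.2 (z.1, z.2.1, cx.sp q.1 z.2.2)

lemma adF_inj (q : QQ M t jj J) : Function.Injective (cx.adF χ q) := by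
  rintro ⟨x, a, i, r, v⟩ ⟨x', a', i', r', v'⟩ h
  rcases q with ⟨xd, pd⟩ | xd | _ | ⟨j, α⟩
  · simp only [adF, Prod.mk.injEq] at h
    obtain ⟨h1, h2, rfl, rfl, -⟩ := h
    rw [add_left_cancel h2, cx.xa_inj xd i h1]
  · simp only [adF, Prod.mk.injEq] at h
    obtain ⟨h1, rfl, rfl, rfl, -⟩ := h
    rw [cx.xa_inj xd i h1]
  · simp only [adF, Prod.mk.injEq] at h
    obtain ⟨rfl, h2, rfl, rfl, -⟩ := h
    rw [add_right_cancel h2]
  · have h2 := congrArg (orbF χ (dirs cx.g) (-α)) h
    simp only [adF, orbF_add, neg_add_cancel, orbF_zero, Prod.mk.injEq] at h2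
    obtain ⟨rfl, rfl, h3⟩ := h2
    rw [(cx.sp j).injective h3]

/-- The constant of a cell. -/
def tab (z : PP M p c t jj N) : GG p t :=
  (fun r i => ext z.2.1 r (if i = 0 then 0 else if i = 1 then RR t jj N else RR t jj N + 1),
    fun dir g s β b => cx.Tab dir g s β b z.1,
    fun τ => cx.wd (s0 t cx.A (RR t jj N) τ) z)

/-- The wiring. -/
noncomputable def sys : Sys (QQ M t jj J) (GG p t) (PP M p c t jj N) where
  ad q := Equiv.ofBijective _ (Finite.injective_iff_bijective.1 (cx.adF_inj χ q))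
  tab := cx.tab

/-- The reads of a Hadamard word. -/
noncomputable def rh (Θ : XX M N → CC t jj N → ZMod p) (z : PP M p c t jj N) :
    QQ M t jj J → ZMod p :=
  (cx.sys χ).rd (hw Θ) z

/-- The top of a stack. -/
def top (Θ : XX M N → CC t jj N → ZMod p) (r : SS t × Fin 5) (x : XX M N) : ZMod p :=
  Θ x (.inl r, 0)

/-- The bottom of a stack computed from the tops of its inputs. -/
def baseT (Θ : XX M N → CC t jj N → ZMod p) (κ : Ct t) (y : SS t) (b : Fin 5) :
    XX M N → ZMod p :=
  cx.bas y.1.1 (ing y.1) y.2 b fun b' => top Θ (inp κ y b')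

/-- The relations that hold in every valid state. -/
structure Rel (κ : Ct t) (j : ℕ) (Θ : XX M N → CC t jj N → ZMod p) : Prop where
  le : j ≤ RR t jj N + 1
  mu : ∀ x s, Θ x (.inr false, s) = if s.val = j then 1 else 0
  ctl : ∀ x s, Θ x (.inr true, s) = if s.val = 0 then code p κ else 0
  stk : ∀ y b x s, ext (Θ x) (.inl (y, b)) s =
    AJ jj (fun x' => ext (Θ x') (.inl (y, b)) (s + 1)) x +
      if s + 1 = hgt (RR t jj N) κ j y then cx.baseT Θ κ y b x else 0
  zero : ∀ dir x, Θ x (.inl (((dir, κ.1.1), lastS t), 1), 0) = 0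

/-- The relation that holds in states with both neighbours. -/
def RelE (κ : Ct t) (j : ℕ) (Θ : XX M N → CC t jj N → ZMod p) : Prop :=
  j = RR t jj N + 1 → ∀ dir b, κ.1.2 = (if dir then 0 else 3) →
    κ.2 = (if dir then 0 else lastS t) → ∀ x,
    Θ x (.inl (((dir, !κ.1.1), lastS t), b), 0) = Θ x (.inl (((!dir, κ.1.1), lastS t), b), 0)

/-- The time of a word. -/
noncomputable def time (u : PP M p c t jj N → ZMod p) : ZMod 4 := tmF ((cx.sys χ).rd u 0)

/-- The machine word in the top of the first row of a slot. -/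
def extW (u : PP M p c t jj N → ZMod p) (σ : Slot) : List Bool :=
  (List.range cx.A.k).map fun i =>
    decide (u (cx.yv (cx.cp i), Pi.single (.inl ((σ, lastS t), 0), 0) 1, 0) = 1)

end Cx

end Vale.Agent.P330.B
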